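import Vale.Agent.P268.Z.Form

/-!
# P268, block N: the isometry `A ⊕ H(F) ≅ B ⊕ H(J)` (matrix form)
-/

namespace Vale.Agent.P268.Z

open Matrix

section NAdjust

variable {G : Type} [CommGroup G] {e : ℤˣ} {ν μ : Type} [Fintype ν] [DecidableEq ν]
  [Fintype μ] [DecidableEq μ]

theorem NC.e_mul_self (e : ℤˣ) : (e : ℤ) * (e : ℤ) = 1 := by
  rw [← Units.val_mul, Int.units_mul_self, Units.val_one]

/-- Make the dual section isotropic. -/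
theorem NC.isotropic_adjust (X : GForm ℤ G e ν) (σ : G →* Matrix μ μ ℤ) (z : G) (hz : z ^ 5 = 1)
    (hσ : 1 + σ z + σ z ^ 2 + σ z ^ 3 + σ z ^ 4 = 0)
    (i s : Matrix ν μ ℤ) (hi : ∀ a, X.ρ a * i = i * σ a) (hii : iᵀ * X.g * i = 0)
    (hs : ∀ a, X.ρ a * s = s * repDual σ a) (his : iᵀ * X.g * s = 1) :
    ∃ s' : Matrix ν μ ℤ, (∀ a, X.ρ a * s' = s' * repDual σ a) ∧ iᵀ * X.g * s' = 1 ∧
      s'ᵀ * X.g * s' = 0 := by
  have hgT : X.gᵀ = (e : ℤ) • X.g := by simpa using X.symm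
  have hee := NC.e_mul_self e
  set C : Matrix μ μ ℤ := sᵀ * X.g * s with hC
  have hCT : Cᵀ = (e : ℤ) • C := by
    rw [hC, transpose_mul, transpose_mul, transpose_transpose, hgT, Matrix.smul_mul,
      Matrix.mul_smul, Matrix.mul_assoc]
  have hinv : ∀ a, σ a * σ a⁻¹ = 1 := fun a => by rw [← map_mul]; simp
  have hCσ : ∀ a, C * repDual σ a = σ a * C := by
    intro a
    have h1 : (X.ρ a * s)ᵀ * X.g * (X.ρ a * s) = C := by
      calc (X.ρ a * s)ᵀ * X.g * (X.ρ a * s) = sᵀ * ((X.ρ a)ᵀ * X.g * X.ρ a) * s := by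
            rw [transpose_mul]; simp only [Matrix.mul_assoc]
        _ = C := by rw [X.inv a]
    rw [hs a, transpose_mul] at h1
    have h2 : (repDual σ a)ᵀ = σ a⁻¹ := by
      simp [repDual, repSharp, repBar]
    rw [h2] at h1
    calc C * repDual σ a = (σ a * σ a⁻¹) * (C * repDual σ a) := by rw [hinv, Matrix.one_mul]
      _ = σ a * (σ a⁻¹ * sᵀ * X.g * (s * repDual σ a)) := by
          rw [hC]; simp only [Matrix.mul_assoc]
      _ = σ a * C := by rw [h1]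
  set t : Matrix μ μ ℤ := (e : ℤ) • ((σ z + σ (z ^ 2)) * C) with ht
  have hT : ∀ a, Cᵀ * (σ a)ᵀ = (e : ℤ) • (σ a⁻¹ * C) := by
    intro a
    have h2 : (σ a)ᵀ = repDual σ a⁻¹ := by
      simp [repDual, repSharp, repBar]
    rw [h2, hCT, Matrix.smul_mul, hCσ]
  have htT : tᵀ = (σ z⁻¹ + σ (z ^ 2)⁻¹) * C := by
    rw [ht, transpose_smul, transpose_mul, transpose_add, Matrix.mul_add, hT, hT, ← smul_add,
      smul_smul, hee, one_smul, Matrix.add_mul]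
  have hz1 : z⁻¹ = z ^ 4 := by
    rw [inv_eq_iff_mul_eq_one, ← pow_succ']; exact hz
  have hz2 : (z ^ 2)⁻¹ = z ^ 3 := by
    rw [inv_eq_iff_mul_eq_one, ← pow_add]; exact hz
  have hsum : tᵀ + (e : ℤ) • t = -C := by
    rw [htT, ht, smul_smul, hee, one_smul, ← Matrix.add_mul, hz1, hz2, map_pow, map_pow, map_pow]
    have : σ z ^ 4 + σ z ^ 3 + (σ z + σ z ^ 2) = -1 := by
      rw [eq_neg_iff_add_eq_zero, ← hσ]; abel
    rw [this, Matrix.neg_mul, Matrix.one_mul]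
  refine ⟨s + i * t, ?_, ?_, ?_⟩
  · intro a
    have htσ : t * repDual σ a = σ a * t := by
      have h5 : (σ z + σ (z ^ 2)) * σ a = σ a * (σ z + σ (z ^ 2)) := by
        rw [Matrix.add_mul, Matrix.mul_add, ← map_mul, ← map_mul, ← map_mul, ← map_mul,
          mul_comm z a, mul_comm (z ^ 2) a]
      rw [ht, Matrix.smul_mul, Matrix.mul_smul, Matrix.mul_assoc _ C, hCσ,
        ← Matrix.mul_assoc _ (σ a) C, h5, Matrix.mul_assoc (σ a)]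
    rw [Matrix.mul_add, Matrix.add_mul, hs, ← Matrix.mul_assoc, hi, Matrix.mul_assoc,
      Matrix.mul_assoc, htσ]
  · rw [Matrix.mul_add, his, ← Matrix.mul_assoc, hii, Matrix.zero_mul, add_zero]
  · have h1 : sᵀ * X.g * i = (e : ℤ) • (1 : Matrix μ μ ℤ) := by
      have := congrArg transpose his
      rw [transpose_mul, transpose_mul, transpose_transpose, hgT, Matrix.smul_mul,
        Matrix.mul_smul, transpose_one, ← Matrix.mul_assoc] at this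
      rw [← this, smul_smul, hee, one_smul]
    have h2 : (s + i * t)ᵀ * X.g * (s + i * t) =
        C + tᵀ * (iᵀ * X.g * s) + (sᵀ * X.g * i) * t + tᵀ * (iᵀ * X.g * i) * t := by
      rw [transpose_add, transpose_mul, hC]
      simp only [Matrix.add_mul, Matrix.mul_add, Matrix.mul_assoc]
      abel
    rw [h2, his, h1, hii, Matrix.mul_one, Matrix.smul_mul, Matrix.one_mul, Matrix.mul_zero,
      Matrix.zero_mul, add_zero, add_assoc, hsum, add_neg_cancel]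

end NAdjust

section NCore

variable {G : Type} [CommGroup G] {e : ℤˣ} {ι κ φ μ : Type} [Fintype ι] [DecidableEq ι]
  [Fintype κ] [DecidableEq κ] [Fintype φ] [DecidableEq φ] [Fintype μ] [DecidableEq μ]

/-- Base change of matrices to `ℚ`. -/
def NC.q {m n : Type} (M : Matrix m n ℤ) : Matrix m n ℚ := M.map (Int.castRingHom ℚ)

theorem NC.q_mul {l m n : Type} [Fintype m] (M : Matrix l m ℤ) (N : Matrix m n ℤ) :
    NC.q (M * N) = NC.q M * NC.q N := Matrix.map_mul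

theorem NC.q_add {m n : Type} (M N : Matrix m n ℤ) : NC.q (M + N) = NC.q M + NC.q N := by
  ext i j; simp [NC.q]

theorem NC.q_neg {m n : Type} (M : Matrix m n ℤ) : NC.q (-M) = -NC.q M := by
  ext i j; simp [NC.q]

theorem NC.q_sub {m n : Type} (M N : Matrix m n ℤ) : NC.q (M - N) = NC.q M - NC.q N := by
  ext i j; simp [NC.q]

theorem NC.q_zero {m n : Type} : NC.q (0 : Matrix m n ℤ) = 0 := by
  ext i j; simp [NC.q]

theorem NC.q_one {m : Type} [DecidableEq m] : NC.q (1 : Matrix m m ℤ) = 1 := by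
  ext i j
  by_cases h : i = j <;> simp [NC.q, h, Matrix.one_apply]

theorem NC.q_smul {m n : Type} (k : ℤ) (M : Matrix m n ℤ) : NC.q (k • M) = (k : ℚ) • NC.q M := by
  ext i j; simp [NC.q]

theorem NC.q_transpose {m n : Type} (M : Matrix m n ℤ) : NC.q Mᵀ = (NC.q M)ᵀ := rfl

theorem NC.q_inj {m n : Type} {M N : Matrix m n ℤ} (h : NC.q M = NC.q N) : M = N := by
  ext i j
  have := congrFun (congrFun h i) j
  simpa [NC.q] using this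

theorem NC.q_fromRows {m m' n : Type} (M : Matrix m n ℤ) (N : Matrix m' n ℤ) :
    NC.q (fromRows M N) = fromRows (NC.q M) (NC.q N) := by
  ext i j; rcases i with i | i <;> rfl

theorem NC.q_fromCols {m n n' : Type} (M : Matrix m n ℤ) (N : Matrix m n' ℤ) :
    NC.q (fromCols M N) = fromCols (NC.q M) (NC.q N) := by
  ext i j; rcases j with j | j <;> rfl

theorem NC.q_fromBlocks {m m' n n' : Type} (M : Matrix m n ℤ) (N : Matrix m n' ℤ)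
    (M' : Matrix m' n ℤ) (N' : Matrix m' n' ℤ) :
    NC.q (fromBlocks M N M' N') = fromBlocks (NC.q M) (NC.q N) (NC.q M') (NC.q N') := by
  ext i j; rcases i with i | i <;> rcases j with j | j <;> rfl

/-- The matrix `Φ = -Ξᵀ γ θ Ξ`, where `θ = -(z + z²)`. -/
def NC.Phi (B : GForm ℤ G e κ) (z : G) (Xi : Matrix κ φ ℤ) : Matrix φ φ ℤ :=
  Xiᵀ * B.g * (B.ρ z + B.ρ z ^ 2) * Xi

theorem NC.Phi_add (B : GForm ℤ G e κ) (z : G) (hz : z ^ 5 = 1)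
    (hB : 1 + B.ρ z + B.ρ z ^ 2 + B.ρ z ^ 3 + B.ρ z ^ 4 = 0) (Xi : Matrix κ φ ℤ) :
    NC.Phi B z Xi + (e : ℤ) • (NC.Phi B z Xi)ᵀ = -(Xiᵀ * B.g * Xi) := by
  have hgT : B.gᵀ = (e : ℤ) • B.g := by simpa using B.symm
  have hee := NC.e_mul_self e
  have h1 : ∀ a, (B.ρ a)ᵀ * B.g = B.g * B.ρ a⁻¹ := by
    intro a
    have h2 : B.ρ a * B.ρ a⁻¹ = 1 := by rw [← map_mul]; simp
    calc (B.ρ a)ᵀ * B.g = (B.ρ a)ᵀ * B.g * (B.ρ a * B.ρ a⁻¹) := by rw [h2, Matrix.mul_one]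
      _ = ((B.ρ a)ᵀ * B.g * B.ρ a) * B.ρ a⁻¹ := by simp only [Matrix.mul_assoc]
      _ = B.g * B.ρ a⁻¹ := by rw [B.inv]
  have hz1 : z⁻¹ = z ^ 4 := by
    rw [inv_eq_iff_mul_eq_one, ← pow_succ']; exact hz
  have hz2 : (z ^ 2)⁻¹ = z ^ 3 := by
    rw [inv_eq_iff_mul_eq_one, ← pow_add]; exact hz
  have h3 : (B.ρ z + B.ρ z ^ 2)ᵀ * B.g = B.g * (B.ρ z ^ 4 + B.ρ z ^ 3) := by
    rw [transpose_add, ← map_pow, Matrix.add_mul, h1, h1, hz1, hz2, ← Matrix.mul_add, map_pow,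
      map_pow]
  have h4 : (e : ℤ) • (NC.Phi B z Xi)ᵀ = Xiᵀ * (B.g * (B.ρ z ^ 4 + B.ρ z ^ 3)) * Xi := by
    unfold NC.Phi
    rw [← h3, transpose_mul, transpose_mul, transpose_mul, transpose_transpose, hgT]
    simp only [Matrix.smul_mul, Matrix.mul_smul, smul_smul, hee, one_smul, Matrix.mul_assoc]
  rw [h4]
  unfold NC.Phi
  have h5 : B.ρ z + B.ρ z ^ 2 + (B.ρ z ^ 4 + B.ρ z ^ 3) = -1 := by
    rw [eq_neg_iff_add_eq_zero, ← hB]; abel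
  calc Xiᵀ * B.g * (B.ρ z + B.ρ z ^ 2) * Xi + Xiᵀ * (B.g * (B.ρ z ^ 4 + B.ρ z ^ 3)) * Xi
      = Xiᵀ * B.g * (B.ρ z + B.ρ z ^ 2 + (B.ρ z ^ 4 + B.ρ z ^ 3)) * Xi := by
        simp only [Matrix.mul_add, Matrix.add_mul, Matrix.mul_assoc]
    _ = -(Xiᵀ * B.g * Xi) := by
        rw [h5]; simp only [Matrix.mul_neg, Matrix.neg_mul, Matrix.mul_one]

/-- The isotropic embedding of `J` into `A ⊕ H(F)`. -/
def NC.emb (B : GForm ℤ G e κ) (z : G) (Xi : Matrix κ φ ℤ) (j : Matrix φ μ ℤ) (U : Matrix ι μ ℤ) :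
    Matrix (ι ⊕ (φ ⊕ φ)) μ ℤ :=
  fromRows U (fromRows j (NC.Phi B z Xi * j))

/-- The rational isotropic embedding of `F`. -/
noncomputable def NC.it (B : GForm ℤ G e κ) (z : G) (Xi : Matrix κ φ ℤ) (Q : Matrix ι κ ℚ) :
    Matrix (ι ⊕ (φ ⊕ φ)) φ ℚ :=
  fromRows (Q * NC.q Xi) (fromRows 1 (NC.q (NC.Phi B z Xi)))

theorem NC.q_emb (B : GForm ℤ G e κ) (z : G) (Xi : Matrix κ φ ℤ) (j : Matrix φ μ ℤ)
    (U : Matrix ι μ ℤ) (Q : Matrix ι κ ℚ) (hU : NC.q U = Q * NC.q Xi * NC.q j) :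
    NC.q (NC.emb B z Xi j U) = NC.it B z Xi Q * NC.q j := by
  unfold NC.emb NC.it
  rw [NC.q_fromRows, NC.q_fromRows, hU, NC.q_mul, fromRows_mul, fromRows_mul, Matrix.one_mul]

theorem NC.g_add_hyp (A : GForm ℤ G e ι) (ρF : G →* Matrix φ φ ℤ) :
    (A.add (GForm.hyp e ρF)).g = fromBlocks A.g 0 0 (fromBlocks 0 1 ((e : ℤ) • 1) 0) := by
  simp [GForm.add, GForm.hyp]

theorem NC.itT_g (A : GForm ℤ G e ι) (B : GForm ℤ G e κ) (ρF : G →* Matrix φ φ ℤ) (z : G)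
    (Xi : Matrix κ φ ℤ) (Q : Matrix ι κ ℚ) :
    (NC.it B z Xi Q)ᵀ * NC.q (A.add (GForm.hyp e ρF)).g =
      fromCols ((Q * NC.q Xi)ᵀ * NC.q A.g)
        (fromCols ((e : ℚ) • (NC.q (NC.Phi B z Xi))ᵀ) 1) := by
  rw [NC.g_add_hyp, NC.q_fromBlocks, NC.q_fromBlocks]
  unfold NC.it
  rw [transpose_fromRows, transpose_fromRows, fromCols_mul_fromBlocks, fromCols_mul_fromBlocks]
  simp only [NC.q_zero, NC.q_one, NC.q_smul, Matrix.mul_zero, Matrix.mul_one, add_zero, zero_add,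
    transpose_one, Matrix.mul_smul, Matrix.one_mul]

/-- The data of the one step neighbour lemma. -/
structure NData (A : GForm ℤ G e ι) (B : GForm ℤ G e κ) (ρF : G →* Matrix φ φ ℤ)
    (σ : G →* Matrix μ μ ℤ) where
  z : G
  hz : z ^ 5 = 1
  hB : 1 + B.ρ z + B.ρ z ^ 2 + B.ρ z ^ 3 + B.ρ z ^ 4 = 0
  hσ : 1 + σ z + σ z ^ 2 + σ z ^ 3 + σ z ^ 4 = 0
  P : Matrix κ ι ℚ
  Q : Matrix ι κ ℚ
  hQP : Q * P = 1
  hPQ : P * Q = 1
  hg : Pᵀ * NC.q B.g * P = NC.q A.g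
  hρ : ∀ a, P * NC.q (A.ρ a) = NC.q (B.ρ a) * P
  Xi : Matrix κ φ ℤ
  R : Matrix φ κ ℤ
  hR : Xi * R = 1
  hXi : ∀ a, Xi * ρF a = B.ρ a * Xi
  j : Matrix φ μ ℤ
  c : Matrix μ φ ℤ
  n : ℤ
  hn : n ≠ 0
  hjc : j * c = n • 1
  hcj : c * j = n • 1
  hj : ∀ a, j * σ a = ρF a * j
  U : Matrix ι μ ℤ
  hU : NC.q U = Q * NC.q Xi * NC.q j

namespace NData

variable {A : GForm ℤ G e ι} {B : GForm ℤ G e κ} {ρF : G →* Matrix φ φ ℤ}
    {σ : G →* Matrix μ μ ℤ} (S : NData A B ρF σ)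

include S

theorem hρ' (a : G) : S.Q * NC.q (B.ρ a) = NC.q (A.ρ a) * S.Q := by
  calc S.Q * NC.q (B.ρ a) = S.Q * NC.q (B.ρ a) * (S.P * S.Q) := by rw [S.hPQ, Matrix.mul_one]
    _ = S.Q * (NC.q (B.ρ a) * S.P) * S.Q := by simp only [Matrix.mul_assoc]
    _ = S.Q * S.P * NC.q (A.ρ a) * S.Q := by rw [← S.hρ]; simp only [Matrix.mul_assoc]
    _ = NC.q (A.ρ a) * S.Q := by rw [S.hQP, Matrix.one_mul]

theorem QA : S.Qᵀ * NC.q A.g = NC.q B.g * S.P := by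
  rw [← S.hg, ← Matrix.mul_assoc, ← Matrix.mul_assoc, ← transpose_mul, S.hPQ, transpose_one,
    Matrix.one_mul]

theorem AQ : NC.q A.g * S.Q = S.Pᵀ * NC.q B.g := by
  rw [← S.hg, Matrix.mul_assoc, S.hPQ, Matrix.mul_one]

theorem QAQ : S.Qᵀ * NC.q A.g * S.Q = NC.q B.g := by
  rw [S.QA, Matrix.mul_assoc, S.hPQ, Matrix.mul_one]

/-- the embedding -/
def i : Matrix (ι ⊕ (φ ⊕ φ)) μ ℤ := NC.emb B S.z S.Xi S.j S.U

/-- the rational embedding -/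
noncomputable def it : Matrix (ι ⊕ (φ ⊕ φ)) φ ℚ := NC.it B S.z S.Xi S.Q

theorem q_i : NC.q S.i = S.it * NC.q S.j := NC.q_emb B S.z S.Xi S.j S.U S.Q S.hU

theorem hPhi : NC.Phi B S.z S.Xi + (e : ℤ) • (NC.Phi B S.z S.Xi)ᵀ = -(S.Xiᵀ * B.g * S.Xi) :=
  NC.Phi_add B S.z S.hz S.hB S.Xi

theorem hPhiq : NC.q (NC.Phi B S.z S.Xi) + (e : ℚ) • (NC.q (NC.Phi B S.z S.Xi))ᵀ =
    -((NC.q S.Xi)ᵀ * NC.q B.g * NC.q S.Xi) := by
  have := congrArg NC.q S.hPhi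
  rw [NC.q_add, NC.q_smul, NC.q_neg, NC.q_mul, NC.q_mul, NC.q_transpose, NC.q_transpose] at this
  exact_mod_cast this

theorem itT_g : S.itᵀ * NC.q (A.add (GForm.hyp e ρF)).g =
      fromCols ((S.Q * NC.q S.Xi)ᵀ * NC.q A.g)
        (fromCols ((e : ℚ) • (NC.q (NC.Phi B S.z S.Xi))ᵀ) 1) :=
  NC.itT_g A B ρF S.z S.Xi S.Q

theorem it_iso : S.itᵀ * NC.q (A.add (GForm.hyp e ρF)).g * S.it = 0 := by
  rw [S.itT_g]
  unfold it NC.it
  rw [fromCols_mul_fromRows, fromCols_mul_fromRows, Matrix.mul_one, Matrix.one_mul,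
    transpose_mul]
  have h1 : (NC.q S.Xi)ᵀ * S.Qᵀ * NC.q A.g * (S.Q * NC.q S.Xi) =
      (NC.q S.Xi)ᵀ * NC.q B.g * NC.q S.Xi := by
    rw [← S.QAQ]; simp only [Matrix.mul_assoc]
  rw [h1, add_comm ((e : ℚ) • _), S.hPhiq, add_neg_cancel]

theorem i_iso : S.iᵀ * (A.add (GForm.hyp e ρF)).g * S.i = 0 := by
  apply NC.q_inj
  rw [NC.q_mul, NC.q_mul, NC.q_transpose, S.q_i, transpose_mul, NC.q_zero]
  calc (NC.q S.j)ᵀ * S.itᵀ * NC.q (A.add (GForm.hyp e ρF)).g * (S.it * NC.q S.j)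
      = (NC.q S.j)ᵀ * (S.itᵀ * NC.q (A.add (GForm.hyp e ρF)).g * S.it) * NC.q S.j := by
        simp only [Matrix.mul_assoc]
    _ = 0 := by rw [S.it_iso, Matrix.mul_zero, Matrix.zero_mul]

theorem hPhi_equiv (a : G) : repDual ρF a * NC.Phi B S.z S.Xi = NC.Phi B S.z S.Xi * ρF a := by
  have h1 : ∀ a, (B.ρ a⁻¹)ᵀ * B.g = B.g * B.ρ a := by
    intro a
    have h2 : B.ρ a⁻¹ * B.ρ a = 1 := by rw [← map_mul]; simp
    calc (B.ρ a⁻¹)ᵀ * B.g = (B.ρ a⁻¹)ᵀ * B.g * (B.ρ a⁻¹ * B.ρ a) := by rw [h2, Matrix.mul_one]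
      _ = ((B.ρ a⁻¹)ᵀ * B.g * B.ρ a⁻¹) * B.ρ a := by simp only [Matrix.mul_assoc]
      _ = B.g * B.ρ a := by rw [B.inv]
  have h2 : repDual ρF a = (ρF a⁻¹)ᵀ := rfl
  have h3 : (ρF a⁻¹)ᵀ * S.Xiᵀ = S.Xiᵀ * (B.ρ a⁻¹)ᵀ := by
    rw [← transpose_mul, S.hXi, transpose_mul]
  have h4 : B.ρ a * (B.ρ S.z + B.ρ S.z ^ 2) = (B.ρ S.z + B.ρ S.z ^ 2) * B.ρ a := by
    rw [← map_pow, Matrix.mul_add, Matrix.add_mul, ← map_mul, ← map_mul, ← map_mul, ← map_mul,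
      mul_comm a S.z, mul_comm a (S.z ^ 2)]
  rw [h2]
  unfold NC.Phi
  calc (ρF a⁻¹)ᵀ * (S.Xiᵀ * B.g * (B.ρ S.z + B.ρ S.z ^ 2) * S.Xi)
      = ((ρF a⁻¹)ᵀ * S.Xiᵀ) * B.g * (B.ρ S.z + B.ρ S.z ^ 2) * S.Xi := by
        simp only [Matrix.mul_assoc]
    _ = S.Xiᵀ * ((B.ρ a⁻¹)ᵀ * B.g) * (B.ρ S.z + B.ρ S.z ^ 2) * S.Xi := by
        rw [h3]; simp only [Matrix.mul_assoc]
    _ = S.Xiᵀ * B.g * (B.ρ a * (B.ρ S.z + B.ρ S.z ^ 2)) * S.Xi := by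
        rw [h1]; simp only [Matrix.mul_assoc]
    _ = S.Xiᵀ * B.g * (B.ρ S.z + B.ρ S.z ^ 2) * (B.ρ a * S.Xi) := by
        rw [h4]; simp only [Matrix.mul_assoc]
    _ = S.Xiᵀ * B.g * (B.ρ S.z + B.ρ S.z ^ 2) * S.Xi * ρF a := by
        rw [← S.hXi]; simp only [Matrix.mul_assoc]

theorem U_equiv (a : G) : A.ρ a * S.U = S.U * σ a := by
  apply NC.q_inj
  rw [NC.q_mul, NC.q_mul, S.hU]
  calc NC.q (A.ρ a) * (S.Q * NC.q S.Xi * NC.q S.j)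
      = (NC.q (A.ρ a) * S.Q) * NC.q S.Xi * NC.q S.j := by simp only [Matrix.mul_assoc]
    _ = S.Q * (NC.q (B.ρ a) * NC.q S.Xi) * NC.q S.j := by
        rw [← S.hρ']; simp only [Matrix.mul_assoc]
    _ = S.Q * NC.q S.Xi * (NC.q (ρF a) * NC.q S.j) := by
        rw [← NC.q_mul, ← S.hXi, NC.q_mul]; simp only [Matrix.mul_assoc]
    _ = S.Q * NC.q S.Xi * NC.q S.j * NC.q (σ a) := by
        rw [← NC.q_mul, ← S.hj, NC.q_mul]; simp only [Matrix.mul_assoc]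

theorem i_equiv (a : G) : (A.add (GForm.hyp e ρF)).ρ a * S.i = S.i * σ a := by
  have h1 : (A.add (GForm.hyp e ρF)).ρ a =
      fromBlocks (A.ρ a) 0 0 (fromBlocks (ρF a) 0 0 (repDual ρF a)) := rfl
  rw [h1]
  unfold i NC.emb
  rw [fromBlocks_mul_fromRows, fromBlocks_mul_fromRows, fromRows_mul, fromRows_mul, S.U_equiv]
  simp only [Matrix.zero_mul, add_zero, zero_add]
  rw [S.hj, ← Matrix.mul_assoc, S.hPhi_equiv, Matrix.mul_assoc, ← S.hj, Matrix.mul_assoc]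

theorem hc (a : G) : S.c * ρF a = σ a * S.c := by
  have h1 : S.n • (S.c * ρF a) = S.n • (σ a * S.c) := by
    calc S.n • (S.c * ρF a) = S.c * (ρF a * (S.n • 1)) := by
          rw [Matrix.mul_smul, Matrix.mul_one, Matrix.mul_smul]
      _ = S.c * (ρF a * S.j) * S.c := by rw [← S.hjc]; simp only [Matrix.mul_assoc]
      _ = (S.c * S.j) * σ a * S.c := by rw [← S.hj]; simp only [Matrix.mul_assoc]
      _ = S.n • (σ a * S.c) := by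
          rw [S.hcj, Matrix.smul_mul, Matrix.one_mul, Matrix.smul_mul]
  ext x y
  have h2 := congrFun (congrFun h1 x) y
  simp only [Matrix.smul_apply, smul_eq_mul] at h2
  exact mul_left_cancel₀ S.hn h2

/-- The partial section with multiplier `n`. -/
def sn : Matrix (ι ⊕ (φ ⊕ φ)) μ ℤ := fromRows 0 (fromRows 0 S.cᵀ)

theorem i_sn : S.iᵀ * (A.add (GForm.hyp e ρF)).g * S.sn = S.n • 1 := by
  rw [NC.g_add_hyp]
  unfold i NC.emb sn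
  rw [transpose_fromRows, transpose_fromRows, fromCols_mul_fromBlocks, fromCols_mul_fromBlocks,
    fromCols_mul_fromRows]
  simp only [Matrix.mul_zero, Matrix.mul_one, add_zero, zero_add]
  rw [fromCols_mul_fromRows, Matrix.mul_zero, zero_add, ← transpose_mul, S.hcj, transpose_smul,
    transpose_one]

theorem sn_equiv (a : G) : (A.add (GForm.hyp e ρF)).ρ a * S.sn = S.sn * repDual σ a := by
  have h1 : (A.add (GForm.hyp e ρF)).ρ a =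
      fromBlocks (A.ρ a) 0 0 (fromBlocks (ρF a) 0 0 (repDual ρF a)) := rfl
  have h2 : repDual ρF a = (ρF a⁻¹)ᵀ := rfl
  have h3 : repDual σ a = (σ a⁻¹)ᵀ := rfl
  rw [h1]
  unfold sn
  rw [fromBlocks_mul_fromRows, fromBlocks_mul_fromRows, fromRows_mul, fromRows_mul]
  simp only [Matrix.mul_zero, Matrix.zero_mul, add_zero, zero_add]
  rw [h2, h3, ← transpose_mul, ← transpose_mul, S.hc]

/-- The rational projection `(m, f, χ) ↦ P m - Ξ f`. -/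
noncomputable def K : Matrix κ (ι ⊕ (φ ⊕ φ)) ℚ := fromCols S.P (fromCols (-NC.q S.Xi) 0)

/-- The integral matrix which agrees with `K` on the orthogonal complement of `J`. -/
noncomputable def W0 : Matrix κ (ι ⊕ (φ ⊕ φ)) ℤ :=
  fromCols 0 (fromCols ((B.ρ S.z + B.ρ S.z ^ 2) * S.Xi) (-(B.g⁻¹ * S.Rᵀ)))

theorem ginv : B.g⁻¹ * B.g = 1 := Matrix.nonsing_inv_mul _ B.unimod

theorem K_eq : S.K = NC.q S.W0 + NC.q (B.g⁻¹ * S.Rᵀ) *
    (S.itᵀ * NC.q (A.add (GForm.hyp e ρF)).g) := by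
  rw [S.itT_g]
  unfold K W0
  have hRX : (NC.q S.R)ᵀ * (NC.q S.Xi)ᵀ = 1 := by
    rw [← transpose_mul, ← NC.q_mul, S.hR, NC.q_one, transpose_one]
  have hgg : NC.q B.g⁻¹ * NC.q B.g = 1 := by rw [← NC.q_mul, S.ginv, NC.q_one]
  have hgR : NC.q (B.g⁻¹ * S.Rᵀ) = NC.q B.g⁻¹ * (NC.q S.R)ᵀ := by rw [NC.q_mul, NC.q_transpose]
  have h1 : NC.q (B.g⁻¹ * S.Rᵀ) * ((S.Q * NC.q S.Xi)ᵀ * NC.q A.g) = S.P := by
    rw [hgR, transpose_mul]
    calc NC.q B.g⁻¹ * (NC.q S.R)ᵀ * ((NC.q S.Xi)ᵀ * S.Qᵀ * NC.q A.g)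
        = NC.q B.g⁻¹ * ((NC.q S.R)ᵀ * (NC.q S.Xi)ᵀ) * (S.Qᵀ * NC.q A.g) := by
          simp only [Matrix.mul_assoc]
      _ = (NC.q B.g⁻¹ * NC.q B.g) * S.P := by
          rw [hRX, S.QA, Matrix.mul_one]; simp only [Matrix.mul_assoc]
      _ = S.P := by rw [hgg, Matrix.one_mul]
  have h2 : NC.q (B.g⁻¹ * S.Rᵀ) * ((e : ℚ) • (NC.q (NC.Phi B S.z S.Xi))ᵀ) =
      -NC.q S.Xi - NC.q ((B.ρ S.z + B.ρ S.z ^ 2) * S.Xi) := by
    have h3 : (e : ℚ) • (NC.q (NC.Phi B S.z S.Xi))ᵀ =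
        -((NC.q S.Xi)ᵀ * NC.q B.g * NC.q S.Xi) - NC.q (NC.Phi B S.z S.Xi) := by
      rw [← S.hPhiq]; abel
    have h4 : NC.q (NC.Phi B S.z S.Xi) =
        (NC.q S.Xi)ᵀ * (NC.q B.g * NC.q ((B.ρ S.z + B.ρ S.z ^ 2) * S.Xi)) := by
      unfold NC.Phi
      rw [← NC.q_mul, ← NC.q_transpose, ← NC.q_mul]
      simp only [Matrix.mul_assoc]
    have h5 : ∀ M : Matrix κ φ ℚ, NC.q (B.g⁻¹ * S.Rᵀ) * ((NC.q S.Xi)ᵀ * (NC.q B.g * M)) = M := by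
      intro M
      rw [hgR]
      calc NC.q B.g⁻¹ * (NC.q S.R)ᵀ * ((NC.q S.Xi)ᵀ * (NC.q B.g * M))
          = NC.q B.g⁻¹ * ((NC.q S.R)ᵀ * (NC.q S.Xi)ᵀ) * NC.q B.g * M := by
            simp only [Matrix.mul_assoc]
        _ = M := by rw [hRX, Matrix.mul_one, hgg, Matrix.one_mul]
    rw [h3, h4, Matrix.mul_sub, Matrix.mul_neg, Matrix.mul_assoc, h5, h5]
  rw [mul_fromCols, mul_fromCols, h1, h2, Matrix.mul_one, NC.q_fromCols, NC.q_fromCols,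
    NC.q_zero, NC.q_neg]
  ext x y
  rcases y with y | y | y <;>
    simp only [Matrix.add_apply, Matrix.neg_apply, Matrix.sub_apply, Matrix.zero_apply,
      fromCols_apply_inl, fromCols_apply_inr] <;> ring

theorem g_eq : NC.q (A.add (GForm.hyp e ρF)).g = S.Kᵀ * NC.q B.g * S.K +
    (fromCols 0 (fromCols 1 0) : Matrix φ (ι ⊕ (φ ⊕ φ)) ℚ)ᵀ *
      (S.itᵀ * NC.q (A.add (GForm.hyp e ρF)).g) +
    (S.itᵀ * (NC.q (A.add (GForm.hyp e ρF)).g)ᵀ)ᵀ *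
      (fromCols 0 (fromCols 1 0) : Matrix φ (ι ⊕ (φ ⊕ φ)) ℚ) := by
  have hT : (A.add (GForm.hyp e ρF)).gᵀ = (e : ℤ) • (A.add (GForm.hyp e ρF)).g := by
    simpa using (A.add (GForm.hyp e ρF)).symm
  have hee := NC.e_mul_self e
  have hee' : (e : ℚ) * (e : ℚ) = 1 := by exact_mod_cast hee
  have hT' : (NC.q (A.add (GForm.hyp e ρF)).g)ᵀ = (e : ℚ) • NC.q (A.add (GForm.hyp e ρF)).g := by
    rw [← NC.q_transpose, hT, NC.q_smul]
  rw [hT', Matrix.mul_smul, S.itT_g]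
  have hAT : (NC.q A.g)ᵀ = (e : ℚ) • NC.q A.g := by
    have : A.gᵀ = (e : ℤ) • A.g := by simpa using A.symm
    rw [← NC.q_transpose, this, NC.q_smul]
  have hBT : (NC.q B.g)ᵀ = (e : ℚ) • NC.q B.g := by
    have : B.gᵀ = (e : ℤ) • B.g := by simpa using B.symm
    rw [← NC.q_transpose, this, NC.q_smul]
  have h1 : S.Pᵀ * NC.q B.g * S.P = NC.q A.g := S.hg
  set X1 : Matrix φ ι ℚ := (S.Q * NC.q S.Xi)ᵀ * NC.q A.g with hX1d
  set X2 : Matrix φ φ ℚ := (e : ℚ) • (NC.q (NC.Phi B S.z S.Xi))ᵀ with hX2d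
  have hX1 : X1 = (NC.q S.Xi)ᵀ * NC.q B.g * S.P := by
    rw [hX1d, transpose_mul, Matrix.mul_assoc, S.QA, Matrix.mul_assoc]
  have hX1T : (e : ℚ) • X1ᵀ = S.Pᵀ * NC.q B.g * NC.q S.Xi := by
    rw [hX1d, transpose_mul, transpose_transpose, hAT, Matrix.smul_mul, smul_smul, hee', one_smul,
      ← Matrix.mul_assoc, S.AQ]
  have hX2 : (NC.q S.Xi)ᵀ * NC.q B.g * NC.q S.Xi + X2 + (e : ℚ) • X2ᵀ = 0 := by
    rw [hX2d, transpose_smul, transpose_transpose, smul_smul, hee', one_smul, add_assoc,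
      add_comm ((e : ℚ) • _), S.hPhiq, add_neg_cancel]
  rw [NC.g_add_hyp, NC.q_fromBlocks, NC.q_fromBlocks]
  have e1 : S.Kᵀ * NC.q B.g * S.K = fromBlocks (S.Pᵀ * NC.q B.g * S.P)
      (fromCols (-(S.Pᵀ * NC.q B.g * NC.q S.Xi)) 0)
      (fromRows (-((NC.q S.Xi)ᵀ * NC.q B.g * S.P)) 0)
      (fromBlocks ((NC.q S.Xi)ᵀ * NC.q B.g * NC.q S.Xi) 0 0 0) := by
    unfold K
    rw [transpose_fromCols, transpose_fromCols, fromRows_mul, fromRows_mul_fromCols,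
      mul_fromCols, fromRows_mul, fromRows_mul, fromRows_mul_fromCols, transpose_neg,
      transpose_zero]
    simp only [Matrix.mul_neg, Matrix.neg_mul, Matrix.mul_zero, Matrix.zero_mul, neg_neg,
      neg_zero]
  have e2 : (fromCols 0 (fromCols 1 0) : Matrix φ (ι ⊕ (φ ⊕ φ)) ℚ)ᵀ *
      fromCols X1 (fromCols X2 (1 : Matrix φ φ ℚ)) =
      fromBlocks 0 0 (fromRows X1 0) (fromBlocks X2 1 0 0) := by
    rw [transpose_fromCols, transpose_fromCols, fromRows_mul_fromCols, fromRows_mul,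
      fromRows_mul_fromCols]
    simp only [transpose_zero, transpose_one, Matrix.mul_zero, Matrix.zero_mul, Matrix.one_mul]
  have e3 : ((e : ℚ) • fromCols X1 (fromCols X2 (1 : Matrix φ φ ℚ)))ᵀ *
      (fromCols 0 (fromCols 1 0) : Matrix φ (ι ⊕ (φ ⊕ φ)) ℚ) =
      fromBlocks 0 (fromCols ((e : ℚ) • X1ᵀ) 0) 0
        (fromBlocks ((e : ℚ) • X2ᵀ) 0 ((e : ℚ) • 1) 0) := by
    rw [transpose_smul, transpose_fromCols, transpose_fromCols, Matrix.smul_mul,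
      fromRows_mul_fromCols, mul_fromCols, fromRows_mul_fromCols, fromBlocks_smul,
      fromBlocks_smul]
    simp only [transpose_zero, transpose_one, Matrix.mul_zero, Matrix.zero_mul, Matrix.mul_one,
      smul_zero]
    congr 1
    ext x y
    rcases y with y | y <;> simp
  rw [e1, e2, e3, fromBlocks_add, fromBlocks_add, fromBlocks_add, fromBlocks_add, h1, hX1T, ← hX1,
    hX2]
  simp only [NC.q_zero, NC.q_one, NC.q_smul, add_zero, zero_add]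
  congr 1
  · ext x y
    rcases y with y | y <;> simp
  · ext x y
    rcases x with x | x <;> simp

/-- The complement projection `1 - s iᵀ γ`. -/
def pr (s : Matrix (ι ⊕ (φ ⊕ φ)) μ ℤ) : Matrix (ι ⊕ (φ ⊕ φ)) (ι ⊕ (φ ⊕ φ)) ℤ :=
  1 - s * (S.iᵀ * (A.add (GForm.hyp e ρF)).g)

/-- The component in `B`. -/
noncomputable def W (s : Matrix (ι ⊕ (φ ⊕ φ)) μ ℤ) : Matrix κ (ι ⊕ (φ ⊕ φ)) ℤ := S.W0 * S.pr s

/-- The isometry. -/
noncomputable def Psi (s : Matrix (ι ⊕ (φ ⊕ φ)) μ ℤ) :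
    Matrix (κ ⊕ (μ ⊕ μ)) (ι ⊕ (φ ⊕ φ)) ℤ :=
  fromRows (S.W s) (fromRows ((e : ℤ) • (sᵀ * (A.add (GForm.hyp e ρF)).g))
    (S.iᵀ * (A.add (GForm.hyp e ρF)).g))

theorem i_pr (s : Matrix (ι ⊕ (φ ⊕ φ)) μ ℤ)
    (hs : S.iᵀ * (A.add (GForm.hyp e ρF)).g * s = 1) :
    S.iᵀ * (A.add (GForm.hyp e ρF)).g * S.pr s = 0 := by
  unfold pr
  rw [Matrix.mul_sub, Matrix.mul_one, ← Matrix.mul_assoc, hs, Matrix.one_mul, sub_self]

theorem it_pr (s : Matrix (ι ⊕ (φ ⊕ φ)) μ ℤ)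
    (hs : S.iᵀ * (A.add (GForm.hyp e ρF)).g * s = 1) :
    S.itᵀ * NC.q (A.add (GForm.hyp e ρF)).g * NC.q (S.pr s) = 0 := by
  have h1 := congrArg NC.q (S.i_pr s hs)
  rw [NC.q_mul, NC.q_mul, NC.q_transpose, S.q_i, transpose_mul, NC.q_zero] at h1
  have h2 : (NC.q S.c)ᵀ * (NC.q S.j)ᵀ = (S.n : ℚ) • 1 := by
    rw [← transpose_mul, ← NC.q_mul, S.hjc, NC.q_smul, NC.q_one, transpose_smul, transpose_one]
  have h3 : (S.n : ℚ) • (S.itᵀ * NC.q (A.add (GForm.hyp e ρF)).g * NC.q (S.pr s)) = 0 := by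
    calc (S.n : ℚ) • (S.itᵀ * NC.q (A.add (GForm.hyp e ρF)).g * NC.q (S.pr s))
        = ((NC.q S.c)ᵀ * (NC.q S.j)ᵀ) *
            (S.itᵀ * NC.q (A.add (GForm.hyp e ρF)).g * NC.q (S.pr s)) := by
          rw [h2, Matrix.smul_mul, Matrix.one_mul]
      _ = (NC.q S.c)ᵀ * ((NC.q S.j)ᵀ * S.itᵀ * NC.q (A.add (GForm.hyp e ρF)).g *
            NC.q (S.pr s)) := by simp only [Matrix.mul_assoc]
      _ = 0 := by rw [h1, Matrix.mul_zero]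
  have hn : (S.n : ℚ) ≠ 0 := by exact_mod_cast S.hn
  exact (smul_eq_zero.mp h3).resolve_left hn

theorem q_W (s : Matrix (ι ⊕ (φ ⊕ φ)) μ ℤ)
    (hs : S.iᵀ * (A.add (GForm.hyp e ρF)).g * s = 1) : NC.q (S.W s) = S.K * NC.q (S.pr s) := by
  unfold W
  rw [NC.q_mul, S.K_eq, Matrix.add_mul, Matrix.mul_assoc (NC.q (B.g⁻¹ * S.Rᵀ)), S.it_pr s hs,
    Matrix.mul_zero, add_zero]

theorem W_form (s : Matrix (ι ⊕ (φ ⊕ φ)) μ ℤ)
    (hs : S.iᵀ * (A.add (GForm.hyp e ρF)).g * s = 1) :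
    (S.W s)ᵀ * B.g * S.W s = (S.pr s)ᵀ * (A.add (GForm.hyp e ρF)).g * S.pr s := by
  have hT : (A.add (GForm.hyp e ρF)).gᵀ = (e : ℤ) • (A.add (GForm.hyp e ρF)).g := by
    simpa using (A.add (GForm.hyp e ρF)).symm
  have hT' : (NC.q (A.add (GForm.hyp e ρF)).g)ᵀ = (e : ℚ) • NC.q (A.add (GForm.hyp e ρF)).g := by
    rw [← NC.q_transpose, hT, NC.q_smul]
  apply NC.q_inj
  rw [NC.q_mul, NC.q_mul, NC.q_transpose, S.q_W s hs, NC.q_mul, NC.q_mul, NC.q_transpose]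
  have h1 : (NC.q (S.pr s))ᵀ * (S.itᵀ * (NC.q (A.add (GForm.hyp e ρF)).g)ᵀ)ᵀ = 0 := by
    rw [← transpose_mul, hT', Matrix.mul_smul, Matrix.smul_mul, S.it_pr s hs, smul_zero,
      transpose_zero]
  conv_rhs => rw [S.g_eq]
  rw [Matrix.mul_add, Matrix.mul_add, Matrix.add_mul, Matrix.add_mul]
  have h2 : (NC.q (S.pr s))ᵀ * ((fromCols 0 (fromCols 1 0) : Matrix φ (ι ⊕ (φ ⊕ φ)) ℚ)ᵀ *
      (S.itᵀ * NC.q (A.add (GForm.hyp e ρF)).g)) * NC.q (S.pr s) = 0 := by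
    rw [Matrix.mul_assoc, Matrix.mul_assoc, S.it_pr s hs, Matrix.mul_zero, Matrix.mul_zero]
  have h3 : (NC.q (S.pr s))ᵀ * ((S.itᵀ * (NC.q (A.add (GForm.hyp e ρF)).g)ᵀ)ᵀ *
      (fromCols 0 (fromCols 1 0) : Matrix φ (ι ⊕ (φ ⊕ φ)) ℚ)) * NC.q (S.pr s) = 0 := by
    rw [← Matrix.mul_assoc, h1, Matrix.zero_mul, Matrix.zero_mul]
  rw [h2, h3, add_zero, add_zero, transpose_mul]
  simp only [Matrix.mul_assoc]

theorem pr_form (s : Matrix (ι ⊕ (φ ⊕ φ)) μ ℤ)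
    (hs : S.iᵀ * (A.add (GForm.hyp e ρF)).g * s = 1)
    (hss : sᵀ * (A.add (GForm.hyp e ρF)).g * s = 0) :
    (S.pr s)ᵀ * (A.add (GForm.hyp e ρF)).g * S.pr s = (A.add (GForm.hyp e ρF)).g -
      (A.add (GForm.hyp e ρF)).g * s * (S.iᵀ * (A.add (GForm.hyp e ρF)).g) -
      (S.iᵀ * (A.add (GForm.hyp e ρF)).g)ᵀ * (sᵀ * (A.add (GForm.hyp e ρF)).g) := by
  unfold pr
  set g := (A.add (GForm.hyp e ρF)).g
  rw [transpose_sub, transpose_one, transpose_mul, Matrix.sub_mul, Matrix.sub_mul,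
    Matrix.mul_sub, Matrix.mul_sub, Matrix.one_mul, Matrix.mul_one, Matrix.mul_one]
  have h1 : (S.iᵀ * g)ᵀ * sᵀ * g * (s * (S.iᵀ * g)) = 0 := by
    calc (S.iᵀ * g)ᵀ * sᵀ * g * (s * (S.iᵀ * g)) = (S.iᵀ * g)ᵀ * (sᵀ * g * s) * (S.iᵀ * g) := by
          simp only [Matrix.mul_assoc]
      _ = 0 := by rw [hss, Matrix.mul_zero, Matrix.zero_mul]
  rw [h1, sub_zero]
  simp only [Matrix.mul_assoc]

theorem Psi_form (s : Matrix (ι ⊕ (φ ⊕ φ)) μ ℤ)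
    (hs : S.iᵀ * (A.add (GForm.hyp e ρF)).g * s = 1)
    (hss : sᵀ * (A.add (GForm.hyp e ρF)).g * s = 0) :
    (S.Psi s)ᵀ * (B.add (GForm.hyp e σ)).g * S.Psi s = (A.add (GForm.hyp e ρF)).g := by
  have hT : (A.add (GForm.hyp e ρF)).gᵀ = (e : ℤ) • (A.add (GForm.hyp e ρF)).g := by
    simpa using (A.add (GForm.hyp e ρF)).symm
  have hee := NC.e_mul_self e
  rw [NC.g_add_hyp B σ]
  unfold Psi
  rw [transpose_fromRows, transpose_fromRows, fromCols_mul_fromBlocks, fromCols_mul_fromBlocks,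
    fromCols_mul_fromRows]
  simp only [Matrix.mul_zero, Matrix.mul_one, add_zero, zero_add]
  rw [fromCols_mul_fromRows, S.W_form s hs, S.pr_form s hs hss]
  have h1 : ((e : ℤ) • (sᵀ * (A.add (GForm.hyp e ρF)).g))ᵀ = (A.add (GForm.hyp e ρF)).g * s := by
    rw [transpose_smul, transpose_mul, transpose_transpose, hT, Matrix.smul_mul, smul_smul, hee,
      one_smul]
  rw [h1]
  have h2 : (S.iᵀ * (A.add (GForm.hyp e ρF)).g)ᵀ * ((e : ℤ) • (1 : Matrix μ μ ℤ)) *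
      ((e : ℤ) • (sᵀ * (A.add (GForm.hyp e ρF)).g)) =
      (S.iᵀ * (A.add (GForm.hyp e ρF)).g)ᵀ * (sᵀ * (A.add (GForm.hyp e ρF)).g) := by
    rw [Matrix.mul_smul, Matrix.mul_smul, Matrix.smul_mul, smul_smul, hee, one_smul,
      Matrix.mul_one]
  rw [h2]
  abel

theorem g_equiv (a : G) : ((A.add (GForm.hyp e ρF)).ρ a⁻¹)ᵀ * (A.add (GForm.hyp e ρF)).g =
    (A.add (GForm.hyp e ρF)).g * (A.add (GForm.hyp e ρF)).ρ a := by
  have h1 : (A.add (GForm.hyp e ρF)).ρ a⁻¹ * (A.add (GForm.hyp e ρF)).ρ a = 1 := by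
    rw [← map_mul]; simp
  calc ((A.add (GForm.hyp e ρF)).ρ a⁻¹)ᵀ * (A.add (GForm.hyp e ρF)).g
      = ((A.add (GForm.hyp e ρF)).ρ a⁻¹)ᵀ * (A.add (GForm.hyp e ρF)).g *
        ((A.add (GForm.hyp e ρF)).ρ a⁻¹ * (A.add (GForm.hyp e ρF)).ρ a) := by
        rw [h1, Matrix.mul_one]
    _ = (((A.add (GForm.hyp e ρF)).ρ a⁻¹)ᵀ * (A.add (GForm.hyp e ρF)).g *
        (A.add (GForm.hyp e ρF)).ρ a⁻¹) * (A.add (GForm.hyp e ρF)).ρ a := by
        simp only [Matrix.mul_assoc]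
    _ = _ := by rw [(A.add (GForm.hyp e ρF)).inv]

theorem iT_equiv (a : G) : S.iᵀ * (A.add (GForm.hyp e ρF)).g * (A.add (GForm.hyp e ρF)).ρ a =
    repDual σ a * (S.iᵀ * (A.add (GForm.hyp e ρF)).g) := by
  have h3 : repDual σ a = (σ a⁻¹)ᵀ := rfl
  rw [Matrix.mul_assoc, ← S.g_equiv, ← Matrix.mul_assoc, ← transpose_mul, S.i_equiv, h3,
    transpose_mul, Matrix.mul_assoc]

theorem sT_equiv (s : Matrix (ι ⊕ (φ ⊕ φ)) μ ℤ)
    (hsρ : ∀ a, (A.add (GForm.hyp e ρF)).ρ a * s = s * repDual σ a) (a : G) :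
    sᵀ * (A.add (GForm.hyp e ρF)).g * (A.add (GForm.hyp e ρF)).ρ a =
      σ a * (sᵀ * (A.add (GForm.hyp e ρF)).g) := by
  have h3 : (repDual σ a⁻¹)ᵀ = σ a := by simp [repDual, repSharp, repBar]
  rw [Matrix.mul_assoc, ← S.g_equiv, ← Matrix.mul_assoc, ← transpose_mul, hsρ,
    transpose_mul, Matrix.mul_assoc, h3]

theorem pr_equiv (s : Matrix (ι ⊕ (φ ⊕ φ)) μ ℤ)
    (hsρ : ∀ a, (A.add (GForm.hyp e ρF)).ρ a * s = s * repDual σ a) (a : G) :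
    S.pr s * (A.add (GForm.hyp e ρF)).ρ a = (A.add (GForm.hyp e ρF)).ρ a * S.pr s := by
  unfold pr
  rw [Matrix.sub_mul, Matrix.mul_sub, Matrix.one_mul, Matrix.mul_one, Matrix.mul_assoc,
    S.iT_equiv, ← Matrix.mul_assoc s, ← hsρ]
  simp only [Matrix.mul_assoc]

theorem K_equiv (a : G) : S.K * NC.q ((A.add (GForm.hyp e ρF)).ρ a) = NC.q (B.ρ a) * S.K := by
  have h1 : (A.add (GForm.hyp e ρF)).ρ a =
      fromBlocks (A.ρ a) 0 0 (fromBlocks (ρF a) 0 0 (repDual ρF a)) := rfl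
  rw [h1, NC.q_fromBlocks, NC.q_fromBlocks]
  unfold K
  rw [fromCols_mul_fromBlocks, fromCols_mul_fromBlocks, mul_fromCols, mul_fromCols]
  simp only [NC.q_zero, Matrix.mul_zero, Matrix.zero_mul, add_zero, zero_add, Matrix.neg_mul,
    Matrix.mul_neg]
  rw [S.hρ, ← NC.q_mul, S.hXi, NC.q_mul]

theorem W_equiv (s : Matrix (ι ⊕ (φ ⊕ φ)) μ ℤ)
    (hs : S.iᵀ * (A.add (GForm.hyp e ρF)).g * s = 1)
    (hsρ : ∀ a, (A.add (GForm.hyp e ρF)).ρ a * s = s * repDual σ a) (a : G) :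
    S.W s * (A.add (GForm.hyp e ρF)).ρ a = B.ρ a * S.W s := by
  apply NC.q_inj
  rw [NC.q_mul, NC.q_mul, S.q_W s hs, Matrix.mul_assoc, ← NC.q_mul, S.pr_equiv s hsρ, NC.q_mul,
    ← Matrix.mul_assoc, S.K_equiv, Matrix.mul_assoc]

theorem Psi_equiv (s : Matrix (ι ⊕ (φ ⊕ φ)) μ ℤ)
    (hs : S.iᵀ * (A.add (GForm.hyp e ρF)).g * s = 1)
    (hsρ : ∀ a, (A.add (GForm.hyp e ρF)).ρ a * s = s * repDual σ a) (a : G) :
    S.Psi s * (A.add (GForm.hyp e ρF)).ρ a = (B.add (GForm.hyp e σ)).ρ a * S.Psi s := by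
  have h1 : (B.add (GForm.hyp e σ)).ρ a =
      fromBlocks (B.ρ a) 0 0 (fromBlocks (σ a) 0 0 (repDual σ a)) := rfl
  rw [h1]
  unfold Psi
  rw [fromBlocks_mul_fromRows, fromBlocks_mul_fromRows, fromRows_mul, fromRows_mul,
    S.W_equiv s hs hsρ, S.iT_equiv, Matrix.smul_mul, S.sT_equiv s hsρ]
  simp only [Matrix.zero_mul, add_zero, zero_add, Matrix.mul_smul, smul_zero]

theorem card_φ : Fintype.card φ = Fintype.card μ := by
  have h1 : NC.q S.j * ((1 / (S.n : ℚ)) • NC.q S.c) = 1 := by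
    have hn : (S.n : ℚ) ≠ 0 := by exact_mod_cast S.hn
    rw [Matrix.mul_smul, ← NC.q_mul, S.hjc, NC.q_smul, NC.q_one, smul_smul, one_div,
      inv_mul_cancel₀ hn, one_smul]
  have h2 : ((1 / (S.n : ℚ)) • NC.q S.c) * NC.q S.j = 1 := by
    have hn : (S.n : ℚ) ≠ 0 := by exact_mod_cast S.hn
    rw [Matrix.smul_mul, ← NC.q_mul, S.hcj, NC.q_smul, NC.q_one, smul_smul, one_div,
      inv_mul_cancel₀ hn, one_smul]
  exact Matrix.square_of_invertible _ _ h1 h2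

theorem card_ι : Fintype.card κ = Fintype.card ι :=
  Matrix.square_of_invertible _ _ S.hPQ S.hQP

/-- THE ISOMETRY: `A ⊕ H(F) ≅ B ⊕ H(J)`. -/
theorem iso (s : Matrix (ι ⊕ (φ ⊕ φ)) μ ℤ)
    (hs : S.iᵀ * (A.add (GForm.hyp e ρF)).g * s = 1)
    (hsρ : ∀ a, (A.add (GForm.hyp e ρF)).ρ a * s = s * repDual σ a) :
    GForm.Iso (A.add (GForm.hyp e ρF)) (B.add (GForm.hyp e σ)) := by
  obtain ⟨s', h1, h2, h3⟩ := NC.isotropic_adjust (A.add (GForm.hyp e ρF)) σ S.z S.hz S.hσ S.i s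
    S.i_equiv S.i_iso hsρ hs
  have hform := S.Psi_form s' h2 h3
  have hinv : (A.add (GForm.hyp e ρF)).g⁻¹ * (A.add (GForm.hyp e ρF)).g = 1 :=
    Matrix.nonsing_inv_mul _ (A.add (GForm.hyp e ρF)).unimod
  have hl : ((A.add (GForm.hyp e ρF)).g⁻¹ * ((S.Psi s')ᵀ * (B.add (GForm.hyp e σ)).g)) *
      S.Psi s' = 1 := by
    rw [Matrix.mul_assoc, hform, hinv]
  have hcard : Fintype.card (ι ⊕ (φ ⊕ φ)) = Fintype.card (κ ⊕ (μ ⊕ μ)) := by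
    simp only [Fintype.card_sum, S.card_φ, S.card_ι]
  refine ⟨S.Psi s', _, hl, ?_, hform, S.Psi_equiv s' h2 h1⟩
  exact (Matrix.mul_eq_one_comm_of_card_eq _ _ _ hcard).mp hl

end NData

end NCore

end Vale.Agent.P268.Z
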