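import Vale.Agent.P268.Z.E5

/-!
# P268, block N: the equivariant cover of a lattice by copies of `Λ`
-/

namespace Vale.Agent.P268.Z

open Matrix

section Cover

variable {D : ℕ} {R : Type} [CommRing R] {κ : Type} [Fintype κ] [DecidableEq κ]

theorem phi5_comb {ρ : Cyc D × Cyc 5 →* Matrix κ κ R} (h : Phi5 ρ) (k : ℕ) :
    ∑ i : Fin 4, ((cvec 4 k i : ℤ) : R) • ρ (1, Multiplicative.ofAdd ((i : ℕ) : ZMod 5)) =
      ρ (1, Multiplicative.ofAdd (k : ZMod 5)) := by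
  have hk : ((k : ℕ) : ZMod 5) = ((k % 5 : ℕ) : ZMod 5) := by simp
  have h5 : k % 5 < 5 := Nat.mod_lt _ (by norm_num)
  have h' : ρ (1, Multiplicative.ofAdd ((0 : ℕ) : ZMod 5)) +
      ρ (1, Multiplicative.ofAdd ((1 : ℕ) : ZMod 5)) +
      ρ (1, Multiplicative.ofAdd ((2 : ℕ) : ZMod 5)) +
      ρ (1, Multiplicative.ofAdd ((3 : ℕ) : ZMod 5)) +
      ρ (1, Multiplicative.ofAdd ((4 : ℕ) : ZMod 5)) = 0 := by
    have h0 := h
    unfold Phi5 at h0
    change ∑ i : Fin 5, ρ (1, Multiplicative.ofAdd (i : ZMod 5)) = 0 at h0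
    rw [Fin.sum_univ_five] at h0
    exact h0
  rw [hk]
  simp only [cvec, Fin.sum_univ_four]
  generalize hr : k % 5 = r at *
  interval_cases r
  · simp
  · simp
  · simp
  · simp
  · simp only [Fin.val_zero, Fin.val_one, Fin.val_two]
    simp only [if_true, Int.cast_neg, Int.cast_one, neg_smul, one_smul]
    rw [← sub_eq_zero, ← neg_eq_zero, ← h']
    change -(-ρ (1, Multiplicative.ofAdd ((0 : ℕ) : ZMod 5)) +
      -ρ (1, Multiplicative.ofAdd ((1 : ℕ) : ZMod 5)) +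
      -ρ (1, Multiplicative.ofAdd ((2 : ℕ) : ZMod 5)) +
      -ρ (1, Multiplicative.ofAdd ((3 : ℕ) : ZMod 5)) -
      ρ (1, Multiplicative.ofAdd ((4 : ℕ) : ZMod 5))) = _
    abel

theorem E5_rho_apply (b : Cyc 5) (i i' : Fin (mu [5])) :
    E5.ρ b i i' = cvec 4 ((i' : ℕ) + (Multiplicative.toAdd b).val) i := by
  have h := compMat_pow_mulVec (mu [5]) (Multiplicative.toAdd b).val i'
  rw [cvec_of_lt i', Matrix.mulVec_single_one] at h
  have := congrFun h i
  rw [Matrix.col_apply] at this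
  rw [E5_rho, this]
  rfl

theorem E5_comb {ρ : Cyc D × Cyc 5 →* Matrix κ κ R} (h : Phi5 ρ) (b : Cyc 5)
    (i' : Fin (mu [5])) :
    ∑ i : Fin (mu [5]), ((E5.ρ b i i' : ℤ) : R) •
      ρ (1, Multiplicative.ofAdd ((i : ℕ) : ZMod 5)) =
      ρ (1, b * Multiplicative.ofAdd ((i' : ℕ) : ZMod 5)) := by
  simp only [E5_rho_apply]
  have := phi5_comb h ((i' : ℕ) + (Multiplicative.toAdd b).val)
  refine Eq.trans this ?_
  congr 2
  rw [Nat.cast_add, ZMod.natCast_zmod_val, ofAdd_add, mul_comm]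
  rfl

/-- The cover `κ` copies of `Λ → ℤ^κ`. -/
def coverMat [NeZero D] (ρ : Cyc D × Cyc 5 →* Matrix κ κ R) : Matrix κ (κ × LIdx D) R :=
  Matrix.of fun k x => ρ (x.2.1, Multiplicative.ofAdd ((x.2.2 : ℕ) : ZMod 5)) k x.1

/-- A section of `coverMat` (not equivariant). -/
def coverSec (D : ℕ) (R : Type) [CommRing R] (κ : Type) [DecidableEq κ] :
    Matrix (κ × LIdx D) κ R :=
  Matrix.of fun x k => if x.1 = k ∧ x.2.1 = 1 ∧ (x.2.2 : ℕ) = 0 then 1 else 0

/-- The unit element of `Λ` as an index. -/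
def LIdx.one (D : ℕ) : LIdx D := ((1 : Cyc D), (0 : Fin 4))

theorem cover_mul_sec [NeZero D] (ρ : Cyc D × Cyc 5 →* Matrix κ κ R) :
    coverMat ρ * coverSec D R κ = 1 := by
  ext k k'
  rw [Matrix.mul_apply, Finset.sum_eq_single (k', LIdx.one D)]
  · have e1 : coverSec D R κ (k', LIdx.one D) k' = 1 := if_pos ⟨rfl, rfl, rfl⟩
    have e2 : coverMat ρ k (k', LIdx.one D) =
        ρ (1, Multiplicative.ofAdd (((0 : ℕ)) : ZMod 5)) k k' := rfl
    rw [e1, e2, mul_one, Nat.cast_zero, ofAdd_zero]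
    change ρ 1 k k' = _
    rw [map_one]
  · rintro ⟨l, x⟩ _ hne
    have e1 : coverSec D R κ (l, x) k' = 0 := by
      refine if_neg ?_
      rintro ⟨h1, h2, h3⟩
      apply hne
      have h4 : x = LIdx.one D := Prod.ext h2 (Fin.ext h3)
      have h1' : l = k' := h1
      rw [h1', h4]
    rw [e1, mul_zero]
  · simp

theorem cover_equivariant [NeZero D] (ρ : Cyc D × Cyc 5 →* Matrix κ κ R) (h : Phi5 ρ)
    (a : Cyc D × Cyc 5) :
    coverMat ρ * repMap (Int.castRingHom R) (repCopies κ (Lam D)) a = ρ a * coverMat ρ := by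
  ext k x
  obtain ⟨k', c', i'⟩ := x
  have hL : (coverMat ρ * repMap (Int.castRingHom R) (repCopies κ (Lam D)) a) k (k', (c', i')) =
      ∑ l : κ, ∑ c : Cyc D, ∑ i : Fin (mu [5]),
        ρ (c, Multiplicative.ofAdd ((i : ℕ) : ZMod 5)) k l *
          (((if l = k' then 1 else 0 : ℤ) : R) * ((if c = a.1 * c' then 1 else 0 : ℤ) : R) *
            ((E5.ρ a.2 i i' : ℤ) : R)) := by
    rw [Matrix.mul_apply, Fintype.sum_prod_type]
    refine Finset.sum_congr rfl fun l _ => ?_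
    change ∑ y : Cyc D × Fin (mu [5]), _ = _
    rw [Fintype.sum_prod_type]
    refine Finset.sum_congr rfl fun c _ => Finset.sum_congr rfl fun i _ => ?_
    congr 1
    change (((1 : Matrix κ κ ℤ) l k' * ((if c = a.1 * c' then 1 else 0 : ℤ) *
      (E5.ρ a.2 i i' : ℤ)) : ℤ) : R) = _
    rw [Matrix.one_apply]
    push_cast
    ring
  rw [hL]
  rw [Finset.sum_eq_single k' (by intro l _ hl; simp [hl]) (by simp)]
  rw [Finset.sum_eq_single (a.1 * c') (by intro c _ hc; simp [hc]) (by simp)]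
  simp only [if_true, Int.cast_one, one_mul]
  have h1 : ∑ i : Fin (mu [5]), ρ (a.1 * c', Multiplicative.ofAdd ((i : ℕ) : ZMod 5)) k k' *
      ((E5.ρ a.2 i i' : ℤ) : R) =
      (ρ (a.1 * c', 1) * ∑ i : Fin (mu [5]), ((E5.ρ a.2 i i' : ℤ) : R) •
      ρ (1, Multiplicative.ofAdd ((i : ℕ) : ZMod 5))) k k' := by
    rw [Finset.mul_sum, Matrix.sum_apply]
    refine Finset.sum_congr rfl fun i _ => ?_
    rw [Matrix.mul_smul, Matrix.smul_apply, ← map_mul, Prod.mk_mul_mk, mul_one, one_mul,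
      smul_eq_mul, mul_comm]
  rw [h1, E5_comb h, ← map_mul, Prod.mk_mul_mk, mul_one, one_mul]
  have h2 : (ρ a * coverMat ρ) k (k', (c', i')) =
      (ρ a * ρ (c', Multiplicative.ofAdd ((i' : ℕ) : ZMod 5))) k k' := by
    rw [Matrix.mul_apply, Matrix.mul_apply]
    rfl
  rw [h2, ← map_mul]
  rfl

/-- The equivariant cover over `ℤ`, with a (non equivariant) section. -/
theorem exists_cover [NeZero D] (ρ : Cyc D × Cyc 5 →* Matrix κ κ ℤ) (h : Phi5 ρ) :
    ∃ (Xi : Matrix κ (κ × LIdx D) ℤ) (S : Matrix (κ × LIdx D) κ ℤ), Xi * S = 1 ∧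
      ∀ a, Xi * repCopies κ (Lam D) a = ρ a * Xi := by
  refine ⟨coverMat ρ, coverSec D ℤ κ, cover_mul_sec ρ, fun a => ?_⟩
  have := cover_equivariant ρ h a
  have h2 : repMap (Int.castRingHom ℤ) (repCopies κ (Lam D)) a = repCopies κ (Lam D) a := by
    ext i j; simp [repMap]
  rwa [h2] at this

end Cover

end Vale.Agent.P268.Z
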