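import Vale.Agent.P268.Z.Form

/-!
# P268, block N: the sublattice `J` on which a rational matrix is integral
-/

namespace Vale.Agent.P268.Z

open Matrix

section Sub

variable {G : Type} [CommGroup G] {ι ν : Type} [Fintype ι] [DecidableEq ι] [Fintype ν]
  [DecidableEq ν]

/-- The integral vectors `f` with `q f` integral. -/
def intPart (q : Matrix ι ν ℚ) : Submodule ℤ (ν → ℤ) where
  carrier := {f | ∃ u : ι → ℤ, (fun i => (u i : ℚ)) = q *ᵥ (fun k => (f k : ℚ))}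
  zero_mem' := ⟨0, by ext i; simp [mulVec, dotProduct]⟩
  add_mem' := by
    rintro f g ⟨u, hu⟩ ⟨v, hv⟩
    refine ⟨u + v, ?_⟩
    have : (fun k => ((f + g) k : ℚ)) = (fun k => (f k : ℚ)) + fun k => (g k : ℚ) := by
      ext k; simp
    rw [this, mulVec_add, ← hu, ← hv]
    ext i; simp
  smul_mem' := by
    rintro z f ⟨u, hu⟩
    refine ⟨z • u, ?_⟩
    have : (fun k => ((z • f) k : ℚ)) = (z : ℚ) • fun k => (f k : ℚ) := by
      ext k; simp
    rw [this, mulVec_smul, ← hu]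
    ext i; simp

/-- A common denominator of the entries of `q`. -/
def cden (q : Matrix ι ν ℚ) : ℕ := ∏ i, ∏ k, (q i k).den

omit [DecidableEq ι] [DecidableEq ν] in
theorem cden_pos (q : Matrix ι ν ℚ) : 0 < cden q :=
  Finset.prod_pos fun i _ => Finset.prod_pos fun k _ => (q i k).den_pos

omit [DecidableEq ι] [DecidableEq ν] in
theorem cden_coprime {q : Matrix ι ν ℚ} {D : ℕ} (h : ∀ i k, (q i k).den.Coprime D) :
    (cden q).Coprime D :=
  Nat.Coprime.prod_left fun i _ => Nat.Coprime.prod_left fun k _ => h i k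

omit [DecidableEq ι] [DecidableEq ν] in
theorem cden_mul (q : Matrix ι ν ℚ) (i : ι) (k : ν) : ∃ z : ℤ, (cden q : ℚ) * q i k = z := by
  have h : (q i k).den ∣ cden q :=
    (Finset.dvd_prod_of_mem (fun k => (q i k).den) (Finset.mem_univ k)).trans
      (Finset.dvd_prod_of_mem (fun i => ∏ k, (q i k).den) (Finset.mem_univ i))
  obtain ⟨c, hc⟩ := h
  refine ⟨c * (q i k).num, ?_⟩
  have h0 : ((q i k).den : ℚ) ≠ 0 := by exact_mod_cast (q i k).den_ne_zero
  conv_lhs => rw [← Rat.num_div_den (q i k), hc]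
  push_cast
  field_simp

omit [DecidableEq ι] [DecidableEq ν] in
theorem cden_smul_mem (q : Matrix ι ν ℚ) (f : ν → ℤ) : ((cden q : ℤ) • f) ∈ intPart q := by
  choose z hz using cden_mul q
  refine ⟨fun i => ∑ k, z i k * f k, ?_⟩
  ext i
  simp only [mulVec, dotProduct, Int.cast_sum, Int.cast_mul, Pi.smul_apply, smul_eq_mul,
    Int.cast_natCast]
  refine Finset.sum_congr rfl fun k _ => ?_
  rw [← hz]
  ring

theorem intPart_stable {F : G →* Matrix ν ν ℤ} {ρ : G →* Matrix ι ι ℤ} {q : Matrix ι ν ℚ}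
    (hq : ∀ a, q * repMap (Int.castRingHom ℚ) F a = repMap (Int.castRingHom ℚ) ρ a * q)
    (a : G) {f : ν → ℤ} (hf : f ∈ intPart q) : F a *ᵥ f ∈ intPart q := by
  obtain ⟨u, hu⟩ := hf
  refine ⟨ρ a *ᵥ u, ?_⟩
  have h1 : (fun k => ((F a *ᵥ f) k : ℚ)) = repMap (Int.castRingHom ℚ) F a *ᵥ
      fun k => (f k : ℚ) := by
    ext k
    simp [mulVec, dotProduct, repMap]
  have h2 : (fun k => ((ρ a *ᵥ u) k : ℚ)) = repMap (Int.castRingHom ℚ) ρ a *ᵥ
      fun k => (u k : ℚ) := by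
    ext k
    simp [mulVec, dotProduct, repMap]
  rw [h1, h2, mulVec_mulVec, hq, ← mulVec_mulVec, hu]

/-- A stable sublattice of finite index of `ℤ^ν`, in matrix terms. -/
theorem exists_basis_of_stable (F : G →* Matrix ν ν ℤ) (J : Submodule ℤ (ν → ℤ))
    (hJ : ∀ a, ∀ f ∈ J, F a *ᵥ f ∈ J) (n : ℕ) (_hn : 0 < n) (hnJ : ∀ f, ((n : ℤ) • f) ∈ J) :
    ∃ (m : ℕ) (j : Matrix ν (Fin m) ℤ) (c : Matrix (Fin m) ν ℤ)
      (σ : G →* Matrix (Fin m) (Fin m) ℤ),
      j * c = (n : ℤ) • (1 : Matrix ν ν ℤ) ∧ c * j = (n : ℤ) • (1 : Matrix (Fin m) (Fin m) ℤ) ∧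
      (∀ a, j * σ a = F a * j) ∧ (∀ a, c * F a = σ a * c) ∧
      (∀ v, j *ᵥ v ∈ J) ∧ (∀ f ∈ J, ∃ v, f = j *ᵥ v) ∧ Function.Injective j.mulVec := by
  classical
  obtain ⟨m, b⟩ := Submodule.basisOfPid (Pi.basisFun ℤ ν) J
  let j : Matrix ν (Fin m) ℤ := Matrix.of fun k i => (b i : ν → ℤ) k
  have hjv : ∀ v, j *ᵥ v = ((∑ i, v i • b i : J) : ν → ℤ) := by
    intro v
    ext k
    simp [mulVec, dotProduct, j, mul_comm]
  have hjinj : Function.Injective j.mulVec := by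
    intro v w hvw
    have h := hvw
    rw [hjv, hjv] at h
    have h' := Subtype.ext h
    have := (Fintype.linearIndependent_iff.mp b.linearIndependent) (v - w) (by
      simp only [Pi.sub_apply, sub_smul, Finset.sum_sub_distrib, h', sub_self])
    ext i
    have := this i
    simp only [Pi.sub_apply] at this
    omega
  have hjmem : ∀ v, j *ᵥ v ∈ J := fun v => by rw [hjv]; exact Subtype.mem _
  have hjsurj : ∀ f (hf : f ∈ J), j *ᵥ (b.repr ⟨f, hf⟩) = f := by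
    intro f hf
    rw [hjv]
    have := b.sum_repr ⟨f, hf⟩
    exact congrArg Subtype.val this
  -- the matrix `c`
  let c : Matrix (Fin m) ν ℤ := Matrix.of fun i k => b.repr ⟨(n : ℤ) • Pi.single k 1, hnJ _⟩ i
  have hjc : j * c = (n : ℤ) • (1 : Matrix ν ν ℤ) := by
    ext k l
    have h := congrFun (hjsurj ((n : ℤ) • Pi.single l 1) (hnJ _)) k
    have h2 : (j * c) k l = (j *ᵥ (b.repr ⟨(n : ℤ) • Pi.single l 1, hnJ _⟩)) k := by
      simp [Matrix.mul_apply, mulVec, dotProduct, c]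
    rw [h2, h]
    simp [Matrix.one_apply, Pi.single_apply]
  have hcancel : ∀ {μ : Type} (X Y : Matrix (Fin m) μ ℤ), j * X = j * Y → X = Y := by
    intro μ X Y h
    ext i l
    have h1 : j *ᵥ (fun i => X i l) = j *ᵥ (fun i => Y i l) := by
      ext k
      have := congrFun (congrFun h k) l
      simpa [Matrix.mul_apply, mulVec, dotProduct] using this
    exact congrFun (hjinj h1) i
  have hcj : c * j = (n : ℤ) • (1 : Matrix (Fin m) (Fin m) ℤ) := by
    apply hcancel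
    rw [← Matrix.mul_assoc, hjc, Matrix.smul_mul, Matrix.one_mul, Matrix.mul_smul, Matrix.mul_one]
  -- the action
  have hs : ∀ a : G, ∃ s : Matrix (Fin m) (Fin m) ℤ, j * s = F a * j := by
    intro a
    have hmem : ∀ i, F a *ᵥ (b i : ν → ℤ) ∈ J := fun i => hJ a _ (b i).2
    refine ⟨Matrix.of fun i' i => b.repr ⟨F a *ᵥ (b i : ν → ℤ), hmem i⟩ i', ?_⟩
    ext k i
    have h := congrFun (hjsurj (F a *ᵥ (b i : ν → ℤ)) (hmem i)) k
    have h2 : (j * (Matrix.of fun i' i => b.repr ⟨F a *ᵥ (b i : ν → ℤ), hmem i⟩ i' :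
        Matrix (Fin m) (Fin m) ℤ)) k i =
        (j *ᵥ (b.repr ⟨F a *ᵥ (b i : ν → ℤ), hmem i⟩)) k := by
      simp [Matrix.mul_apply, mulVec, dotProduct]
    rw [h2, h]
    simp [Matrix.mul_apply, mulVec, dotProduct, j]
  choose s hs using hs
  let σ : G →* Matrix (Fin m) (Fin m) ℤ :=
    { toFun := s
      map_one' := hcancel _ _ (by rw [hs, map_one]; simp)
      map_mul' := fun a a' => hcancel _ _ (by
        rw [hs, map_mul, ← Matrix.mul_assoc, hs, Matrix.mul_assoc, Matrix.mul_assoc, hs]) }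
  refine ⟨m, j, c, σ, hjc, hcj, hs, fun a => ?_, hjmem, fun f hf => ⟨_, (hjsurj f hf).symm⟩,
    hjinj⟩
  apply hcancel
  rw [← Matrix.mul_assoc, ← Matrix.mul_assoc, hjc]
  change _ = j * s a * c
  rw [hs, Matrix.mul_assoc, hjc, Matrix.smul_mul, Matrix.one_mul, Matrix.mul_smul, Matrix.mul_one]

/-- The sublattice on which `q` is integral. -/
theorem exists_sublattice {D : ℕ} (F : G →* Matrix ν ν ℤ) (ρ : G →* Matrix ι ι ℤ)
    (q : Matrix ι ν ℚ)
    (hq : ∀ a, q * repMap (Int.castRingHom ℚ) F a = repMap (Int.castRingHom ℚ) ρ a * q)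
    (hden : ∀ i k, (q i k).den.Coprime D) :
    ∃ (m n : ℕ) (j : Matrix ν (Fin m) ℤ) (c : Matrix (Fin m) ν ℤ)
      (σ : G →* Matrix (Fin m) (Fin m) ℤ) (U : Matrix ι (Fin m) ℤ),
      0 < n ∧ n.Coprime D ∧
      j * c = (n : ℤ) • (1 : Matrix ν ν ℤ) ∧ c * j = (n : ℤ) • (1 : Matrix (Fin m) (Fin m) ℤ) ∧
      (∀ a, j * σ a = F a * j) ∧ (∀ a, c * F a = σ a * c) ∧
      (∀ a, U * σ a = ρ a * U) ∧
      U.map (Int.cast : ℤ → ℚ) = q * j.map (Int.cast : ℤ → ℚ) ∧
      (∀ (f : ν → ℤ) (u : ι → ℤ), (fun i => (u i : ℚ)) = q *ᵥ (fun k => (f k : ℚ)) →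
        ∃ v, f = j *ᵥ v) := by
  obtain ⟨m, j, c, σ, hjc, hcj, hs, hc, hjm, hjs, hinj⟩ :=
    exists_basis_of_stable F (intPart q) (fun a f hf => intPart_stable hq a hf) (cden q)
      (cden_pos q) (cden_smul_mem q)
  have hU : ∀ k : Fin m, ∃ u : ι → ℤ, (fun i => (u i : ℚ)) =
      q *ᵥ (fun l => ((j *ᵥ Pi.single k 1) l : ℚ)) := fun k => hjm _
  choose u hu using hU
  let U : Matrix ι (Fin m) ℤ := Matrix.of fun i k => u k i
  have hUj : U.map (Int.cast : ℤ → ℚ) = q * j.map (Int.cast : ℤ → ℚ) := by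
    ext i k
    have h := congrFun (hu k) i
    rw [Matrix.mulVec_single_one] at h
    simpa [U, Matrix.mul_apply, mulVec, dotProduct] using h
  refine ⟨m, cden q, j, c, σ, U, cden_pos q, cden_coprime hden, hjc, hcj, hs, hc, ?_, hUj,
    fun f u h => hjs f ⟨u, h⟩⟩
  intro a
  have hinjM : Function.Injective (fun M : Matrix ι (Fin m) ℤ => M.map (Int.cast : ℤ → ℚ)) :=
    fun M M' h => by
      ext i k
      have := congrFun (congrFun h i) k
      simpa using this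
  apply hinjM
  have e1 : ∀ {α β γ : Type} [Fintype β] (M : Matrix α β ℤ) (M' : Matrix β γ ℤ),
      (M * M').map (Int.cast : ℤ → ℚ) = M.map (Int.cast : ℤ → ℚ) * M'.map (Int.cast : ℤ → ℚ) := by
    intro α β γ _ M M'
    ext i k
    simp [Matrix.mul_apply]
  have hq' : q * (F a).map (Int.cast : ℤ → ℚ) = (ρ a).map (Int.cast : ℤ → ℚ) * q := hq a
  simp only [e1]
  rw [hUj, Matrix.mul_assoc, ← e1, hs, e1, ← Matrix.mul_assoc, hq', Matrix.mul_assoc]

end Sub

end Vale.Agent.P268.Z
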