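import Vale.Agent.P268.Z.N.Simple
import Vale.Agent.P268.Z.N.Lat
import Vale.Agent.P268.Z.ApiRep

/-!
# P268, block N: `J + J^♯ ≅ F + F^♯` for a sublattice of index prime to `D`
-/

namespace Vale.Agent.P268.Z

open Matrix

section Dev

variable {D : ℕ} {ν : Type} [Fintype ν] [DecidableEq ν]

theorem Phi5.of_inj {α β : Type} [Fintype α] [DecidableEq α] [Fintype β] [DecidableEq β]
    {ρ : Cyc D × Cyc 5 →* Matrix α α ℤ} {σ : Cyc D × Cyc 5 →* Matrix β β ℤ} (h : Phi5 ρ)
    (j : Matrix α β ℤ) (hj : Function.Injective j.mulVec) (hi : ∀ a, j * σ a = ρ a * j) :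
    Phi5 σ := by
  unfold Phi5 at h ⊢
  have h1 : j * ∑ i : ZMod 5, σ (1, Multiplicative.ofAdd i) = 0 := by
    rw [Matrix.mul_sum]
    simp only [hi]
    rw [← Matrix.sum_mul, h, Matrix.zero_mul]
  ext a b
  have h2 : j *ᵥ ((∑ i : ZMod 5, σ (1, Multiplicative.ofAdd i)).col b) = j *ᵥ 0 := by
    rw [Matrix.mulVec_zero, ← Matrix.mulVec_single_one, Matrix.mulVec_mulVec, h1,
      Matrix.zero_mulVec]
  exact congrFun (hj h2) a

theorem cancel_of_inj {α β γ : Type} [Fintype β] {j : Matrix α β ℤ}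
    (hj : Function.Injective j.mulVec) {X Y : Matrix β γ ℤ} (h : j * X = j * Y) : X = Y := by
  ext b c
  have h1 : j *ᵥ (X.col c) = j *ᵥ (Y.col c) := by
    ext a
    exact congrFun (congrFun h a) c
  exact congrFun (hj h1) b

/-- A minimal stable submodule above a proper stable submodule with finite quotient. -/
theorem exists_minimal_above {G : Type} [CommGroup G] (F : G →* Matrix ν ν ℤ)
    (N : Submodule ℤ (ν → ℤ)) (hN : N ≠ ⊤) (hfin : Finite ((ν → ℤ) ⧸ N)) :
    ∃ N1 : Submodule ℤ (ν → ℤ), (∀ a, ∀ x ∈ N1, F a *ᵥ x ∈ N1) ∧ N < N1 ∧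
      ∀ N2 : Submodule ℤ (ν → ℤ), (∀ a, ∀ x ∈ N2, F a *ᵥ x ∈ N2) → N < N2 → N2 ≤ N1 →
        N2 = N1 := by
  have hfs : Finite (Submodule ℤ ((ν → ℤ) ⧸ N)) :=
    Finite.of_injective (fun M => (M : Set ((ν → ℤ) ⧸ N))) SetLike.coe_injective
  let S : Set (Submodule ℤ ((ν → ℤ) ⧸ N)) :=
    {M | (∀ a, ∀ x ∈ M.comap N.mkQ, F a *ᵥ x ∈ M.comap N.mkQ) ∧ M ≠ ⊥}
  have hS : S.Nonempty := by
    refine ⟨⊤, by simp, ?_⟩
    intro h
    have : Subsingleton ((ν → ℤ) ⧸ N) := by
      rw [← Submodule.subsingleton_iff ℤ]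
      exact subsingleton_of_bot_eq_top h.symm
    exact hN (Submodule.Quotient.subsingleton_iff.mp this)
  obtain ⟨M, hM⟩ := (Set.toFinite S).exists_minimal hS
  have hker : ∀ M' : Submodule ℤ ((ν → ℤ) ⧸ N), N ≤ M'.comap N.mkQ := fun M' x hx => by
    rw [Submodule.mem_comap]
    have : N.mkQ x = 0 := by simpa using hx
    rw [this]
    exact M'.zero_mem
  refine ⟨M.comap N.mkQ, hM.1.1, lt_of_le_of_ne (hker M) ?_, ?_⟩
  · intro h
    apply hM.1.2
    rw [eq_bot_iff]
    intro t ht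
    obtain ⟨x, rfl⟩ := Submodule.mkQ_surjective N t
    have : x ∈ N := by rw [h]; exact ht
    simpa using this
  · intro N2 hst hlt hle
    have hc : (N2.map N.mkQ).comap N.mkQ = N2 := by
      rw [Submodule.comap_map_mkQ, sup_eq_right.mpr hlt.le]
    have h2 : N2.map N.mkQ ∈ S := by
      refine ⟨by rw [hc]; exact hst, ?_⟩
      intro h
      rw [h] at hc
      have : (⊥ : Submodule ℤ ((ν → ℤ) ⧸ N)).comap N.mkQ = N := by
        ext x; simp
      exact hlt.ne (by rw [← hc, this])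
    have h3 : N2.map N.mkQ ≤ M := by
      rw [Submodule.map_le_iff_le_comap]
      exact hle
    have h4 : M ≤ N2.map N.mkQ := hM.2 h2 h3
    rw [← hc, le_antisymm h3 h4]

theorem dual_free_aux [NeZero D] (F : Cyc D × Cyc 5 →* Matrix ν ν ℤ) (hF : Phi5 F) (n : ℕ)
    (hn0 : 0 < n) (hn : n.Coprime D) (N : Submodule ℤ (ν → ℤ)) :
    (∀ f, ((n : ℤ) • f) ∈ N) → ∀ (μ : Type) [Fintype μ] [DecidableEq μ]
    (σ : Cyc D × Cyc 5 →* Matrix μ μ ℤ) (j : Matrix ν μ ℤ), Function.Injective j.mulVec →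
    LinearMap.range j.mulVecLin = N → (∀ a, j * σ a = F a * j) →
    RepIso (repSum σ (repSharp σ)) (repSum F (repSharp F)) := by
  induction N using WellFoundedGT.induction with
  | ind N ih =>
  intro hnN μ _ _ σ j hinj hrange hj
  by_cases htop : N = ⊤
  · -- `j` is invertible
    obtain ⟨k, hk⟩ : ∃ k : Matrix μ ν ℤ, j * k = 1 := exists_mat_of_mem _ _ fun l => by
      have : (1 : Matrix ν ν ℤ).col l ∈ LinearMap.range j.mulVecLin := by
        rw [hrange, htop]; trivial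
      obtain ⟨v, hv⟩ := this
      exact ⟨v, hv.symm⟩
    have hk' : k * j = 1 := cancel_of_inj hinj (by
      rw [← Matrix.mul_assoc, hk, Matrix.one_mul, Matrix.mul_one])
    have h : RepIso σ F := ⟨j, k, hk', hk, hj⟩
    exact RepIso.sum h h.sharp
  · -- the matrix `c`
    have hNst : ∀ a, ∀ x ∈ N, F a *ᵥ x ∈ N := by
      intro a x hx
      rw [← hrange] at hx ⊢
      obtain ⟨v, rfl⟩ := hx
      exact ⟨σ a *ᵥ v, by
        rw [Matrix.mulVecLin_apply, Matrix.mulVecLin_apply, Matrix.mulVec_mulVec,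
          Matrix.mulVec_mulVec, hj]⟩
    obtain ⟨c, hjc⟩ : ∃ c : Matrix μ ν ℤ, j * c = (n : ℤ) • (1 : Matrix ν ν ℤ) :=
      exists_mat_of_mem _ _ fun l => by
        have : ((n : ℤ) • (1 : Matrix ν ν ℤ)).col l ∈ LinearMap.range j.mulVecLin := by
          rw [hrange]
          exact hnN ((1 : Matrix ν ν ℤ).col l)
        obtain ⟨v, hv⟩ := this
        exact ⟨v, hv.symm⟩
    have hcj : c * j = (n : ℤ) • (1 : Matrix μ μ ℤ) := cancel_of_inj hinj (by
      rw [← Matrix.mul_assoc, hjc, Matrix.smul_mul, Matrix.one_mul, Matrix.mul_smul,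
        Matrix.mul_one])
    have hfin : Finite ((ν → ℤ) ⧸ N) := by
      rw [← hrange]
      exact finite_coker hn0 hjc hcj
    obtain ⟨N1, hst1, hlt, hmin⟩ := exists_minimal_above F N htop hfin
    obtain ⟨m, j1, c1, σ1, hjc1, hcj1, hj1, -, hjm1, hjs1, hinj1⟩ :=
      exists_basis_of_stable F N1 hst1 n hn0 (fun f => hlt.le (hnN f))
    have hrange1 : LinearMap.range j1.mulVecLin = N1 := by
      apply le_antisymm
      · rintro x ⟨v, rfl⟩; exact hjm1 v
      · intro x hx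
        obtain ⟨v, hv⟩ := hjs1 x hx
        exact ⟨v, hv.symm⟩
    have hIH := ih N1 hlt (fun f => hlt.le (hnN f)) (Fin m) σ1 j1 hinj1 hrange1 hj1
    refine RepIso.trans ?_ hIH
    -- the inclusion `i`
    obtain ⟨i, hi⟩ : ∃ i : Matrix (Fin m) μ ℤ, j1 * i = j := exists_mat_of_mem _ _ fun l => by
      have : j.col l ∈ N := by
        rw [← hrange, ← Matrix.mulVec_single_one]
        exact ⟨_, rfl⟩
      obtain ⟨v, hv⟩ := hjs1 _ (hlt.le this)
      exact ⟨v, hv⟩
    have hiσ : ∀ a, i * σ a = σ1 a * i := fun a => cancel_of_inj hinj1 (by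
      rw [← Matrix.mul_assoc, hi, hj, ← Matrix.mul_assoc, hj1, Matrix.mul_assoc, hi])
    have hic : i * (c * j1) = (n : ℤ) • (1 : Matrix (Fin m) (Fin m) ℤ) := cancel_of_inj hinj1 (by
      rw [← Matrix.mul_assoc, hi, ← Matrix.mul_assoc, hjc, Matrix.smul_mul, Matrix.one_mul,
        Matrix.mul_smul, Matrix.mul_one])
    have hci : (c * j1) * i = (n : ℤ) • (1 : Matrix μ μ ℤ) := by
      rw [Matrix.mul_assoc, hi, hcj]
    have hmapi : (LinearMap.range i.mulVecLin).map j1.mulVecLin = N := by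
      rw [← LinearMap.range_comp, ← Matrix.mulVecLin_mul, hi, hrange]
    have hinj1' : Function.Injective j1.mulVecLin := hinj1
    have hne : LinearMap.range i.mulVecLin ≠ ⊤ := by
      intro h
      rw [h, Submodule.map_top, hrange1] at hmapi
      exact hlt.ne hmapi.symm
    obtain ⟨T, _, ρT, p, q, hp, hq, hps, hqs, hpk, hqk⟩ :=
      exists_common_coker σ σ1 n hn0 i (c * j1) hic hci hiσ hne (by
        intro L hL hltL
        have h1 : L.map j1.mulVecLin = N1 := by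
          apply hmin
          · rintro a x ⟨v, hv, rfl⟩
            exact ⟨σ1 a *ᵥ v, hL a v hv, by
              rw [Matrix.mulVecLin_apply, Matrix.mulVecLin_apply, Matrix.mulVec_mulVec,
                Matrix.mulVec_mulVec, hj1]⟩
          · rw [← hmapi]
            exact Submodule.map_strictMono_of_injective hinj1' hltL
          · rw [← hrange1]
            rintro x ⟨v, -, rfl⟩
            exact ⟨v, rfl⟩
        apply Submodule.map_injective_of_injective hinj1'
        rw [h1, Submodule.map_top, hrange1])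
    exact schanuel_step σ σ1 ρT (hF.of_inj j hinj hj) (hF.of_inj j1 hinj1 hj1) n hn0 hn i (c * j1)
      hic hci hiσ p q hp hq hps hqs hpk hqk

/-- **h2**, exact form: `J + J^♯ ≅ F + F^♯` for a sublattice `J` of `F` of index prime to `D`. -/
theorem dual_free_of_index [NeZero D] {μ : Type} [Fintype μ] [DecidableEq μ]
    (F : Cyc D × Cyc 5 →* Matrix ν ν ℤ) (hF : Phi5 F) (n : ℕ)
    (hn0 : 0 < n) (hn : n.Coprime D) (σ : Cyc D × Cyc 5 →* Matrix μ μ ℤ) (j : Matrix ν μ ℤ)
    (c : Matrix μ ν ℤ) (hjc : j * c = (n : ℤ) • (1 : Matrix ν ν ℤ))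
    (hcj : c * j = (n : ℤ) • (1 : Matrix μ μ ℤ)) (hj : ∀ a, j * σ a = F a * j) :
    RepIso (repSum σ (repSharp σ)) (repSum F (repSharp F)) :=
  dual_free_aux F hF n hn0 hn (LinearMap.range j.mulVecLin)
    (fun f => ⟨c *ᵥ f, by
      rw [Matrix.mulVecLin_apply, Matrix.mulVec_mulVec, hjc, Matrix.smul_mulVec,
        Matrix.one_mulVec]⟩)
    μ σ j (mulVec_injective_of_smul hn0 hcj) rfl hj

end Dev

end Vale.Agent.P268.Z
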