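import Vale.Agent.P268.Z.N.Main
import Vale.Agent.P268.Z.Api

/-!
# P268, block N: reindexing
-/

namespace Vale.Agent.P268.Z

open Matrix

section

variable {G : Type} [CommGroup G]

/-- Every representation is isomorphic to one with index type `Fin n`. -/
theorem exists_repIso_fin {α : Type} [Fintype α] [DecidableEq α] (τ : G →* Matrix α α ℤ) :
    ∃ (n : ℕ) (σ : G →* Matrix (Fin n) (Fin n) ℤ), RepIso τ σ := by
  let e : α ≃ Fin (Fintype.card α) := Fintype.equivFin α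
  refine ⟨Fintype.card α, (Matrix.reindexAlgEquiv ℤ ℤ e).toRingEquiv.toMonoidHom.comp τ, ?_⟩
  refine RepIso.of_equiv e fun a i j => ?_
  change τ a i j = Matrix.reindex e e (τ a) (e i) (e j)
  simp

/-- Adding the same summand to both sides and changing the hyperbolic parts. -/
theorem N_add_gen {e : ℤˣ} {ι κ φ μ ν φ' μ' : Type} [Fintype ι] [DecidableEq ι]
    [Fintype κ] [DecidableEq κ] [Fintype φ] [DecidableEq φ] [Fintype μ] [DecidableEq μ]
    [Fintype ν] [DecidableEq ν] [Fintype φ'] [DecidableEq φ'] [Fintype μ'] [DecidableEq μ']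
    (A : GForm ℤ G e ι) (B : GForm ℤ G e κ)
    (ρ : G →* Matrix φ φ ℤ) (σ : G →* Matrix μ μ ℤ) (τ : G →* Matrix ν ν ℤ)
    (ρ' : G →* Matrix φ' φ' ℤ) (σ' : G →* Matrix μ' μ' ℤ)
    (h : GForm.Iso (A.add (GForm.hyp e ρ)) (B.add (GForm.hyp e σ)))
    (h1 : RepIso (repSum ρ τ) ρ') (h2 : RepIso (repSum σ τ) σ') :
    GForm.Iso (A.add (GForm.hyp e ρ')) (B.add (GForm.hyp e σ')) := by
  have h3 : GForm.Iso ((A.add (GForm.hyp e ρ)).add (GForm.hyp e τ))
      ((B.add (GForm.hyp e σ)).add (GForm.hyp e τ)) := h.add (GForm.Iso.refl _)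
  have h4 : GForm.Iso (A.add (GForm.hyp e ρ')) ((A.add (GForm.hyp e ρ)).add (GForm.hyp e τ)) :=
    ((GForm.Iso.refl A).add ((GForm.hyp_congr h1.symm).trans (GForm.hyp_sum ρ τ))).trans
      (GForm.add_assoc A (GForm.hyp e ρ) (GForm.hyp e τ)).symm
  have h5 : GForm.Iso (B.add (GForm.hyp e σ')) ((B.add (GForm.hyp e σ)).add (GForm.hyp e τ)) :=
    ((GForm.Iso.refl B).add ((GForm.hyp_congr h2.symm).trans (GForm.hyp_sum σ τ))).trans
      (GForm.add_assoc B (GForm.hyp e σ) (GForm.hyp e τ)).symm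
  exact h4.trans (h3.trans h5.symm)

theorem repCopies_sum_fin {κ : Type} [Fintype κ] [DecidableEq κ] {ι : Type} [Fintype ι]
    [DecidableEq ι] (ρ : G →* Matrix ι ι ℤ) (b : ℕ) :
    RepIso (repSum (repCopies κ ρ) (repCopies (Fin b) ρ))
      (repCopies (Fin (Fintype.card κ + b)) ρ) :=
  (repCopies_sum (ν := κ) (μ := Fin b) ρ).trans
    (repCopies_congr_idx (((Fintype.equivFin κ).sumCongr (Equiv.refl _)).trans finSumFinEquiv) ρ)

end

section

variable {D : ℕ} [NeZero D] {e : ℤˣ} {ι κ : Type} [Fintype ι] [DecidableEq ι] [Fintype κ]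
  [DecidableEq κ]

/-- Theorem N, given the property `Good` of lattices of index prime to `D` in free lattices. -/
theorem N_of_good
    (Good : ∀ {μ : Type} [Fintype μ] [DecidableEq μ] (_ : Cyc D × Cyc 5 →* Matrix μ μ ℤ), Prop)
    (good_iso : ∀ {μ ν : Type} [Fintype μ] [DecidableEq μ] [Fintype ν] [DecidableEq ν]
      (σ : Cyc D × Cyc 5 →* Matrix μ μ ℤ) (τ : Cyc D × Cyc 5 →* Matrix ν ν ℤ), RepIso σ τ →
      Good σ → Good τ)
    (good_index : ∀ {m : ℕ} (j : Matrix (κ × LIdx D) (Fin m) ℤ)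
      (c : Matrix (Fin m) (κ × LIdx D) ℤ) (σ : Cyc D × Cyc 5 →* Matrix (Fin m) (Fin m) ℤ) (n : ℕ),
      n.Coprime D → 0 < n → j * c = (n : ℤ) • (1 : Matrix (κ × LIdx D) (κ × LIdx D) ℤ) →
      c * j = (n : ℤ) • (1 : Matrix (Fin m) (Fin m) ℤ) →
      (∀ a, j * σ a = repCopies κ (Lam D) a * j) →
      ∃ b : ℕ, Good (repSum σ (repCopies (Fin b) (Lam D))))
    (A : GForm ℤ (Cyc D × Cyc 5) e ι) (B : GForm ℤ (Cyc D × Cyc 5) e κ)
    (hA : Phi5 A.ρ) (hB : Phi5 B.ρ)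
    (P : Matrix κ ι ℚ) (Q : Matrix ι κ ℚ) (hQP : Q * P = 1) (hPQ : P * Q = 1)
    (hg : Pᵀ * (B.map (Int.castRingHom ℚ)).g * P = (A.map (Int.castRingHom ℚ)).g)
    (hρ : ∀ a, P * (A.map (Int.castRingHom ℚ)).ρ a = (B.map (Int.castRingHom ℚ)).ρ a * P)
    (hQ : ∀ i j, (Q i j).den.Coprime D) :
    ∃ (n r : ℕ) (σ : Cyc D × Cyc 5 →* Matrix (Fin n) (Fin n) ℤ),
      GForm.Iso (A.add (GForm.hyp e (repCopies (Fin r) (Lam D)))) (B.add (GForm.hyp e σ)) ∧
      Good σ := by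
  obtain ⟨m, n, j, c, σ, hn, hnD, hjc, hcj, hjσ, hcσ, hiso⟩ :=
    N_iso A B hA hB P Q hQP hPQ hg hρ hQ
  obtain ⟨b, hb⟩ := good_index j c σ n hnD hn hjc hcj hjσ
  obtain ⟨N, σ', hσ'⟩ := exists_repIso_fin (repSum σ (repCopies (Fin b) (Lam D)))
  exact ⟨N, Fintype.card κ + b, σ', N_add_gen A B _ σ _ _ σ' hiso (repCopies_sum_fin _ _) hσ',
    good_iso _ _ hσ' hb⟩

end

end Vale.Agent.P268.Z
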