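import Vale.Agent.P268.Z.CycRep
import Vale.Agent.P268.Z.ApiRep

/-!
# P268, block N: `X ⊗ J ⊕ Y ⊗ L ≅ X ⊗ L ⊕ Y ⊗ J` for `X`, `Y` with equal characters
-/

namespace Vale.Agent.P268.Z

open Matrix
open scoped Kronecker

section Lift

variable {D : ℕ} {α β : Type} [Fintype α] [DecidableEq α] [Fintype β] [DecidableEq β]

/-- Equivariant maps, inverse to each other modulo `n`. -/
structure LiftN (n : ℕ) (X : Cyc D →* Matrix α α ℤ) (Y : Cyc D →* Matrix β β ℤ) where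
  F : Matrix β α ℤ
  F' : Matrix α β ℤ
  E : Matrix α α ℤ
  E' : Matrix β β ℤ
  hF : ∀ a, F * X a = Y a * F
  hF' : ∀ a, F' * Y a = X a * F'
  hE : 1 - F' * F = (n : ℤ) • E
  hE' : 1 - F * F' = (n : ℤ) • E'

variable {X : Cyc D →* Matrix α α ℤ} {Y : Cyc D →* Matrix β β ℤ}

theorem LiftN.prime [NeZero D] (p : ℕ) (hp : p.Prime) (hD : ¬ p ∣ D)
    (htr : ∀ a, (X a).trace = (Y a).trace) : Nonempty (LiftN p X Y) := by
  obtain ⟨F, F', E, E', h1, h2, h3, h4⟩ := exists_lift_int p hp hD X Y htr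
  exact ⟨⟨F, F', E, E', h1, h2, h3, h4⟩⟩

/-- `LiftN` for divisors. -/
def LiftN.dvd {m k : ℕ} (h : LiftN m X Y) (c : ℕ) (hk : m = k * c) : LiftN k X Y where
  F := h.F
  F' := h.F'
  E := (c : ℤ) • h.E
  E' := (c : ℤ) • h.E'
  hF := h.hF
  hF' := h.hF'
  hE := by subst hk; rw [h.hE, smul_smul]; push_cast; rfl
  hE' := by subst hk; rw [h.hE', smul_smul]; push_cast; rfl

/-- Newton's step. -/
def LiftN.sq {m : ℕ} (h : LiftN m X Y) : LiftN (m * m) X Y where
  F := h.F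
  F' := h.F' + (1 - h.F' * h.F) * h.F'
  E := h.E * h.E
  E' := h.E' * h.E'
  hF := h.hF
  hF' a := by
    have e1 : (h.F' * h.F) * X a = X a * (h.F' * h.F) := by
      rw [Matrix.mul_assoc, h.hF, ← Matrix.mul_assoc, h.hF', Matrix.mul_assoc]
    rw [Matrix.add_mul, Matrix.mul_add, h.hF', Matrix.mul_assoc, h.hF', Matrix.sub_mul,
      Matrix.sub_mul, Matrix.mul_sub, Matrix.one_mul, Matrix.one_mul, ← Matrix.mul_assoc,
      ← Matrix.mul_assoc, e1]
  hE := by
    have e1 : 1 - (h.F' + (1 - h.F' * h.F) * h.F') * h.F =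
        (1 - h.F' * h.F) * (1 - h.F' * h.F) := by
      rw [Matrix.add_mul, Matrix.mul_assoc (1 - h.F' * h.F)]
      noncomm_ring
    rw [e1, h.hE, Matrix.smul_mul, Matrix.mul_smul, smul_smul]
    push_cast
    rfl
  hE' := by
    have e1 : 1 - h.F * (h.F' + (1 - h.F' * h.F) * h.F') =
        (1 - h.F * h.F') * (1 - h.F * h.F') := by
      have e2 : h.F * ((1 - h.F' * h.F) * h.F') = (1 - h.F * h.F') * (h.F * h.F') := by
        rw [Matrix.sub_mul, Matrix.mul_sub, Matrix.sub_mul, Matrix.one_mul, Matrix.one_mul]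
        simp only [Matrix.mul_assoc]
      rw [Matrix.mul_add, e2]
      noncomm_ring
    rw [e1, h.hE', Matrix.smul_mul, Matrix.mul_smul, smul_smul]
    push_cast
    rfl

theorem matrix_near {m : ℤ} {γ δ : Type} [Fintype γ] [DecidableEq γ] [Fintype δ]
    (A' : Matrix γ δ ℤ) (A : Matrix δ γ ℤ) (E : Matrix γ γ ℤ) (P' : Matrix γ δ ℤ)
    (P : Matrix δ γ ℤ) (h : 1 - A' * A = m • E) :
    1 - (A' + m • P') * (A + m • P) = m • (E - A' * P - P' * A - m • (P' * P)) := by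
  rw [smul_sub, smul_sub, smul_sub, ← h, Matrix.add_mul, Matrix.mul_add, Matrix.mul_add,
    Matrix.mul_smul, Matrix.smul_mul, Matrix.smul_mul, Matrix.mul_smul]
  abel

/-- The Chinese remainder theorem. -/
theorem LiftN.coprime {m k : ℕ} (h : LiftN m X Y) (h' : LiftN k X Y) (hc : Nat.Coprime m k) :
    Nonempty (LiftN (m * k) X Y) := by
  obtain ⟨u, v, huv⟩ := Nat.isCoprime_iff_coprime.mpr hc
  let F : Matrix β α ℤ := h.F + (m : ℤ) • (u • (h'.F - h.F))
  let F' : Matrix α β ℤ := h.F' + (m : ℤ) • (u • (h'.F' - h.F'))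
  have hF2 : F = h'.F + (k : ℤ) • (v • (h.F - h'.F)) := by
    have e1 : (k : ℤ) * v = 1 - u * m := by linarith
    change h.F + (m : ℤ) • (u • (h'.F - h.F)) = _
    rw [smul_smul, smul_smul, e1]
    module
  have hF2' : F' = h'.F' + (k : ℤ) • (v • (h.F' - h'.F')) := by
    have e1 : (k : ℤ) * v = 1 - u * m := by linarith
    change h.F' + (m : ℤ) • (u • (h'.F' - h.F')) = _
    rw [smul_smul, smul_smul, e1]
    module
  have key : ∀ {γ : Type} [Fintype γ] [DecidableEq γ] (M A B : Matrix γ γ ℤ),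
      M = (m : ℤ) • A → M = (k : ℤ) • B → M = ((m * k : ℕ) : ℤ) • (u • B + v • A) := by
    intro γ _ _ M A B h1 h2
    have h3 : M = (u * m + v * k) • M := by rw [huv, one_smul]
    calc M = (u * m + v * k) • M := h3
      _ = (u * m) • M + (v * k) • M := add_smul _ _ _
      _ = (u * m) • ((k : ℤ) • B) + (v * k) • ((m : ℤ) • A) := by rw [← h1, ← h2]
      _ = _ := by push_cast; module
  obtain ⟨A1, hA1⟩ : ∃ A1, 1 - F' * F = (m : ℤ) • A1 := ⟨_, matrix_near h.F' h.F h.E _ _ h.hE⟩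
  obtain ⟨A2, hA2⟩ : ∃ A2, 1 - F * F' = (m : ℤ) • A2 := ⟨_, matrix_near h.F h.F' h.E' _ _ h.hE'⟩
  obtain ⟨B1, hB1⟩ : ∃ B1, 1 - F' * F = (k : ℤ) • B1 :=
    ⟨_, by rw [hF2, hF2']; exact matrix_near h'.F' h'.F h'.E _ _ h'.hE⟩
  obtain ⟨B2, hB2⟩ : ∃ B2, 1 - F * F' = (k : ℤ) • B2 :=
    ⟨_, by rw [hF2, hF2']; exact matrix_near h'.F h'.F' h'.E' _ _ h'.hE'⟩
  refine ⟨⟨F, F', _, _, ?_, ?_, key _ _ _ hA1 hB1, key _ _ _ hA2 hB2⟩⟩
  · intro a
    simp only [F, Matrix.add_mul, Matrix.mul_add, Matrix.smul_mul, Matrix.mul_smul,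
      Matrix.sub_mul, Matrix.mul_sub, h.hF, h'.hF]
  · intro a
    simp only [F', Matrix.add_mul, Matrix.mul_add, Matrix.smul_mul, Matrix.mul_smul,
      Matrix.sub_mul, Matrix.mul_sub, h.hF', h'.hF']

theorem LiftN.exists [NeZero D] (htr : ∀ a, (X a).trace = (Y a).trace) (n : ℕ) :
    n.Coprime D → 0 < n → Nonempty (LiftN n X Y) := by
  induction n using Nat.recOnPosPrimePosCoprime with
  | prime_pow p k hp hk =>
    intro hc _
    have hpD : ¬ p ∣ D := by
      intro h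
      have h1 : Nat.Coprime p D := Nat.Coprime.coprime_dvd_left (dvd_pow_self p hk.ne') hc
      exact hp.one_lt.ne' (h1.eq_one_of_dvd h)
    have key : ∀ j : ℕ, Nonempty (LiftN (p ^ (2 ^ j)) X Y) := by
      intro j
      induction j with
      | zero =>
        rw [pow_zero, pow_one]
        exact LiftN.prime p hp hpD htr
      | succ j ih =>
        obtain ⟨h⟩ := ih
        have := h.sq
        rw [← pow_add, ← two_mul, ← pow_succ'] at this
        exact ⟨this⟩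
    obtain ⟨h⟩ := key k
    have hle : k ≤ 2 ^ k := Nat.lt_two_pow_self.le
    exact ⟨h.dvd (p ^ (2 ^ k - k)) (by rw [← pow_add, Nat.add_sub_cancel' hle])⟩
  | zero => intro _ h; omega
  | one =>
    intro _ _
    exact ⟨⟨0, 0, 1, 1, by simp, by simp, by simp, by simp⟩⟩
  | coprime a b ha hb hab iha ihb =>
    intro hc _
    obtain ⟨h1⟩ := iha (Nat.Coprime.coprime_mul_right hc) (by omega)
    obtain ⟨h2⟩ := ihb (Nat.Coprime.coprime_mul_left hc) (by omega)
    exact h1.coprime h2 hab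

end Lift

section Twist

variable {G : Type} [CommGroup G] {α β κ μ : Type} [Fintype α] [DecidableEq α] [Fintype β]
  [DecidableEq β] [Fintype κ] [DecidableEq κ] [Fintype μ] [DecidableEq μ]

theorem smul_cancel {n : ℕ} (hn : 0 < n) {γ δ : Type} {A B : Matrix γ δ ℤ}
    (h : (n : ℤ) • A = (n : ℤ) • B) : A = B := by
  ext i j
  have := congrFun (congrFun h i) j
  simp only [Matrix.smul_apply, smul_eq_mul] at this
  exact mul_left_cancel₀ (by exact_mod_cast hn.ne') this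

theorem twist_iso (n : ℕ) (hn : 0 < n) (X : G →* Matrix α α ℤ) (Y : G →* Matrix β β ℤ)
    (J : G →* Matrix κ κ ℤ) (L : G →* Matrix μ μ ℤ) (j : Matrix μ κ ℤ) (c : Matrix κ μ ℤ)
    (F : Matrix β α ℤ) (F' : Matrix α β ℤ) (E : Matrix α α ℤ) (E' : Matrix β β ℤ)
    (hF : ∀ a, F * X a = Y a * F) (hF' : ∀ a, F' * Y a = X a * F')
    (hE : 1 - F' * F = (n : ℤ) • E) (hE' : 1 - F * F' = (n : ℤ) • E')
    (hj : ∀ a, j * J a = L a * j) (hjc : j * c = (n : ℤ) • 1) (hcj : c * j = (n : ℤ) • 1) :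
    RepIso (repSum (repTensor X J) (repTensor Y L)) (repSum (repTensor X L) (repTensor Y J)) := by
  have hc : ∀ a, c * L a = J a * c := by
    intro a
    apply smul_cancel hn
    calc (n : ℤ) • (c * L a) = c * L a * (j * c) := by
          rw [hjc, Matrix.mul_smul, Matrix.mul_one]
      _ = c * (L a * j) * c := by simp only [Matrix.mul_assoc]
      _ = (c * j) * (J a * c) := by rw [← hj]; simp only [Matrix.mul_assoc]
      _ = _ := by rw [hcj, Matrix.smul_mul, Matrix.one_mul]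
  have hE'Y : ∀ a, E' * Y a = Y a * E' := by
    intro a
    apply smul_cancel hn
    rw [← Matrix.smul_mul, ← Matrix.mul_smul, ← hE', Matrix.sub_mul, Matrix.mul_sub,
      Matrix.one_mul, Matrix.mul_one, Matrix.mul_assoc, hF', ← Matrix.mul_assoc, hF,
      Matrix.mul_assoc]
  have hEF : E * F' = F' * E' := by
    apply smul_cancel hn
    rw [← Matrix.smul_mul, ← Matrix.mul_smul, ← hE, ← hE', Matrix.sub_mul, Matrix.mul_sub,
      Matrix.one_mul, Matrix.mul_one, Matrix.mul_assoc]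
  have hFE : F * E = E' * F := by
    apply smul_cancel hn
    rw [← Matrix.mul_smul, ← Matrix.smul_mul, ← hE, ← hE', Matrix.sub_mul, Matrix.mul_sub,
      Matrix.one_mul, Matrix.mul_one, Matrix.mul_assoc]
  have h1 : E ⊗ₖ (c * j) + (F' * F) ⊗ₖ (1 : Matrix κ κ ℤ) = 1 := by
    rw [hcj, Matrix.kronecker_smul, ← Matrix.smul_kronecker, ← hE, ← Matrix.add_kronecker]
    simp
  have h1' : (F * F') ⊗ₖ (1 : Matrix μ μ ℤ) + E' ⊗ₖ (j * c) = 1 := by
    rw [hjc, Matrix.kronecker_smul, ← Matrix.smul_kronecker, ← hE', ← Matrix.add_kronecker]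
    simp
  have h2 : E ⊗ₖ (j * c) + (F' * F) ⊗ₖ (1 : Matrix μ μ ℤ) = 1 := by
    rw [hjc, Matrix.kronecker_smul, ← Matrix.smul_kronecker, ← hE, ← Matrix.add_kronecker]
    simp
  have h2' : (F * F') ⊗ₖ (1 : Matrix κ κ ℤ) + E' ⊗ₖ (c * j) = 1 := by
    rw [hcj, Matrix.kronecker_smul, ← Matrix.smul_kronecker, ← hE', ← Matrix.add_kronecker]
    simp
  refine ⟨fromBlocks ((1 : Matrix α α ℤ) ⊗ₖ j) (-(F' ⊗ₖ (1 : Matrix μ μ ℤ)))
      (F ⊗ₖ (1 : Matrix κ κ ℤ)) (E' ⊗ₖ c),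
    fromBlocks (E ⊗ₖ c) (F' ⊗ₖ (1 : Matrix κ κ ℤ)) (-(F ⊗ₖ (1 : Matrix μ μ ℤ)))
      ((1 : Matrix β β ℤ) ⊗ₖ j), ?_, ?_, ?_⟩
  · rw [fromBlocks_multiply, ← fromBlocks_one]
    congr 1
    · rw [← mul_kronecker_mul, ← mul_kronecker_mul, Matrix.mul_one, Matrix.mul_one, h1]
    · rw [Matrix.mul_neg, ← mul_kronecker_mul, ← mul_kronecker_mul, Matrix.mul_one,
        Matrix.one_mul, hEF, neg_add_cancel]
    · rw [Matrix.neg_mul, ← mul_kronecker_mul, ← mul_kronecker_mul, Matrix.mul_one,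
        Matrix.one_mul, Matrix.one_mul, Matrix.mul_one, neg_add_cancel]
    · rw [Matrix.neg_mul, Matrix.mul_neg, neg_neg, ← mul_kronecker_mul, ← mul_kronecker_mul,
        Matrix.one_mul, Matrix.one_mul, h1']
  · rw [fromBlocks_multiply, ← fromBlocks_one]
    congr 1
    · rw [Matrix.neg_mul, Matrix.mul_neg, neg_neg, ← mul_kronecker_mul, ← mul_kronecker_mul,
        Matrix.one_mul, Matrix.one_mul, h2]
    · rw [Matrix.neg_mul, ← mul_kronecker_mul, ← mul_kronecker_mul, Matrix.mul_one,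
        Matrix.one_mul, Matrix.one_mul, Matrix.mul_one, add_neg_cancel]
    · rw [Matrix.mul_neg, ← mul_kronecker_mul, ← mul_kronecker_mul, Matrix.one_mul,
        Matrix.mul_one, hFE, add_neg_cancel]
    · rw [← mul_kronecker_mul, ← mul_kronecker_mul, Matrix.mul_one, Matrix.mul_one, h2']
  · intro a
    rw [repSum_apply, repSum_apply, repTensor_apply, repTensor_apply, repTensor_apply,
      repTensor_apply, fromBlocks_multiply, fromBlocks_multiply]
    simp only [Matrix.mul_zero, Matrix.zero_mul, add_zero, zero_add, neg_zero, Matrix.neg_mul,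
      Matrix.mul_neg, ← mul_kronecker_mul, Matrix.one_mul, Matrix.mul_one, hj, hF, hF', hc, hE'Y]

end Twist

end Vale.Agent.P268.Z
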