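import Vale.Agent.P268.Z.N.Real
import Vale.Agent.P268.Z.N.Twist

/-!
# P268, block N: good lattices
-/

namespace Vale.Agent.P268.Z

open Matrix Module

section Good

variable {D : ℕ} [NeZero D] {κ ν μ : Type} [Fintype κ] [DecidableEq κ] [Fintype ν]
  [DecidableEq ν] [Fintype μ] [DecidableEq μ]

/-- `σ ⊕ σ^♯` is free and `X ⊗ σ` is stably determined by the character of `X`. -/
def Good (σ : Cyc D × Cyc 5 →* Matrix κ κ ℤ) : Prop :=
  (∃ a : ℕ, RepIso (repSum σ (repSharp σ)) (repCopies (Fin a) (Lam D))) ∧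
  (∀ (α β : Type) [Fintype α] [DecidableEq α] [Fintype β] [DecidableEq β]
    (X : Cyc D →* Matrix α α ℤ) (Y : Cyc D →* Matrix β β ℤ),
    (∀ a, (X a).trace = (Y a).trace) → ∃ a : ℕ, RepIso
      (repSum (repTensor (X.comp (MonoidHom.fst _ _)) σ) (repCopies (Fin a) (Lam D)))
      (repSum (repTensor (Y.comp (MonoidHom.fst _ _)) σ) (repCopies (Fin a) (Lam D))))

theorem Good.of_iso {σ : Cyc D × Cyc 5 →* Matrix κ κ ℤ} {τ : Cyc D × Cyc 5 →* Matrix ν ν ℤ}
    (h : RepIso σ τ) (hσ : Good σ) : Good τ := by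
  obtain ⟨⟨a, ha⟩, h2⟩ := hσ
  refine ⟨⟨a, (h.symm.sum h.symm.sharp).trans ha⟩, fun α β _ _ _ _ X Y hXY => ?_⟩
  obtain ⟨b, hb⟩ := h2 α β X Y hXY
  exact ⟨b, (((RepIso.refl _).tensor h.symm).sum (RepIso.refl _)).trans
    (hb.trans (((RepIso.refl _).tensor h).sum (RepIso.refl _)))⟩

theorem free_add (a b : ℕ) : RepIso
    (repSum (repCopies (Fin a) (Lam D)) (repCopies (Fin b) (Lam D)))
    (repCopies (Fin (a + b)) (Lam D)) :=
  (repCopies_sum _).trans (repCopies_congr_idx finSumFinEquiv _)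

theorem free_card (ν : Type) [Fintype ν] [DecidableEq ν] : RepIso (repCopies ν (Lam D))
    (repCopies (Fin (Fintype.card ν)) (Lam D)) :=
  repCopies_congr_idx (Fintype.equivFin ν) _

theorem free_tensor (ν : Type) [Fintype ν] [DecidableEq ν] {α : Type} [Fintype α] [DecidableEq α]
    (X : Cyc D →* Matrix α α ℤ) : RepIso
    (repTensor (X.comp (MonoidHom.fst _ _)) (repCopies ν (Lam D)))
    (repCopies (Fin (Fintype.card ν * Fintype.card α)) (Lam D)) := by
  refine (repTensor_copies _ _).trans ?_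
  refine (repCopies_congr (repTensor_ext_reg X E5.ρ)).trans ?_
  refine (repCopies_copies _).trans ?_
  have := free_card (D := D) (ν × α)
  rw [Fintype.card_prod] at this
  exact this

omit [NeZero D] in
theorem card_of_trace {α β : Type} [Fintype α] [DecidableEq α] [Fintype β] [DecidableEq β]
    {X : Cyc D →* Matrix α α ℤ} {Y : Cyc D →* Matrix β β ℤ}
    (h : ∀ a, (X a).trace = (Y a).trace) : Fintype.card α = Fintype.card β := by
  have := h 1
  rw [map_one, map_one, Matrix.trace_one, Matrix.trace_one] at this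
  exact_mod_cast this

theorem sharp_lam : RepIso (repSharp (Lam D)) (Lam D) := by
  obtain ⟨O, _, _, _, _, _, ⟨S⟩⟩ := exists_cycRing
  exact Real.iso S (Real.dual S (Real.lam S)) (Real.lam S)
    (LinearMap.ringLmapEquivSelf (MonoidAlgebra O (Cyc D)) (MonoidAlgebra O (Cyc D))
      (MonoidAlgebra O (Cyc D)))

theorem sharp_free (ν : Type) [Fintype ν] [DecidableEq ν] :
    RepIso (repSharp (repCopies ν (Lam D))) (repCopies ν (Lam D)) := by
  rw [repSharp_repCopies]
  exact repCopies_congr sharp_lam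

theorem Good.free (ν : Type) [Fintype ν] [DecidableEq ν] : Good (repCopies ν (Lam D)) := by
  refine ⟨⟨Fintype.card ν + Fintype.card ν, ?_⟩, fun α β _ _ _ _ X Y hXY => ⟨0, ?_⟩⟩
  · exact ((free_card ν).sum ((sharp_free ν).trans (free_card ν))).trans (free_add _ _)
  · refine RepIso.sum ?_ (RepIso.refl _)
    have h1 := free_tensor ν X
    rw [card_of_trace hXY] at h1
    exact h1.trans (free_tensor ν Y).symm

theorem Good.lam : Good (Lam D) :=
  Good.of_iso (repCopies_unit _) (Good.free Unit)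

theorem Good.sum {σ : Cyc D × Cyc 5 →* Matrix κ κ ℤ} {τ : Cyc D × Cyc 5 →* Matrix ν ν ℤ}
    (hσ : Good σ) (hτ : Good τ) : Good (repSum σ τ) := by
  obtain ⟨⟨a, ha⟩, h2⟩ := hσ
  obtain ⟨⟨b, hb⟩, h3⟩ := hτ
  refine ⟨⟨a + b, ?_⟩, fun α β _ _ _ _ X Y hXY => ?_⟩
  · rw [repSharp_repSum]
    exact (repSum_comm4 _ _ _ _).trans ((ha.sum hb).trans (free_add _ _))
  · obtain ⟨c, hc⟩ := h2 α β X Y hXY
    obtain ⟨d, hd⟩ := h3 α β X Y hXY
    refine ⟨c + d, ?_⟩
    have key : ∀ {γ : Type} [Fintype γ] [DecidableEq γ] (Z : Cyc D →* Matrix γ γ ℤ), RepIso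
        (repSum (repTensor (Z.comp (MonoidHom.fst _ _)) (repSum σ τ))
          (repCopies (Fin (c + d)) (Lam D)))
        (repSum (repSum (repTensor (Z.comp (MonoidHom.fst _ _)) σ) (repCopies (Fin c) (Lam D)))
          (repSum (repTensor (Z.comp (MonoidHom.fst _ _)) τ) (repCopies (Fin d) (Lam D)))) := by
      intro γ _ _ Z
      exact ((repTensor_sum _ _ _).sum (free_add c d).symm).trans (repSum_comm4 _ _ _ _)
    exact (key X).trans ((hc.sum hd).trans (key Y).symm)

theorem Good.copies (n : ℕ) {σ : Cyc D × Cyc 5 →* Matrix κ κ ℤ} (h : Good σ) :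
    Good (repCopies (Fin n) σ) := by
  induction n with
  | zero =>
    exact Good.of_iso (RepIso.of_equiv (Equiv.equivOfIsEmpty _ _) (fun _ i => isEmptyElim i))
      (Good.free (Fin 0))
  | succ n ih =>
    exact Good.of_iso ((repCopies_sum σ).trans (repCopies_congr_idx finSumFinEquiv _))
      (ih.sum (Good.of_iso ((repCopies_unit σ).symm.trans
        (repCopies_congr_idx (Equiv.ofUnique Unit (Fin 1)) σ)) h))

/-- Adding free summands in clause 3. -/
theorem good_of_index_aux {n : ℕ} (hn : n.Coprime D) (hn0 : 0 < n)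
    (σ : Cyc D × Cyc 5 →* Matrix κ κ ℤ) (j : Matrix (ν × LIdx D) κ ℤ)
    (c : Matrix κ (ν × LIdx D) ℤ) (hjc : j * c = (n : ℤ) • 1) (hcj : c * j = (n : ℤ) • 1)
    (hj : ∀ a, j * σ a = repCopies ν (Lam D) a * j) :
    (∀ (α β : Type) [Fintype α] [DecidableEq α] [Fintype β] [DecidableEq β]
    (X : Cyc D →* Matrix α α ℤ) (Y : Cyc D →* Matrix β β ℤ),
    (∀ a, (X a).trace = (Y a).trace) → ∃ a : ℕ, RepIso
      (repSum (repTensor (X.comp (MonoidHom.fst _ _)) σ) (repCopies (Fin a) (Lam D)))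
      (repSum (repTensor (Y.comp (MonoidHom.fst _ _)) σ) (repCopies (Fin a) (Lam D)))) := by
  intro α β _ _ _ _ X Y hXY
  obtain ⟨h⟩ := LiftN.exists hXY n hn hn0
  have h1 := twist_iso n hn0 (X.comp (MonoidHom.fst (Cyc D) (Cyc 5)))
    (Y.comp (MonoidHom.fst (Cyc D) (Cyc 5))) σ (repCopies ν (Lam D)) j c h.F h.F' h.E h.E'
    (fun a => h.hF a.1) (fun a => h.hF' a.1) h.hE h.hE' hj hjc hcj
  have h2 := free_tensor ν X
  have h3 := free_tensor ν Y
  rw [← card_of_trace hXY] at h3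
  refine ⟨Fintype.card ν * Fintype.card α, ?_⟩
  exact ((RepIso.refl _).sum h3.symm).trans (h1.trans ((repSum_comm _ _).trans
    ((RepIso.refl _).sum h2)))

/-- `J ⊕ J^♯` is stably free. -/
theorem stably_free {n : ℕ} (hn : n.Coprime D) (hn0 : 0 < n)
    (σ : Cyc D × Cyc 5 →* Matrix κ κ ℤ) (j : Matrix (ν × LIdx D) κ ℤ)
    (c : Matrix κ (ν × LIdx D) ℤ) (hjc : j * c = (n : ℤ) • 1) (hcj : c * j = (n : ℤ) • 1)
    (hj : ∀ a, j * σ a = repCopies ν (Lam D) a * j) :
    ∃ a b : ℕ, RepIso (repSum (repSum σ (repSharp σ)) (repCopies (Fin b) (Lam D)))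
      (repCopies (Fin a) (Lam D)) := by
  obtain ⟨O, _, _, _, _, _, ⟨S⟩⟩ := exists_cycRing
  obtain ⟨e, he⟩ := (Real.lam (D := D) S).copies (ν := ν)
  have hgam : ∀ (d : Cyc D) (o : O), ∃ w : Fin 4 → ℤ, MonoidAlgebra.single d o =
      w 0 • gam S D (d, Multiplicative.ofAdd 0) + w 1 • gam S D (d, Multiplicative.ofAdd 1) +
      w 2 • gam S D (d, Multiplicative.ofAdd 2) + w 3 • gam S D (d, Multiplicative.ofAdd 3) := by
    intro d o
    obtain ⟨w, rfl⟩ := (e4 S).surjective o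
    refine ⟨w, ?_⟩
    have h0 : gam S D (d, Multiplicative.ofAdd 0) = MonoidAlgebra.single d (S.z ^ 0) := rfl
    have h1 : gam S D (d, Multiplicative.ofAdd 1) = MonoidAlgebra.single d (S.z ^ 1) := rfl
    have h2 : gam S D (d, Multiplicative.ofAdd 2) = MonoidAlgebra.single d (S.z ^ 2) := rfl
    have h3 : gam S D (d, Multiplicative.ofAdd 3) = MonoidAlgebra.single d (S.z ^ 3) := rfl
    have hs : ∀ (m : ℤ) (x : O), MonoidAlgebra.single d ((m : O) * x) =
        m • MonoidAlgebra.single d x := by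
      intro m x
      rw [← zsmul_eq_mul]
      exact map_zsmul (MonoidAlgebra.singleAddHom (R := O) d) m x
    have ha : ∀ x y : O, MonoidAlgebra.single d (x + y) =
        MonoidAlgebra.single d x + MonoidAlgebra.single d y := fun x y =>
      map_add (MonoidAlgebra.singleAddHom (R := O) d) x y
    rw [h0, h1, h2, h3, e4_apply, ha, ha, ha, hs, hs, hs, pow_zero, pow_one, ← hs (w 0) 1,
      mul_one]
  let J : Submodule (MonoidAlgebra O (Cyc D)) (ν → MonoidAlgebra O (Cyc D)) :=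
    { carrier := {x | ∃ v, e (j *ᵥ v) = x}
      add_mem' := by
        rintro _ _ ⟨v, rfl⟩ ⟨w, rfl⟩
        exact ⟨v + w, by rw [Matrix.mulVec_add, map_add]⟩
      zero_mem' := ⟨0, by rw [Matrix.mulVec_zero, map_zero]⟩
      smul_mem' := by
        have hadd : ∀ x y, (∃ v, e (j *ᵥ v) = x) → (∃ v, e (j *ᵥ v) = y) →
            ∃ v, e (j *ᵥ v) = x + y := by
          rintro _ _ ⟨v, rfl⟩ ⟨w, rfl⟩
          exact ⟨v + w, by rw [Matrix.mulVec_add, map_add]⟩
        have hsm : ∀ (m : ℤ) x, (∃ v, e (j *ᵥ v) = x) → ∃ v, e (j *ᵥ v) = m • x := by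
          rintro m _ ⟨v, rfl⟩
          exact ⟨m • v, by rw [Matrix.mulVec_smul, map_zsmul]⟩
        have hg : ∀ a x, (∃ v, e (j *ᵥ v) = x) → ∃ v, e (j *ᵥ v) = gam S D a • x := by
          rintro a _ ⟨v, rfl⟩
          exact ⟨σ a *ᵥ v, by rw [← he, Matrix.mulVec_mulVec, Matrix.mulVec_mulVec, hj]⟩
        intro l x hx
        induction l using MonoidAlgebra.induction_linear with
        | zero => exact ⟨0, by rw [Matrix.mulVec_zero, map_zero, zero_smul]⟩
        | add l l' h h' =>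
          rw [add_smul]
          exact hadd _ _ h h'
        | single d o =>
          obtain ⟨w, hw⟩ := hgam d o
          rw [hw, add_smul, add_smul, add_smul, smul_assoc, smul_assoc, smul_assoc, smul_assoc]
          exact hadd _ _ (hadd _ _ (hadd _ _ (hsm _ _ (hg _ _ hx)) (hsm _ _ (hg _ _ hx)))
            (hsm _ _ (hg _ _ hx))) (hsm _ _ (hg _ _ hx)) }
  have hJn : ∀ x : ν → MonoidAlgebra O (Cyc D), (n : MonoidAlgebra O (Cyc D)) • x ∈ J := by
    intro x
    obtain ⟨w, rfl⟩ := e.surjective x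
    refine ⟨c *ᵥ w, ?_⟩
    rw [Matrix.mulVec_mulVec, hjc, Matrix.smul_mulVec, Matrix.one_mulVec, map_zsmul,
      natCast_zsmul]
    exact (Nat.cast_smul_eq_nsmul (MonoidAlgebra O (Cyc D)) n (e w)).symm
  have hcard : Fintype.card (Cyc D) = D := by
    rw [Fintype.card_multiplicative, ZMod.card]
  obtain ⟨b, hfree, hfin⟩ := stF_of_index n (by rw [hcard]; exact hn) hn0 J hJn
  let φ : (κ → ℤ) →+ J :=
    { toFun := fun v => ⟨e (j *ᵥ v), v, rfl⟩
      map_zero' := by
        apply Subtype.ext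
        change e (j *ᵥ 0) = 0
        rw [Matrix.mulVec_zero, map_zero]
      map_add' := fun v w => by
        apply Subtype.ext
        change e (j *ᵥ (v + w)) = e (j *ᵥ v) + e (j *ᵥ w)
        rw [Matrix.mulVec_add, map_add] }
  have hφ : Function.Bijective φ := by
    constructor
    · rw [injective_iff_map_eq_zero]
      intro v hv
      have h1 : e (j *ᵥ v) = 0 := congrArg Subtype.val hv
      have h2 : j *ᵥ v = 0 := by
        apply e.injective
        rw [h1, map_zero]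
      have h3 : c *ᵥ (j *ᵥ v) = 0 := by rw [h2, Matrix.mulVec_zero]
      rw [Matrix.mulVec_mulVec, hcj, Matrix.smul_mulVec, Matrix.one_mulVec] at h3
      exact (smul_eq_zero.mp h3).resolve_left (by exact_mod_cast hn0.ne')
    · rintro ⟨x, v, rfl⟩
      exact ⟨v, rfl⟩
  have hreal : Real S J σ := by
    refine ⟨AddEquiv.ofBijective φ hφ, fun a v => ?_⟩
    apply Subtype.ext
    change e (j *ᵥ (σ a *ᵥ v)) = gam S D a • e (j *ᵥ v)
    rw [← he, Matrix.mulVec_mulVec, Matrix.mulVec_mulVec, hj]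
  have hL := ((hreal.prod S (hreal.dual S)).prod S ((Real.lam (D := D) S).copies (ν := Fin b)))
  have hR := (Real.lam (D := D) S).copies
    (ν := Fin (Module.finrank (MonoidAlgebra O (Cyc D))
      ((J × Dual (MonoidAlgebra O (Cyc D)) J) × (Fin b → MonoidAlgebra O (Cyc D)))))
  exact ⟨_, b, hL.iso S hR (Module.finBasis (MonoidAlgebra O (Cyc D)) _).equivFun⟩

theorem Good_of_index (σ : Cyc D × Cyc 5 →* Matrix κ κ ℤ) (j : Matrix (ν × LIdx D) κ ℤ)
    (c : Matrix κ (ν × LIdx D) ℤ) (n : ℕ) (hn : n.Coprime D) (hn0 : 0 < n)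
    (hjc : j * c = (n : ℤ) • 1) (hcj : c * j = (n : ℤ) • 1)
    (hj : ∀ a, j * σ a = repCopies ν (Lam D) a * j) :
    ∃ b : ℕ, Good (repSum σ (repCopies (Fin b) (Lam D))) := by
  obtain ⟨a, b, h1⟩ := stably_free hn hn0 σ j c hjc hcj hj
  have h3 := good_of_index_aux hn hn0 σ j c hjc hcj hj
  refine ⟨b, ⟨a + b, ?_⟩, fun α β _ _ _ _ X Y hXY => ?_⟩
  · rw [repSharp_repSum]
    exact (repSum_comm4 _ _ _ _).trans ((((RepIso.refl _).sum ((RepIso.refl _).sum
      (sharp_free _))).trans (repSum_assoc _ _ _).symm).trans ((h1.sum (RepIso.refl _)).trans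
      (free_add _ _)))
  · obtain ⟨d, hd⟩ := h3 α β X Y hXY
    refine ⟨d, ?_⟩
    have key : ∀ {γ : Type} [Fintype γ] [DecidableEq γ] (Z : Cyc D →* Matrix γ γ ℤ), RepIso
        (repSum (repTensor (Z.comp (MonoidHom.fst _ _)) (repSum σ (repCopies (Fin b) (Lam D))))
          (repCopies (Fin d) (Lam D)))
        (repSum (repSum (repTensor (Z.comp (MonoidHom.fst _ _)) σ) (repCopies (Fin d) (Lam D)))
          (repCopies (Fin (Fintype.card (Fin b) * Fintype.card γ)) (Lam D))) := by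
      intro γ _ _ Z
      exact (((repTensor_sum _ _ _).trans ((RepIso.refl _).sum (free_tensor (Fin b) Z))).sum
        (RepIso.refl _)).trans ((repSum_assoc _ _ _).trans (((RepIso.refl _).sum
          (repSum_comm _ _)).trans (repSum_assoc _ _ _).symm))
    have hX := key X
    rw [card_of_trace hXY] at hX
    exact hX.trans ((hd.sum (RepIso.refl _)).trans (key Y).symm)

end Good

end Vale.Agent.P268.Z
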