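import Vale.Agent.P268.Z.N.Dev

/-!
# P268, block N: `Λ^♯ ≅ Λ`; clause h2 of theorem N
-/

namespace Vale.Agent.P268.Z

open Matrix

section Comp

/-- The Hankel matrix `λ(ζ^(i+j))`. -/
def hankel5 : Matrix (Fin 4) (Fin 4) ℤ :=
  Matrix.of fun i j => if (i : ℕ) + j = 3 then 1 else if (i : ℕ) + j = 4 then -1 else 0

/-- Its inverse. -/
def hankel5inv : Matrix (Fin 4) (Fin 4) ℤ := Matrix.of fun i j => if (i : ℕ) + j ≤ 3 then 1 else 0

theorem hankel5_comp : hankel5 * compMat 4 = (compMat 4)ᵀ * hankel5 := by decide +kernel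

theorem hankel5_inv : hankel5inv * hankel5 = 1 := by decide +kernel

theorem hankel5_inv' : hankel5 * hankel5inv = 1 := by decide +kernel

theorem hankel5_pow (n : ℕ) : hankel5 * compMat 4 ^ n = (compMat 4 ^ n)ᵀ * hankel5 := by
  induction n with
  | zero => simp
  | succ n ih => rw [pow_succ, ← Matrix.mul_assoc, ih, Matrix.mul_assoc, hankel5_comp,
      ← Matrix.mul_assoc, ← transpose_mul, ← pow_succ', ← pow_succ]

theorem E5_sharp : RepIso E5.ρ (repSharp E5.ρ) :=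
  ⟨hankel5, hankel5inv, hankel5_inv, hankel5_inv', fun a => by
    rw [repSharp_apply, E5_rho]
    exact hankel5_pow _⟩

end Comp

section Lam

variable {R : Type} [CommRing R] {G : Type} [CommGroup G] {ι κ : Type} [Fintype ι]
  [DecidableEq ι] [Fintype κ] [DecidableEq κ]

theorem repSharp_tensor (ρ : G →* Matrix ι ι R) (σ : G →* Matrix κ κ R) :
    repSharp (repTensor ρ σ) = repTensor (repSharp ρ) (repSharp σ) := by
  ext a : 1
  exact Matrix.kroneckerMap_transpose _ _ _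

theorem repSharp_reg [Fintype G] [DecidableEq G] :
    repSharp (repReg R G) = repBar (repReg R G) := by
  ext a x y
  change (if y = a * x then (1 : R) else 0) = if x = a⁻¹ * y then 1 else 0
  congr 1
  rw [eq_inv_mul_iff_mul_eq]
  exact propext eq_comm

theorem repSharp_copies (ν : Type) [Fintype ν] [DecidableEq ν] (ρ : G →* Matrix ι ι R) :
    repSharp (repCopies ν ρ) = repCopies ν (repSharp ρ) := by
  rw [repCopies, repSharp_tensor]
  congr 1
  ext a : 1
  simp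

theorem Lam_sharp (D : ℕ) [NeZero D] : RepIso (repSharp (Lam D)) (Lam D) := by
  have h1 : RepIso (repSharp ((repReg ℤ (Cyc D)).comp (MonoidHom.fst (Cyc D) (Cyc 5))))
      ((repReg ℤ (Cyc D)).comp (MonoidHom.fst (Cyc D) (Cyc 5))) := by
    have h : RepIso (repSharp (repReg ℤ (Cyc D))) (repReg ℤ (Cyc D)) := by
      rw [repSharp_reg]; exact repReg_bar
    exact h.comp (MonoidHom.fst (Cyc D) (Cyc 5))
  have h2 : RepIso (repSharp (E5.ρ.comp (MonoidHom.snd (Cyc D) (Cyc 5))))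
      (E5.ρ.comp (MonoidHom.snd (Cyc D) (Cyc 5))) :=
    (E5_sharp.comp (MonoidHom.snd (Cyc D) (Cyc 5))).symm
  have h3 := h1.tensor h2
  rw [← repSharp_tensor] at h3
  exact h3

/-- Clause h2 for a sublattice of index prime to `D` in a free lattice. -/
theorem h2_of_index {D : ℕ} [NeZero D] {μ ν : Type} [Fintype μ] [DecidableEq μ] [Fintype ν]
    [DecidableEq ν] (n : ℕ) (hn0 : 0 < n) (hn : n.Coprime D)
    (σ : Cyc D × Cyc 5 →* Matrix μ μ ℤ) (j : Matrix (ν × LIdx D) μ ℤ)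
    (c : Matrix μ (ν × LIdx D) ℤ)
    (hjc : j * c = (n : ℤ) • (1 : Matrix (ν × LIdx D) (ν × LIdx D) ℤ))
    (hcj : c * j = (n : ℤ) • (1 : Matrix μ μ ℤ))
    (hj : ∀ a, j * σ a = repCopies ν (Lam D) a * j) :
    RepIso (repSum σ (repSharp σ)) (repCopies (ν ⊕ ν) (Lam D)) := by
  refine (dual_free_of_index (repCopies ν (Lam D)) (Phi5.copies ν phi5_Lam) n hn0 hn σ j c hjc
    hcj hj).trans ?_
  refine RepIso.trans (RepIso.sum (RepIso.refl _) ?_) (repCopies_sum (Lam D))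
  rw [repSharp_copies]
  exact RepIso.tensor (RepIso.refl _) (Lam_sharp D)

/-- `Fin a` version. -/
theorem h2_of_index_fin {D : ℕ} [NeZero D] {μ ν : Type} [Fintype μ] [DecidableEq μ] [Fintype ν]
    [DecidableEq ν] (n : ℕ) (hn0 : 0 < n) (hn : n.Coprime D)
    (σ : Cyc D × Cyc 5 →* Matrix μ μ ℤ) (j : Matrix (ν × LIdx D) μ ℤ)
    (c : Matrix μ (ν × LIdx D) ℤ)
    (hjc : j * c = (n : ℤ) • (1 : Matrix (ν × LIdx D) (ν × LIdx D) ℤ))
    (hcj : c * j = (n : ℤ) • (1 : Matrix μ μ ℤ))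
    (hj : ∀ a, j * σ a = repCopies ν (Lam D) a * j) :
    ∃ a : ℕ, RepIso (repSum σ (repSharp σ)) (repCopies (Fin a) (Lam D)) :=
  ⟨Fintype.card (ν ⊕ ν), (h2_of_index n hn0 hn σ j c hjc hcj hj).trans
    (repCopies_congr_idx (Fintype.equivFin (ν ⊕ ν)) _)⟩

end Lam

end Vale.Agent.P268.Z
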