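import Vale.Agent.P268.Z.N.Pid
import Vale.Agent.P268.Z.E5

/-!
# P268, block N: equivariant lifts up to the multiplier `D`, equivariant sections
-/

namespace Vale.Agent.P268.Z

open Matrix

section Avg

variable {D : ℕ} {M N P : Type} [AddCommGroup M] [AddCommGroup N] [AddCommGroup P]

theorem gen5_pow (a : ℕ) : ((1, Multiplicative.ofAdd (1 : ZMod 5)) : Cyc D × Cyc 5) ^ a =
    (1, Multiplicative.ofAdd (a : ZMod 5)) := by
  rw [Prod.pow_mk, one_pow, ← ofAdd_nsmul, nsmul_one]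

theorem cyc5_eq_pow (b : Cyc 5) : ((1, b) : Cyc D × Cyc 5) =
    (1, Multiplicative.ofAdd (1 : ZMod 5)) ^ (Multiplicative.toAdd b).val := by
  rw [gen5_pow, ZMod.natCast_zmod_val]
  rfl

/-- `Phi5` for an abstract action. -/
theorem phi5_range {R : Type} [Ring R] (ρ : Cyc D × Cyc 5 →* R) :
    ∑ i ∈ Finset.range 5, (ρ (1, Multiplicative.ofAdd (1 : ZMod 5))) ^ i =
      ∑ i : ZMod 5, ρ (1, Multiplicative.ofAdd i) := by
  have h : ∀ i : ℕ, (ρ (1, Multiplicative.ofAdd (1 : ZMod 5))) ^ i =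
      ρ (1, Multiplicative.ofAdd (i : ZMod 5)) := fun i => by rw [← map_pow, gen5_pow]
  simp only [h]
  rw [Finset.sum_range (fun i : ℕ => ρ (1, Multiplicative.ofAdd (i : ZMod 5)))]
  change ∑ i : Fin 5, _ = ∑ i : Fin 5, _
  refine Finset.sum_congr rfl fun i _ => ?_
  congr 3
  exact ZMod.natCast_zmod_val (n := 5) i

/-- Equivariant lifting up to the multiplier `D`. -/
theorem lift_avg [NeZero D] [Module.Free ℤ P] [Module.Finite ℤ P]
    (ρM : Cyc D × Cyc 5 →* Module.End ℤ M) (ρN : Cyc D × Cyc 5 →* Module.End ℤ N)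
    (ρP : Cyc D × Cyc 5 →* Module.End ℤ P)
    (hM : ∑ i : ZMod 5, ρM (1, Multiplicative.ofAdd i) = 0)
    (hN : ∑ i : ZMod 5, ρN (1, Multiplicative.ofAdd i) = 0)
    (hP : ∑ i : ZMod 5, ρP (1, Multiplicative.ofAdd i) = 0)
    (f : M →ₗ[ℤ] N) (hf : ∀ a m, f (ρM a m) = ρN a (f m)) (hsurj : Function.Surjective f)
    (g : P →ₗ[ℤ] N) (hg : ∀ a m, g (ρP a m) = ρN a (g m)) :
    ∃ h : P →ₗ[ℤ] M, (∀ x, f (h x) = (D : ℤ) • g x) ∧ ∀ a x, h (ρP a x) = ρM a (h x) := by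
  obtain ⟨h0, hh0, hz⟩ := lift_O5 (ρM (1, Multiplicative.ofAdd (1 : ZMod 5)))
    (ρN (1, Multiplicative.ofAdd (1 : ZMod 5))) (ρP (1, Multiplicative.ofAdd (1 : ZMod 5)))
    (by rw [phi5_range, hM]) (by rw [phi5_range, hN]) (by rw [phi5_range, hP]) f
    (fun m => hf _ m) hsurj g (fun m => hg _ m)
  have hz' : ∀ (b : Cyc 5) (x : P), h0 (ρP (1, b) x) = ρM (1, b) (h0 x) := by
    intro b x
    rw [cyc5_eq_pow b]
    generalize (Multiplicative.toAdd b).val = n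
    induction n generalizing x with
    | zero => simp
    | succ n ih => rw [pow_succ, map_mul, map_mul, Module.End.mul_apply, Module.End.mul_apply,
        ih, hz]
  refine ⟨∑ c : Cyc D, (ρM (c⁻¹, 1)) ∘ₗ h0 ∘ₗ (ρP (c, 1)), fun x => ?_, ?_⟩
  · simp only [LinearMap.sum_apply, LinearMap.comp_apply, map_sum, hf, hh0, hg]
    have h1 : ∀ c : Cyc D, ρN (c⁻¹, 1) (ρN (c, 1) (g x)) = g x := fun c => by
      rw [← Module.End.mul_apply, ← map_mul, Prod.mk_mul_mk, inv_mul_cancel, one_mul]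
      change ρN 1 (g x) = _
      rw [map_one]; rfl
    simp only [h1, Finset.sum_const, Finset.card_univ]
    rw [Fintype.card_multiplicative, ZMod.card, natCast_zsmul]
  · rintro ⟨c', b⟩ x
    simp only [LinearMap.sum_apply, LinearMap.comp_apply, map_sum]
    rw [← Equiv.sum_comp (Equiv.mulRight c'⁻¹)]
    refine Finset.sum_congr rfl fun c _ => ?_
    simp only [Equiv.coe_mulRight]
    rw [← Module.End.mul_apply (ρP _), ← map_mul, Prod.mk_mul_mk, inv_mul_cancel_right, one_mul]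
    have h2 : ((c, b) : Cyc D × Cyc 5) = (1, b) * (c, 1) := by simp
    rw [h2, map_mul ρP, Module.End.mul_apply, hz', ← Module.End.mul_apply (ρM _),
      ← Module.End.mul_apply (ρM _), ← map_mul, ← map_mul]
    congr 2
    simp

end Avg

section Sect

variable {D : ℕ} {ι κ ν : Type} [Fintype ι] [DecidableEq ι] [Fintype κ] [DecidableEq κ]
  [Fintype ν] [DecidableEq ν]

/-- A matrix representation as an abstract action. -/
def repEnd (X : Cyc D × Cyc 5 →* Matrix ι ι ℤ) : Cyc D × Cyc 5 →* Module.End ℤ (ι → ℤ) :=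
  (Matrix.toLinAlgEquiv' : Matrix ι ι ℤ ≃ₐ[ℤ] Module.End ℤ (ι → ℤ)).toRingEquiv.toRingHom.toMonoidHom.comp X

theorem repEnd_apply (X : Cyc D × Cyc 5 →* Matrix ι ι ℤ) (a : Cyc D × Cyc 5) (v : ι → ℤ) :
    repEnd X a v = X a *ᵥ v := rfl

theorem repEnd_phi5 {X : Cyc D × Cyc 5 →* Matrix ι ι ℤ} (hX : Phi5 X) :
    ∑ i : ZMod 5, repEnd X (1, Multiplicative.ofAdd i) = 0 := by
  unfold Phi5 at hX
  have := congrArg (Matrix.toLinAlgEquiv' : Matrix ι ι ℤ ≃ₐ[ℤ] Module.End ℤ (ι → ℤ)) hX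
  rw [map_sum, map_zero] at this
  exact this

/-- Equivariant lifting for integral matrices, up to the multiplier `D`. -/
theorem lift_mat [NeZero D] (X : Cyc D × Cyc 5 →* Matrix ι ι ℤ)
    (Y : Cyc D × Cyc 5 →* Matrix κ κ ℤ) (Z : Cyc D × Cyc 5 →* Matrix ν ν ℤ)
    (hX : Phi5 X) (hY : Phi5 Y) (hZ : Phi5 Z)
    (f : Matrix κ ι ℤ) (hf : ∀ a, f * X a = Y a * f) (r : Matrix ι κ ℤ) (hr : f * r = 1)
    (g : Matrix κ ν ℤ) (hg : ∀ a, g * Z a = Y a * g) :
    ∃ h : Matrix ι ν ℤ, f * h = (D : ℤ) • g ∧ ∀ a, h * Z a = X a * h := by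
  obtain ⟨h, h1, h2⟩ := lift_avg (repEnd X) (repEnd Y) (repEnd Z) (repEnd_phi5 hX)
    (repEnd_phi5 hY) (repEnd_phi5 hZ) (Matrix.mulVecLin f)
    (fun a m => by
      simp only [repEnd_apply, Matrix.mulVecLin_apply, Matrix.mulVec_mulVec, hf])
    (fun y => ⟨r *ᵥ y, by rw [Matrix.mulVecLin_apply, Matrix.mulVec_mulVec, hr, one_mulVec]⟩)
    (Matrix.mulVecLin g)
    (fun a m => by
      simp only [repEnd_apply, Matrix.mulVecLin_apply, Matrix.mulVec_mulVec, hg])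
  refine ⟨LinearMap.toMatrix' h, ?_, fun a => ?_⟩
  · apply Matrix.toLin'.injective
    rw [Matrix.toLin'_mul, Matrix.toLin'_toMatrix', map_smul]
    exact LinearMap.ext h1
  · apply Matrix.toLin'.injective
    rw [Matrix.toLin'_mul, Matrix.toLin'_mul, Matrix.toLin'_toMatrix']
    exact LinearMap.ext fun x => h2 a x

/-- **Section lemma.** -/
theorem exists_section [NeZero D] (X : Cyc D × Cyc 5 →* Matrix ι ι ℤ)
    (Y : Cyc D × Cyc 5 →* Matrix κ κ ℤ) (hX : Phi5 X)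
    (f : Matrix κ ι ℤ) (hf : ∀ a, f * X a = Y a * f) (r : Matrix ι κ ℤ) (hr : f * r = 1)
    (n : ℕ) (hn : n.Coprime D) (s : Matrix ι κ ℤ) (hs : f * s = (n : ℤ) • (1 : Matrix κ κ ℤ))
    (hsY : ∀ a, s * Y a = X a * s) :
    ∃ t : Matrix ι κ ℤ, f * t = 1 ∧ ∀ a, t * Y a = X a * t := by
  have hY : Phi5 Y := by
    unfold Phi5 at hX ⊢
    have h1 : ∀ a, Y a = f * X a * r := fun a => by
      rw [hf, Matrix.mul_assoc, hr, Matrix.mul_one]
    simp only [h1]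
    rw [← Matrix.sum_mul, ← Matrix.mul_sum, hX, Matrix.mul_zero, Matrix.zero_mul]
  obtain ⟨h, hh, hha⟩ := lift_mat X Y Y hX hY hY f hf r hr 1 (fun a => by simp)
  have hb := Nat.gcd_eq_gcd_ab n D
  rw [hn] at hb
  refine ⟨(Nat.gcdA n D) • s + (Nat.gcdB n D) • h, ?_, fun a => ?_⟩
  · rw [Matrix.mul_add, Matrix.mul_smul, Matrix.mul_smul, hs, hh, smul_smul, smul_smul,
      ← add_smul]
    rw [show Nat.gcdA n D * (n : ℤ) + Nat.gcdB n D * (D : ℤ) = 1 by push_cast at hb; linarith,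
      one_smul]
  · rw [Matrix.add_mul, Matrix.mul_add, Matrix.smul_mul, Matrix.smul_mul, Matrix.mul_smul,
      Matrix.mul_smul, hsY, hha]

end Sect

end Vale.Agent.P268.Z
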