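import Vale.Agent.P268.Z.N.Core
import Vale.Agent.P268.Z.N.Sect
import Vale.Agent.P268.Z.N.Lat
import Vale.Agent.P268.Z.N.Cover

/-!
# P268, block N: assembly of the one step neighbour isometry
-/

namespace Vale.Agent.P268.Z

open Matrix

section Pure

variable {ν μ : Type} [Fintype ν] [DecidableEq ν] [Fintype μ] [DecidableEq μ]

/-- An injective integral matrix with pure image has an integral left inverse. -/
theorem NC.exists_left_inv (i : Matrix ν μ ℤ) (hinj : ∀ y, i *ᵥ y = 0 → y = 0)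
    (hpure : ∀ (k : ℤ) (w : ν → ℤ) (y : μ → ℤ), k ≠ 0 → k • w = i *ᵥ y → ∃ y', w = i *ᵥ y') :
    ∃ l : Matrix μ ν ℤ, l * i = 1 := by
  set f : (μ → ℤ) →ₗ[ℤ] (ν → ℤ) := Matrix.mulVecLin i with hf
  have hfinj : Function.Injective f := by
    rw [← LinearMap.ker_eq_bot, LinearMap.ker_eq_bot']
    exact hinj
  have htf : Module.IsTorsionFree ℤ ((ν → ℤ) ⧸ LinearMap.range f) := by
    rw [Module.isTorsionFree_iff_smul_eq_zero]
    intro k x hk
    obtain ⟨w, rfl⟩ := Submodule.Quotient.mk_surjective _ x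
    by_cases hk0 : k = 0
    · exact Or.inl hk0
    · right
      rw [← Submodule.Quotient.mk_smul, Submodule.Quotient.mk_eq_zero] at hk
      obtain ⟨y, hy⟩ := hk
      obtain ⟨y', hy'⟩ := hpure k w y hk0 hy.symm
      rw [Submodule.Quotient.mk_eq_zero]
      exact ⟨y', hy'.symm⟩
  obtain ⟨s, hs⟩ := Module.projective_lifting_property (LinearMap.range f).mkQ LinearMap.id
    (Submodule.mkQ_surjective _)
  have hmem : ∀ w, w - s ((LinearMap.range f).mkQ w) ∈ LinearMap.range f := by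
    intro w
    have h1 : w - s ((LinearMap.range f).mkQ w) ∈ LinearMap.ker (LinearMap.range f).mkQ := by
      rw [LinearMap.mem_ker, map_sub, sub_eq_zero]
      exact (LinearMap.congr_fun hs _).symm
    rwa [Submodule.ker_mkQ] at h1
  let e : (μ → ℤ) ≃ₗ[ℤ] LinearMap.range f := LinearEquiv.ofInjective f hfinj
  let g : (ν → ℤ) →ₗ[ℤ] LinearMap.range f :=
    (LinearMap.id - s.comp (LinearMap.range f).mkQ).codRestrict (LinearMap.range f) hmem
  let l : (ν → ℤ) →ₗ[ℤ] (μ → ℤ) := e.symm.toLinearMap.comp g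
  have hl : ∀ y, l (f y) = y := by
    intro y
    have h1 : g (f y) = e y := by
      apply Subtype.ext
      have h2 : (LinearMap.range f).mkQ (f y) = 0 := by
        rw [← LinearMap.mem_ker, Submodule.ker_mkQ]; exact ⟨y, rfl⟩
      change f y - s ((LinearMap.range f).mkQ (f y)) = f y
      rw [h2, map_zero, sub_zero]
    change e.symm (g (f y)) = y
    rw [h1, LinearEquiv.symm_apply_apply]
  refine ⟨LinearMap.toMatrix' l, ?_⟩
  have h3 : i = LinearMap.toMatrix' f := by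
    rw [hf, ← Matrix.toLin'_apply', LinearMap.toMatrix'_toLin']
  have h4 : l.comp f = LinearMap.id := LinearMap.ext hl
  rw [h3, ← LinearMap.toMatrix'_comp, h4, LinearMap.toMatrix'_id]

end Pure

section Assembly

variable {D : ℕ} [NeZero D] {e : ℤˣ} {ι κ : Type} [Fintype ι] [DecidableEq ι] [Fintype κ]
  [DecidableEq κ]

/-- The generator of `C_5`. -/
def z5 (D : ℕ) : Cyc D × Cyc 5 := (1, Multiplicative.ofAdd (1 : ZMod 5))

theorem z5_pow5 : (z5 D) ^ 5 = 1 := by
  rw [z5, gen5_pow]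
  rfl

theorem phi5_z5 {ν : Type} [Fintype ν] [DecidableEq ν] {ρ : Cyc D × Cyc 5 →* Matrix ν ν ℤ}
    (h : Phi5 ρ) : 1 + ρ (z5 D) + ρ (z5 D) ^ 2 + ρ (z5 D) ^ 3 + ρ (z5 D) ^ 4 = 0 := by
  have h1 := phi5_range ρ
  unfold Phi5 at h
  rw [h] at h1
  simpa [Finset.sum_range_succ, z5] using h1

theorem den_coprime_add {D : ℕ} {x y : ℚ} (hx : x.den.Coprime D) (hy : y.den.Coprime D) :
    (x + y).den.Coprime D :=
  Nat.Coprime.coprime_dvd_left (Rat.add_den_dvd x y) (Nat.Coprime.mul_left hx hy)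

theorem den_coprime_mul {D : ℕ} {x y : ℚ} (hx : x.den.Coprime D) (hy : y.den.Coprime D) :
    (x * y).den.Coprime D :=
  Nat.Coprime.coprime_dvd_left (Rat.mul_den_dvd x y) (Nat.Coprime.mul_left hx hy)

theorem den_coprime_sum {D : ℕ} {α : Type} (s : Finset α) (f : α → ℚ)
    (hf : ∀ x ∈ s, (f x).den.Coprime D) : (∑ x ∈ s, f x).den.Coprime D := by
  classical
  induction s using Finset.induction_on with
  | empty => simp
  | insert a s ha ih =>
    rw [Finset.sum_insert ha]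
    exact den_coprime_add (hf a (Finset.mem_insert_self a s))
      (ih fun x hx => hf x (Finset.mem_insert_of_mem hx))

/-- The isometry of theorem N, with the lattice `J` of finite index `n` prime to `D` in a free
module. -/
theorem N_iso (A : GForm ℤ (Cyc D × Cyc 5) e ι) (B : GForm ℤ (Cyc D × Cyc 5) e κ)
    (hA : Phi5 A.ρ) (hB : Phi5 B.ρ)
    (P : Matrix κ ι ℚ) (Q : Matrix ι κ ℚ) (hQP : Q * P = 1) (hPQ : P * Q = 1)
    (hg : Pᵀ * (B.map (Int.castRingHom ℚ)).g * P = (A.map (Int.castRingHom ℚ)).g)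
    (hρ : ∀ a, P * (A.map (Int.castRingHom ℚ)).ρ a = (B.map (Int.castRingHom ℚ)).ρ a * P)
    (hQ : ∀ i j, (Q i j).den.Coprime D) :
    ∃ (m n : ℕ) (j : Matrix (κ × LIdx D) (Fin m) ℤ) (c : Matrix (Fin m) (κ × LIdx D) ℤ)
      (σ : Cyc D × Cyc 5 →* Matrix (Fin m) (Fin m) ℤ),
      0 < n ∧ n.Coprime D ∧ j * c = (n : ℤ) • (1 : Matrix (κ × LIdx D) (κ × LIdx D) ℤ) ∧
      c * j = (n : ℤ) • (1 : Matrix (Fin m) (Fin m) ℤ) ∧
      (∀ a, j * σ a = repCopies κ (Lam D) a * j) ∧ (∀ a, c * repCopies κ (Lam D) a = σ a * c) ∧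
      GForm.Iso (A.add (GForm.hyp e (repCopies κ (Lam D)))) (B.add (GForm.hyp e σ)) := by
  obtain ⟨Xi, R, hR, hXi⟩ := exists_cover B.ρ hB
  have hρQ : ∀ a, Q * NC.q (B.ρ a) = NC.q (A.ρ a) * Q := by
    intro a
    have h1 : P * NC.q (A.ρ a) = NC.q (B.ρ a) * P := hρ a
    calc Q * NC.q (B.ρ a) = Q * NC.q (B.ρ a) * (P * Q) := by rw [hPQ, Matrix.mul_one]
      _ = Q * (NC.q (B.ρ a) * P) * Q := by simp only [Matrix.mul_assoc]
      _ = Q * P * NC.q (A.ρ a) * Q := by rw [← h1]; simp only [Matrix.mul_assoc]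
      _ = NC.q (A.ρ a) * Q := by rw [hQP, Matrix.one_mul]
  have hqe : ∀ a, Q * NC.q Xi * repMap (Int.castRingHom ℚ) (repCopies κ (Lam D)) a =
      repMap (Int.castRingHom ℚ) A.ρ a * (Q * NC.q Xi) := by
    intro a
    have h1 : repMap (Int.castRingHom ℚ) (repCopies κ (Lam D)) a =
      NC.q (repCopies κ (Lam D) a) := rfl
    have h2 : repMap (Int.castRingHom ℚ) A.ρ a = NC.q (A.ρ a) := rfl
    rw [h1, h2, Matrix.mul_assoc, ← NC.q_mul, hXi, NC.q_mul, ← Matrix.mul_assoc, hρQ,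
      Matrix.mul_assoc]
  have hden : ∀ i k, ((Q * NC.q Xi) i k).den.Coprime D := by
    intro i k
    rw [Matrix.mul_apply]
    refine den_coprime_sum _ _ fun l _ => den_coprime_mul (hQ i l) ?_
    simp [NC.q]
  obtain ⟨m, n, j, c, σ, U, hn, hnD, hjc, hcj, hjσ, hcσ, hUσ, hU, hmax⟩ :=
    exists_sublattice (repCopies κ (Lam D)) A.ρ (Q * NC.q Xi) hqe hden
  refine ⟨m, n, j, c, σ, hn, hnD, hjc, hcj, hjσ, hcσ, ?_⟩
  have hn0 : (n : ℤ) ≠ 0 := by exact_mod_cast hn.ne'
  have hF : Phi5 (repCopies κ (Lam D)) := Phi5.copies κ phi5_Lam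
  have hσ : Phi5 σ := by
    unfold Phi5 at hF ⊢
    have h1 : (n : ℤ) • ∑ i : ZMod 5, σ (1, Multiplicative.ofAdd i) = 0 := by
      calc (n : ℤ) • ∑ i : ZMod 5, σ (1, Multiplicative.ofAdd i)
          = c * j * ∑ i : ZMod 5, σ (1, Multiplicative.ofAdd i) := by
            rw [hcj, Matrix.smul_mul, Matrix.one_mul]
        _ = c * ∑ i : ZMod 5, j * σ (1, Multiplicative.ofAdd i) := by
            rw [Matrix.mul_assoc, Matrix.mul_sum]
        _ = 0 := by
            simp only [hjσ]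
            rw [← Matrix.sum_mul, hF, Matrix.zero_mul, Matrix.mul_zero]
    exact (smul_eq_zero.mp h1).resolve_left hn0
  let S : NData A B (repCopies κ (Lam D)) σ :=
    { z := z5 D
      hz := z5_pow5
      hB := phi5_z5 hB
      hσ := phi5_z5 hσ
      P := P
      Q := Q
      hQP := hQP
      hPQ := hPQ
      hg := hg
      hρ := hρ
      Xi := Xi
      R := R
      hR := hR
      hXi := hXi
      j := j
      c := c
      n := n
      hn := hn0
      hjc := hjc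
      hcj := hcj
      hj := hjσ
      U := U
      hU := hU }
  -- purity of the image of `i`
  have hjinj : ∀ y, j *ᵥ y = 0 → y = 0 := by
    intro y hy
    have h1 : (n : ℤ) • y = 0 := by
      calc (n : ℤ) • y = (c * j) *ᵥ y := by rw [hcj, Matrix.smul_mulVec, Matrix.one_mulVec]
        _ = 0 := by rw [← Matrix.mulVec_mulVec, hy, Matrix.mulVec_zero]
    exact (smul_eq_zero.mp h1).resolve_left hn0
  have hi1 : ∀ (y : Fin m → ℤ) (x : ι), (S.i *ᵥ y) (Sum.inl x) = (U *ᵥ y) x := fun _ _ => rfl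
  have hi2 : ∀ (y : Fin m → ℤ) (x : κ × LIdx D),
      (S.i *ᵥ y) (Sum.inr (Sum.inl x)) = (j *ᵥ y) x := fun _ _ => rfl
  have hinj : ∀ y, S.i *ᵥ y = 0 → y = 0 := by
    intro y hy
    apply hjinj
    ext x
    rw [← hi2, hy]
    rfl
  have hpure : ∀ (k : ℤ) (w : (ι ⊕ ((κ × LIdx D) ⊕ (κ × LIdx D))) → ℤ) (y : Fin m → ℤ), k ≠ 0 →
      k • w = S.i *ᵥ y → ∃ y', w = S.i *ᵥ y' := by
    intro k w y hk hw
    have h1 : ∀ x, k * w (Sum.inl x) = (U *ᵥ y) x := fun x => by
      rw [← hi1, ← hw]; rfl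
    have h2 : ∀ x, k * w (Sum.inr (Sum.inl x)) = (j *ᵥ y) x := fun x => by
      rw [← hi2, ← hw]; rfl
    obtain ⟨v, hv⟩ := hmax (fun x => w (Sum.inr (Sum.inl x))) (fun x => w (Sum.inl x)) (by
      have hk' : (k : ℚ) ≠ 0 := by exact_mod_cast hk
      have h3 : (fun x => (((U *ᵥ y) x : ℤ) : ℚ)) =
          (Q * NC.q Xi) *ᵥ (fun x => (((j *ᵥ y) x : ℤ) : ℚ)) := by
        have h4 : ∀ {α : Type} (M : Matrix α (Fin m) ℤ), (fun x => (((M *ᵥ y) x : ℤ) : ℚ)) =
            M.map (Int.cast : ℤ → ℚ) *ᵥ (fun x => (y x : ℚ)) := by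
          intro α M
          ext x
          simp [Matrix.mulVec, dotProduct]
        rw [h4, h4, hU, Matrix.mulVec_mulVec]
      have h5 : (k : ℚ) • (fun x => ((w (Sum.inl x) : ℤ) : ℚ)) =
          (k : ℚ) • ((Q * NC.q Xi) *ᵥ (fun x => ((w (Sum.inr (Sum.inl x)) : ℤ) : ℚ))) := by
        rw [← Matrix.mulVec_smul]
        have h6 : (k : ℚ) • (fun x => ((w (Sum.inl x) : ℤ) : ℚ)) =
            fun x => (((U *ᵥ y) x : ℤ) : ℚ) := by
          ext x
          rw [← h1 x, Int.cast_mul]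
          rfl
        have h7 : (k : ℚ) • (fun x => ((w (Sum.inr (Sum.inl x)) : ℤ) : ℚ)) =
            fun x => (((j *ᵥ y) x : ℤ) : ℚ) := by
          ext x
          rw [← h2 x, Int.cast_mul]
          rfl
        rw [h6, h7, h3]
      exact smul_right_injective _ hk' h5)
    have h8 : y = k • v := by
      have h9 : j *ᵥ (y - k • v) = 0 := by
        rw [Matrix.mulVec_sub, Matrix.mulVec_smul, ← hv, sub_eq_zero]
        ext x
        rw [← h2 x]
        rfl
      exact sub_eq_zero.mp (hjinj _ h9)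
    refine ⟨v, ?_⟩
    have h10 : k • w = k • (S.i *ᵥ v) := by
      rw [hw, h8, Matrix.mulVec_smul]
    exact smul_right_injective _ hk h10
  obtain ⟨l, hl⟩ := NC.exists_left_inv S.i hinj hpure
  have hgg : (A.add (GForm.hyp e (repCopies κ (Lam D)))).g *
      (A.add (GForm.hyp e (repCopies κ (Lam D)))).g⁻¹ = 1 :=
    Matrix.mul_nonsing_inv _ (A.add (GForm.hyp e (repCopies κ (Lam D)))).unimod
  obtain ⟨s, hs1, hs2⟩ := exists_section (A.add (GForm.hyp e (repCopies κ (Lam D)))).ρ (repDual σ)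
    (Phi5.add hA (Phi5.hyp hF)) (S.iᵀ * (A.add (GForm.hyp e (repCopies κ (Lam D)))).g)
    (fun a => S.iT_equiv a)
    ((A.add (GForm.hyp e (repCopies κ (Lam D)))).g⁻¹ * lᵀ)
    (by
      rw [Matrix.mul_assoc, ← Matrix.mul_assoc _ _ lᵀ, hgg, Matrix.one_mul, ← transpose_mul, hl,
        transpose_one])
    n hnD S.sn S.i_sn (fun a => (S.sn_equiv a).symm)
  exact S.iso s hs1 fun a => (hs2 a).symm

end Assembly

end Vale.Agent.P268.Z
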