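import Vale.Agent.P268.Z.N.Proj

/-!
# P268, block N: maximal ideals `𝔪` of `Λ = O[C]` of residue characteristic prime to `|C|`:
`𝔪 ⊕ 𝔪* ≅ Λ²`
-/

namespace Vale.Agent.P268.Z

open Module

section

variable {O : Type} [CommRing O] [IsDomain O] [IsPrincipalIdealRing O] {C : Type} [CommGroup C]
  [Fintype C]

theorem max_dual (m : Ideal (MonoidAlgebra O C)) (hm : m.IsPrime) (p : ℕ) (hp : p.Prime)
    (hpC : ¬ p ∣ Fintype.card C) (hpm : (p : (MonoidAlgebra O C)) ∈ m) (hpO : (p : O) ≠ 0) :
    Nonempty ((m × Module.Dual (MonoidAlgebra O C) m) ≃ₗ[MonoidAlgebra O C] ((MonoidAlgebra O C) × (MonoidAlgebra O C))) := by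
  classical
  let q : Ideal O := m.comap (algebraMap O (MonoidAlgebra O C))
  have hqp : q.IsPrime := Ideal.comap_isPrime _ _
  have hpq : (p : O) ∈ q := by
    rw [Ideal.mem_comap, map_natCast]
    exact hpm
  have hq0 : q ≠ ⊥ := by
    intro h
    rw [h, Ideal.mem_bot] at hpq
    exact hpO hpq
  have hqm : q.IsMaximal := hqp.isMaximal hq0
  obtain ⟨w, hw⟩ : ∃ w, q = Ideal.span {w} := IsPrincipalIdealRing.principal q |>.principal
  have hw0 : w ≠ 0 := by
    rintro rfl
    apply hq0
    rw [hw, Ideal.span_singleton_eq_bot]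
  let k := O ⧸ q
  let _ : Field k := Ideal.Quotient.field q
  let r : (MonoidAlgebra O C) →+* MonoidAlgebra k C := MonoidAlgebra.mapRingHom C (Ideal.Quotient.mk q)
  have hrapp : ∀ (x : (MonoidAlgebra O C)) (c : C), (r x).coeff c = Ideal.Quotient.mk q (x.coeff c) :=
    fun x c => MonoidAlgebra.coeff_mapRingHom _ x c
  have hr : Function.Surjective r := by
    intro y
    choose s hs using (Ideal.Quotient.mk_surjective (I := q))
    refine ⟨MonoidAlgebra.ofCoeff (Finsupp.equivFunOnFinite.symm fun c => s (y.coeff c)), ?_⟩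
    ext c
    rw [hrapp]
    simp [hs]
  let W : (MonoidAlgebra O C) := algebraMap O (MonoidAlgebra O C) w
  have hW : ∀ x : (MonoidAlgebra O C), W * x = w • x := fun x => (Algebra.smul_def w x).symm
  have hWapp : ∀ (x : (MonoidAlgebra O C)) (c : C), (W * x).coeff c = w * x.coeff c := by
    intro x c
    rw [hW, MonoidAlgebra.coeff_smul_apply, smul_eq_mul]
  have hWinj : ∀ x y : (MonoidAlgebra O C), W * x = W * y → x = y := by
    intro x y h
    ext c
    have := congrArg (fun z => z.coeff c) h
    simp only [hWapp] at this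
    exact mul_left_cancel₀ hw0 this
  have hker : ∀ x : (MonoidAlgebra O C), r x = 0 → ∃ y, W * y = x := by
    intro x hx
    have h1 : ∀ c, ∃ y, x.coeff c = w * y := by
      intro c
      have := hrapp x c
      rw [hx, MonoidAlgebra.coeff_zero, Finsupp.zero_apply] at this
      have h2 := Ideal.Quotient.eq_zero_iff_mem.mp this.symm
      rw [hw, Ideal.mem_span_singleton] at h2
      exact h2
    choose y hy using h1
    refine ⟨MonoidAlgebra.ofCoeff (Finsupp.equivFunOnFinite.symm y), ?_⟩
    ext c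
    rw [hWapp]
    simp [hy]
  have hWm : W ∈ m := by
    have : w ∈ q := by rw [hw]; exact Ideal.mem_span_singleton_self w
    exact this
  have hrW : ∀ x, r (W * x) = 0 := by
    intro x
    ext c
    rw [hrapp, hWapp, map_mul]
    have : Ideal.Quotient.mk q w = 0 := by
      rw [Ideal.Quotient.eq_zero_iff_mem, hw]; exact Ideal.mem_span_singleton_self w
    rw [this, zero_mul]
    rfl
  have hk0 : ((Nat.card C : ℕ) : k) ≠ 0 := by
    intro h
    have h1 : ((p : ℕ) : k) = 0 := by
      rw [← map_natCast (Ideal.Quotient.mk q), Ideal.Quotient.eq_zero_iff_mem]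
      exact hpq
    rw [Nat.card_eq_fintype_card] at h
    have hcop : Nat.Coprime p (Fintype.card C) := (Nat.Prime.coprime_iff_not_dvd hp).mpr hpC
    obtain ⟨a, b, hab⟩ := Nat.isCoprime_iff_coprime.mpr hcop
    have := congrArg (Int.cast : ℤ → k) hab
    push_cast at this
    rw [h1, h] at this
    simp at this
  have : NeZero ((Nat.card C : ℕ) : k) := ⟨hk0⟩
  obtain ⟨J', hJ'⟩ := MonoidAlgebra.Submodule.exists_isCompl (k := k) (G := C)
    (V := MonoidAlgebra k C) (m.map r)
  have h1 : (1 : MonoidAlgebra k C) ∈ (m.map r) ⊔ J' := by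
    rw [hJ'.sup_eq_top]; trivial
  obtain ⟨f, hf, e0, he0, hfe⟩ := Submodule.mem_sup.mp h1
  obtain ⟨g, hg, rfl⟩ := (Ideal.mem_map_iff_of_surjective r hr).mp hf
  obtain ⟨e, rfl⟩ := hr e0
  have ha1 : 1 - e ∈ m := by
    have h2 : r (1 - e - g) = 0 := by
      rw [map_sub, map_sub, map_one, ← hfe]
      ring
    obtain ⟨y, hy⟩ := hker _ h2
    have : 1 - e = W * y + g := by rw [hy]; ring
    rw [this]
    exact m.add_mem (m.mul_mem_right _ hWm) hg
  have hb : ∀ x : m, ∃ y : (MonoidAlgebra O C), W * y = e * x := by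
    intro x
    apply hker
    have h3 : r (e * x) ∈ m.map r := by
      rw [map_mul]
      exact Ideal.mul_mem_left _ _ (Ideal.mem_map_of_mem r x.2)
    have h4 : r (e * x) ∈ J' := by
      rw [map_mul, mul_comm]
      exact J'.smul_mem (r x) he0
    have h5 : r (e * x) ∈ (m.map r) ⊓ J' := ⟨h3, h4⟩
    rw [hJ'.inf_eq_bot] at h5
    exact h5
  choose b hb using hb
  let B : m →ₗ[MonoidAlgebra O C] (MonoidAlgebra O C) :=
    { toFun := b
      map_add' := by
        intro x y
        apply hWinj
        rw [mul_add, hb, hb, hb, Submodule.coe_add, mul_add]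
      map_smul' := by
        intro c x
        apply hWinj
        rw [hb, RingHom.id_apply, smul_eq_mul, mul_left_comm, hb, Submodule.coe_smul, smul_eq_mul]
        ring }
  refine ideal_dual m ⟨1 - e, ha1⟩ ⟨W, hWm⟩ B ?_ ?_
  · have : B ⟨W, hWm⟩ = e := by
      apply hWinj
      change W * b _ = _
      rw [hb, mul_comm]
    rw [this]
    ring
  · intro x
    change (1 - e) * (x : (MonoidAlgebra O C)) + b x * W = x
    linear_combination hb x

end

end Vale.Agent.P268.Z
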