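import Vale.Agent.P268.Z.N.Final
import Vale.Agent.P268.Z.N.Good

/-!
# P268, block N: the neighbour theorem
-/

namespace Vale.Agent.P268.Z

open Matrix

section

variable {D : ℕ} [NeZero D] {e : ℤˣ} {ι κ : Type} [Fintype ι] [DecidableEq ι] [Fintype κ]
  [DecidableEq κ]

/-- Theorem N, with the clauses packed in `Good`, without the hypotheses `5 ∤ D` and on the
denominators of `P`. -/
theorem N_good (A : GForm ℤ (Cyc D × Cyc 5) e ι) (B : GForm ℤ (Cyc D × Cyc 5) e κ)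
    (hA : Phi5 A.ρ) (hB : Phi5 B.ρ)
    (P : Matrix κ ι ℚ) (Q : Matrix ι κ ℚ) (hQP : Q * P = 1) (hPQ : P * Q = 1)
    (hg : Pᵀ * (B.map (Int.castRingHom ℚ)).g * P = (A.map (Int.castRingHom ℚ)).g)
    (hρ : ∀ a, P * (A.map (Int.castRingHom ℚ)).ρ a = (B.map (Int.castRingHom ℚ)).ρ a * P)
    (hQ : ∀ i j, (Q i j).den.Coprime D) :
    ∃ (n r : ℕ) (σ : Cyc D × Cyc 5 →* Matrix (Fin n) (Fin n) ℤ),
      GForm.Iso (A.add (GForm.hyp e (repCopies (Fin r) (Lam D)))) (B.add (GForm.hyp e σ)) ∧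
      Good σ :=
  N_of_good (κ := κ) (fun σ => Good σ) (fun _ _ h hσ => Good.of_iso h hσ)
    (fun j c σ n hn hn0 hjc hcj hj => Good_of_index σ j c n hn hn0 hjc hcj hj)
    A B hA hB P Q hQP hPQ hg hρ hQ

theorem N (hD5 : ¬ 5 ∣ D)
    (A : GForm ℤ (Cyc D × Cyc 5) e ι) (B : GForm ℤ (Cyc D × Cyc 5) e κ)
    (hA : Phi5 A.ρ) (hB : Phi5 B.ρ)
    (P : Matrix κ ι ℚ) (Q : Matrix ι κ ℚ) (hQP : Q * P = 1) (hPQ : P * Q = 1)
    (hg : Pᵀ * (B.map (Int.castRingHom ℚ)).g * P = (A.map (Int.castRingHom ℚ)).g)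
    (hρ : ∀ a, P * (A.map (Int.castRingHom ℚ)).ρ a = (B.map (Int.castRingHom ℚ)).ρ a * P)
    (hP : ∀ i j, (P i j).den.Coprime D) (hQ : ∀ i j, (Q i j).den.Coprime D) :
    ∃ (n r : ℕ) (σ : Cyc D × Cyc 5 →* Matrix (Fin n) (Fin n) ℤ),
      GForm.Iso (A.add (GForm.hyp e (repCopies (Fin r) (Lam D)))) (B.add (GForm.hyp e σ)) ∧
      (∃ a : ℕ, RepIso (repSum σ (repSharp σ)) (repCopies (Fin a) (Lam D))) ∧
      (∀ (α β : Type) [Fintype α] [DecidableEq α] [Fintype β] [DecidableEq β]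
        (X : Cyc D →* Matrix α α ℤ) (Y : Cyc D →* Matrix β β ℤ),
        (∀ a, (X a).trace = (Y a).trace) → ∃ a : ℕ, RepIso
          (repSum (repTensor (X.comp (MonoidHom.fst _ _)) σ) (repCopies (Fin a) (Lam D)))
          (repSum (repTensor (Y.comp (MonoidHom.fst _ _)) σ) (repCopies (Fin a) (Lam D)))) :=
  N_good A B hA hB P Q hQP hPQ hg hρ hQ

end

end Vale.Agent.P268.Z
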