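import Mathlib

/-!
# P268, block N: lifting `ℤ[ζ₅]`-linear maps out of lattices (`ℤ[ζ₅]` is a PID)
-/

namespace Vale.Agent.P268.Z

open Polynomial NumberField

/-- the field `ℚ(ζ₅)` -/
abbrev K5 : Type := CyclotomicField 5 ℚ

instance neZero_five_rat : NeZero ((5 : ℕ) : ℚ) := ⟨by norm_num⟩

instance cyc_K5 : IsCyclotomicExtension {5} ℚ K5 := CyclotomicField.isCyclotomicExtension 5 ℚ

/-- the ring `ℤ[ζ₅]` -/
abbrev O5 : Type := 𝓞 K5

instance pid_O5 : IsPrincipalIdealRing O5 := IsCyclotomicExtension.Rat.five_pid K5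

theorem zeta5_spec : IsPrimitiveRoot (IsCyclotomicExtension.zeta 5 ℚ K5) 5 :=
  IsCyclotomicExtension.zeta_spec 5 ℚ K5

/-- the power basis of `ℤ[ζ₅]` -/
noncomputable def pb5 : PowerBasis ℤ O5 := zeta5_spec.integralPowerBasis

theorem minpoly_pb5 : minpoly ℤ pb5.gen = ∑ i ∈ Finset.range 5, (X : ℤ[X]) ^ i := by
  have : Fact (Nat.Prime 5) := ⟨Nat.prime_five⟩
  rw [← cyclotomic_prime ℤ 5, cyclotomic_eq_minpoly zeta5_spec (by norm_num),
    ← minpoly.algebraMap_eq (B' := K5) (FaithfulSMul.algebraMap_injective O5 K5)]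
  congr 1
  rw [pb5, IsPrimitiveRoot.integralPowerBasis_gen]
  rfl

section

variable {M N P : Type} [AddCommGroup M] [AddCommGroup N] [AddCommGroup P]

/-- The ring hom `ℤ[ζ₅] → End M` given by an operator `z` with `1 + z + z² + z³ + z⁴ = 0`. -/
noncomputable def act5 (z : Module.End ℤ M) (hz : ∑ i ∈ Finset.range 5, z ^ i = 0) :
    O5 →ₐ[ℤ] Module.End ℤ M :=
  pb5.lift z (by rw [minpoly_pb5]; simpa using hz)

theorem act5_gen (z : Module.End ℤ M) (hz : ∑ i ∈ Finset.range 5, z ^ i = 0) :
    act5 z hz pb5.gen = z := PowerBasis.lift_gen _ _ _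

/-- Every element of `ℤ[ζ₅]` is a polynomial in the generator. -/
theorem exists_poly5 (a : O5) : ∃ f : ℤ[X], a = aeval pb5.gen f := by
  obtain ⟨f, _, hf⟩ := pb5.exists_eq_aeval a
  exact ⟨f, hf⟩

theorem act5_comm (zM : Module.End ℤ M) (zN : Module.End ℤ N)
    (hM : ∑ i ∈ Finset.range 5, zM ^ i = 0) (hN : ∑ i ∈ Finset.range 5, zN ^ i = 0)
    (f : M →ₗ[ℤ] N) (hf : ∀ m, f (zM m) = zN (f m)) (a : O5) (m : M) :
    f (act5 zM hM a m) = act5 zN hN a (f m) := by
  obtain ⟨p, rfl⟩ := exists_poly5 a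
  rw [act5, act5, PowerBasis.lift_aeval, PowerBasis.lift_aeval]
  induction p using Polynomial.induction_on' generalizing m with
  | add p q hp hq => simp only [map_add, LinearMap.add_apply, hp, hq]
  | monomial n c =>
    simp only [aeval_monomial, Module.algebraMap_end_eq_smul_id, LinearMap.smul_apply,
      Module.End.mul_apply, LinearMap.id_apply, map_smul]
    congr 1
    induction n generalizing m with
    | zero => simp
    | succ n ih => simp only [pow_succ, Module.End.mul_apply, ih, hf]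

/-- `ℤ[ζ₅]`-linear lifting out of a lattice. -/
theorem lift_O5 [Module.Free ℤ P] [Module.Finite ℤ P] (zM : Module.End ℤ M)
    (zN : Module.End ℤ N) (zP : Module.End ℤ P)
    (hM : ∑ i ∈ Finset.range 5, zM ^ i = 0) (hN : ∑ i ∈ Finset.range 5, zN ^ i = 0)
    (hP : ∑ i ∈ Finset.range 5, zP ^ i = 0)
    (f : M →ₗ[ℤ] N) (hf : ∀ m, f (zM m) = zN (f m)) (hsurj : Function.Surjective f)
    (g : P →ₗ[ℤ] N) (hg : ∀ m, g (zP m) = zN (g m)) :
    ∃ h : P →ₗ[ℤ] M, (∀ x, f (h x) = g x) ∧ ∀ x, h (zP x) = zM (h x) := by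
  let _iM : Module O5 M := Module.compHom M (act5 zM hM).toRingHom
  let _iN : Module O5 N := Module.compHom N (act5 zN hN).toRingHom
  let _iP : Module O5 P := Module.compHom P (act5 zP hP).toRingHom
  have sM : ∀ (a : O5) (m : M), a • m = act5 zM hM a m := fun _ _ => rfl
  have sN : ∀ (a : O5) (m : N), a • m = act5 zN hN a m := fun _ _ => rfl
  have sP : ∀ (a : O5) (m : P), a • m = act5 zP hP a m := fun _ _ => rfl
  have : IsScalarTower ℤ O5 P := ⟨fun n a m => by rw [sP, sP, map_zsmul]; rfl⟩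
  have : Module.Finite O5 P := Module.Finite.of_restrictScalars_finite ℤ O5 P
  have : Module.IsTorsionFree O5 P := by
    refine Module.isTorsionFree_iff_smul_eq_zero.mpr ?_
    intro a m ham
    by_contra hcon
    push Not at hcon
    obtain ⟨ha, hm⟩ := hcon
    have h1 := Ideal.absNorm_mem (Ideal.span {a})
    rw [Ideal.mem_span_singleton] at h1
    obtain ⟨b, hb⟩ := h1
    have h2 : ((Ideal.absNorm (Ideal.span {a}) : ℕ) : ℤ) • m = 0 := by
      have h3 : (((Ideal.absNorm (Ideal.span {a}) : ℕ) : O5)) • m = 0 := by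
        rw [hb, mul_comm, mul_smul, ham, smul_zero]
      rw [sP, map_natCast] at h3
      rw [natCast_zsmul]
      simpa using h3
    rcases smul_eq_zero.mp h2 with h | h
    · have : Ideal.absNorm (Ideal.span {a}) = 0 := by exact_mod_cast h
      rw [Ideal.absNorm_eq_zero_iff, Ideal.span_singleton_eq_bot] at this
      exact ha this
    · exact hm h
  have : Module.Free O5 P := Module.free_of_finite_type_torsion_free'
  let f' : M →ₗ[O5] N :=
    { toFun := f
      map_add' := map_add f
      map_smul' := fun a m => by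
        simp only [RingHom.id_apply, sM, sN]; exact act5_comm zM zN hM hN f hf a m }
  let g' : P →ₗ[O5] N :=
    { toFun := g
      map_add' := map_add g
      map_smul' := fun a m => by
        simp only [RingHom.id_apply, sP, sN]; exact act5_comm zP zN hP hN g hg a m }
  obtain ⟨h, hh⟩ := Module.projective_lifting_property f' g' hsurj
  refine ⟨h.toAddMonoidHom.toIntLinearMap, fun x => ?_, fun x => ?_⟩
  · exact LinearMap.congr_fun hh x
  · have h1 : zP x = pb5.gen • x := by rw [sP, act5_gen]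
    have h2 : ∀ y, zM y = pb5.gen • y := fun y => by rw [sM, act5_gen]
    change h (zP x) = zM (h x)
    rw [h1, map_smul, h2]

end

end Vale.Agent.P268.Z
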