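import Vale.Agent.P268.Z.N.Sch

/-!
# P268, block N: sublattices of `Λ^ν` of index prime to `|C|` are projective, `Λ = O[C]`
-/

namespace Vale.Agent.P268.Z

open Module

section

variable {O : Type} [CommRing O] [IsDomain O] [IsPrincipalIdealRing O] {C : Type} [CommGroup C]
  [Fintype C] {ν : Type} [Fintype ν]

omit [IsDomain O] [IsPrincipalIdealRing O] in
theorem sumConj_section {J : Type} [AddCommGroup J] [Module O J] [Module (MonoidAlgebra O C) J]
    [IsScalarTower O (MonoidAlgebra O C) J] {P : Type} [AddCommGroup P] [Module O P] [Module (MonoidAlgebra O C) P]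
    [IsScalarTower O (MonoidAlgebra O C) P] (π : P →ₗ[MonoidAlgebra O C] J) (s : J →ₗ[O] P) (hs : ∀ x, π (s x) = x) (x : J) :
    π (s.sumOfConjugatesEquivariant C x) = (Fintype.card C) • x := by
  rw [LinearMap.sumOfConjugatesEquivariant_apply, map_sum]
  have : ∀ g : C, π (s.conjugate g x) = x := by
    intro g
    rw [LinearMap.conjugate_apply, map_smul, hs, ← mul_smul, MonoidAlgebra.single_mul_single,
      mul_one, inv_mul_cancel, ← MonoidAlgebra.one_def, one_smul]
  rw [Finset.sum_congr rfl fun g _ => this g, Finset.sum_const, Finset.card_univ]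

theorem free_sub (J : Submodule (MonoidAlgebra O C) (ν → (MonoidAlgebra O C))) : Module.Free O J := by
  have h1 : Module.Free O (J.restrictScalars O) := inferInstance
  exact h1

/-- A sublattice of `Λ^ν` of index prime to `|C|` is projective. -/
theorem proj_sub (J : Submodule (MonoidAlgebra O C) (ν → (MonoidAlgebra O C))) (n : ℕ) (hn : n.Coprime (Fintype.card C))
    (hJ : ∀ x : ν → (MonoidAlgebra O C), (n : (MonoidAlgebra O C)) • x ∈ J) : Module.Projective (MonoidAlgebra O C) J := by
  classical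
  have hfree := free_sub J
  let π : (J →₀ (MonoidAlgebra O C)) →ₗ[MonoidAlgebra O C] J := Finsupp.linearCombination (MonoidAlgebra O C) id
  have hπ : Function.Surjective π := fun x => ⟨Finsupp.single x 1, by simp [π]⟩
  obtain ⟨s0, hs0⟩ := Module.projective_lifting_property (π.restrictScalars O) LinearMap.id hπ
  have hs0' : ∀ x, π (s0 x) = x := fun x => LinearMap.congr_fun hs0 x
  let s2 : J →ₗ[MonoidAlgebra O C] (J →₀ (MonoidAlgebra O C)) := s0.sumOfConjugatesEquivariant C
  have hs2 : ∀ x, π (s2 x) = (Fintype.card C) • x := sumConj_section π s0 hs0'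
  let s1 : J →ₗ[MonoidAlgebra O C] (J →₀ (MonoidAlgebra O C)) :=
    ∑ k : ν, (Finsupp.lsingle ⟨(n : (MonoidAlgebra O C)) • Pi.single k 1, hJ _⟩ : (MonoidAlgebra O C) →ₗ[MonoidAlgebra O C] (J →₀ (MonoidAlgebra O C))) ∘ₗ
      (LinearMap.proj k) ∘ₗ J.subtype
  have hs1 : ∀ x, π (s1 x) = n • x := by
    intro x
    have h1 : π (s1 x) = ∑ k : ν, (x : ν → (MonoidAlgebra O C)) k • (⟨(n : (MonoidAlgebra O C)) • Pi.single k 1, hJ _⟩ : J) := by
      simp only [s1, LinearMap.sum_apply, map_sum]
      refine Finset.sum_congr rfl fun k _ => ?_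
      simp [π]
    rw [h1]
    ext k
    rw [Submodule.coe_sum, Finset.sum_apply, Finset.sum_eq_single k]
    · simp [mul_comm]
    · intro l _ hl
      simp [Pi.single_apply, hl.symm]
    · simp
  obtain ⟨a, b, hab⟩ : ∃ a b : ℤ, a * n + b * (Fintype.card C) = 1 := by
    exact (Nat.isCoprime_iff_coprime.mpr hn)
  refine Module.projective_def'.mpr ⟨a • s1 + b • s2, ?_⟩
  apply LinearMap.ext
  intro x
  change π ((a • s1 + b • s2) x) = x
  rw [LinearMap.add_apply, LinearMap.smul_apply, LinearMap.smul_apply, map_add, map_zsmul,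
    map_zsmul, hs1, hs2, ← natCast_zsmul, ← natCast_zsmul, smul_smul, smul_smul, ← add_smul, hab,
    one_smul]

end

end Vale.Agent.P268.Z
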