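import Vale.Agent.P268.Z.N.MaxId

/-!
# P268, block N: for a sublattice `J ⊆ Λ^ν` of index prime to `|C|`, `J ⊕ J*` is stably free
-/

namespace Vale.Agent.P268.Z

open Module

section Abstract

variable {R : Type} [CommRing R]

/-- `M ⊕ M*` is stably free. -/
def StF (R : Type) [CommRing R] (M : Type) [AddCommGroup M] [Module R M] : Prop :=
  ∃ b : ℕ, Module.Free R ((M × Dual R M) × (Fin b → R)) ∧
    Module.Finite R ((M × Dual R M) × (Fin b → R))

theorem StF.of_equiv {M N : Type} [AddCommGroup M] [Module R M] [AddCommGroup N] [Module R N]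
    (e : M ≃ₗ[R] N) (h : StF R M) : StF R N := by
  obtain ⟨b, h1, h2⟩ := h
  let E : ((M × Dual R M) × (Fin b → R)) ≃ₗ[R] ((N × Dual R N) × (Fin b → R)) :=
    (e.prodCongr e.symm.dualMap).prodCongr (LinearEquiv.refl R _)
  exact ⟨b, Module.Free.of_equiv E, Module.Finite.equiv E⟩

theorem StF.free (ν : Type) [Finite ν] : StF R (ν → R) :=
  ⟨0, inferInstance, inferInstance⟩

/-- The dual of a product. -/
def dualProd (M N : Type) [AddCommGroup M] [Module R M] [AddCommGroup N] [Module R N] :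
    (Dual R M × Dual R N) ≃ₗ[R] Dual R (M × N) :=
  LinearMap.coprodEquiv R

theorem StF.step {J J' m : Type} [AddCommGroup J] [Module R J] [AddCommGroup J'] [Module R J']
    [AddCommGroup m] [Module R m] (e1 : (J' × R) ≃ₗ[R] (J × m))
    (e2 : (m × Dual R m) ≃ₗ[R] (R × R)) (h : StF R J) : StF R J' := by
  obtain ⟨b, h1, h2⟩ := h
  let E1 : ((J' × Dual R J') × (R × R)) ≃ₗ[R] ((J × Dual R J) × (R × R)) :=
    LinearEquiv.prodProdProdComm R J' (Dual R J') R R ≪≫ₗ
    ((LinearEquiv.refl R (J' × R)).prodCongr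
      ((LinearEquiv.refl R (Dual R J')).prodCongr (LinearMap.ringLmapEquivSelf R R R).symm)) ≪≫ₗ
    ((LinearEquiv.refl R (J' × R)).prodCongr (dualProd J' R)) ≪≫ₗ
    (e1.prodCongr e1.symm.dualMap) ≪≫ₗ
    ((LinearEquiv.refl R (J × m)).prodCongr (dualProd J m).symm) ≪≫ₗ
    LinearEquiv.prodProdProdComm R J m (Dual R J) (Dual R m) ≪≫ₗ
    ((LinearEquiv.refl R (J × Dual R J)).prodCongr e2)
  let E0 : (Fin (b + 2) → R) ≃ₗ[R] ((R × R) × (Fin b → R)) :=
    (LinearEquiv.funCongrLeft R R (finSumFinEquiv (m := b) (n := 2))) ≪≫ₗ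
    (LinearEquiv.sumArrowLequivProdArrow (Fin b) (Fin 2) R R) ≪≫ₗ
    ((LinearEquiv.refl R (Fin b → R)).prodCongr (LinearEquiv.finTwoArrow R R)) ≪≫ₗ
    (LinearEquiv.prodComm R (Fin b → R) (R × R))
  let E2 : ((J' × Dual R J') × (Fin (b + 2) → R)) ≃ₗ[R]
      (((J × Dual R J) × (Fin b → R)) × (R × R)) :=
    ((LinearEquiv.refl R (J' × Dual R J')).prodCongr E0) ≪≫ₗ
    (LinearEquiv.prodAssoc R (J' × Dual R J') (R × R) (Fin b → R)).symm ≪≫ₗ
    (E1.prodCongr (LinearEquiv.refl R (Fin b → R))) ≪≫ₗ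
    (LinearEquiv.prodAssoc R (J × Dual R J) (R × R) (Fin b → R)) ≪≫ₗ
    ((LinearEquiv.refl R (J × Dual R J)).prodCongr
      (LinearEquiv.prodComm R (R × R) (Fin b → R))) ≪≫ₗ
    (LinearEquiv.prodAssoc R (J × Dual R J) (Fin b → R) (R × R)).symm
  exact ⟨b + 2, Module.Free.of_equiv E2.symm, Module.Finite.equiv E2.symm⟩

end Abstract

section Dev

variable {O : Type} [CommRing O] [IsDomain O] [IsPrincipalIdealRing O] [CharZero O]
  [Module.Finite ℤ O] {C : Type} [CommGroup C] [Fintype C]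

omit [IsDomain O] [IsPrincipalIdealRing O] [CharZero O] [Module.Finite ℤ O] [Fintype C] in
theorem exists_prime_mem (m : Ideal (MonoidAlgebra O C)) (hm : m.IsPrime) : ∀ n : ℕ, 0 < n → (n : (MonoidAlgebra O C)) ∈ m →
    ∃ p : ℕ, p.Prime ∧ p ∣ n ∧ (p : (MonoidAlgebra O C)) ∈ m := by
  intro n
  induction n using Nat.strong_induction_on with
  | _ n ih =>
    intro hn hnm
    by_cases h1 : n = 1
    · subst h1
      exfalso
      apply hm.ne_top
      rw [Ideal.eq_top_iff_one]
      simpa using hnm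
    · obtain ⟨k, hk⟩ := Nat.minFac_dvd n
      have hp : (n.minFac).Prime := Nat.minFac_prime h1
      have hk0 : 0 < k := by
        rcases Nat.eq_zero_or_pos k with h | h
        · rw [h, mul_zero] at hk; omega
        · exact h
      have hkn : k < n := by
        conv_rhs => rw [hk]
        nlinarith [hp.two_le]
      rw [hk, Nat.cast_mul] at hnm
      rcases hm.mem_or_mem hnm with h | h
      · exact ⟨n.minFac, hp, Nat.minFac_dvd n, h⟩
      · obtain ⟨p, h1, h2, h3⟩ := ih k hkn hk0 h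
        exact ⟨p, h1, h2.trans ⟨n.minFac, by rw [mul_comm]; exact hk⟩, h3⟩

theorem stF_of_index {ν : Type} [Fintype ν] (n : ℕ) (hn : n.Coprime (Fintype.card C))
    (hn0 : 0 < n) (J : Submodule (MonoidAlgebra O C) (ν → (MonoidAlgebra O C))) (hJ : ∀ x : ν → (MonoidAlgebra O C), (n : (MonoidAlgebra O C)) • x ∈ J) : StF (MonoidAlgebra O C) J := by
  have hfin : Module.Finite O (ν → (MonoidAlgebra O C)) := inferInstance
  have hfinZ : Module.Finite ℤ (ν → (MonoidAlgebra O C)) := Module.Finite.trans O (ν → (MonoidAlgebra O C))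
  have hnO : IsNoetherian O (ν → (MonoidAlgebra O C)) := inferInstance
  have hnΛ : IsNoetherian (MonoidAlgebra O C) (ν → (MonoidAlgebra O C)) := isNoetherian_of_tower O hnO
  induction J using WellFoundedGT.induction with
  | _ J ih =>
  by_cases htop : J = ⊤
  · subst htop
    exact (StF.free ν).of_equiv Submodule.topEquiv.symm
  · have hQfin : Module.Finite ℤ ((ν → (MonoidAlgebra O C)) ⧸ J) :=
      Module.Finite.of_surjective ((J.mkQ).restrictScalars ℤ) (Submodule.mkQ_surjective J)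
    have hQtor : Module.IsTorsion ℤ ((ν → (MonoidAlgebra O C)) ⧸ J) := by
      intro x
      obtain ⟨x, rfl⟩ := Submodule.mkQ_surjective J x
      refine ⟨⟨(n : ℤ), mem_nonZeroDivisors_of_ne_zero (by exact_mod_cast hn0.ne')⟩, ?_⟩
      change (n : ℤ) • J.mkQ x = 0
      rw [← map_zsmul, Submodule.mkQ_apply, Submodule.Quotient.mk_eq_zero]
      have := hJ x
      rwa [Nat.cast_smul_eq_nsmul, ← natCast_zsmul] at this
    have hQ : Finite ((ν → (MonoidAlgebra O C)) ⧸ J) := Module.finite_of_fg_torsion _ hQtor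
    have hart : IsArtinian (MonoidAlgebra O C) ((ν → (MonoidAlgebra O C)) ⧸ J) := isArtinian_of_finite
    have hnt : Nontrivial ((ν → (MonoidAlgebra O C)) ⧸ J) := Submodule.Quotient.nontrivial_iff.mpr htop
    obtain ⟨a, ha, -⟩ := (eq_bot_or_exists_atom_le (⊤ : Submodule (MonoidAlgebra O C) ((ν → (MonoidAlgebra O C)) ⧸ J))).resolve_left
      (by simp)
    have hsimple : IsSimpleModule (MonoidAlgebra O C) a := isSimpleModule_iff_isAtom.mpr ha
    obtain ⟨m, hm, ⟨e⟩⟩ := isSimpleModule_iff_quot_maximal.mp hsimple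
    let J1 : Submodule (MonoidAlgebra O C) (ν → (MonoidAlgebra O C)) := a.comap J.mkQ
    have hJJ1 : J ≤ J1 := by
      intro x hx
      change J.mkQ x ∈ a
      rw [Submodule.mkQ_apply, (Submodule.Quotient.mk_eq_zero J).mpr hx]
      exact a.zero_mem
    have hlt : J < J1 := by
      refine lt_of_le_of_ne hJJ1 ?_
      intro h
      apply ha.1
      rw [eq_bot_iff]
      intro y hy
      obtain ⟨x, rfl⟩ := Submodule.mkQ_surjective J y
      have : x ∈ J := by rw [h]; exact hy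
      rw [Submodule.mem_bot, Submodule.mkQ_apply, Submodule.Quotient.mk_eq_zero]
      exact this
    have hJ1n : ∀ x : ν → (MonoidAlgebra O C), (n : (MonoidAlgebra O C)) • x ∈ J1 := fun x => hJJ1 (hJ x)
    have hst := ih J1 hlt hJ1n
    have hproj : Module.Projective (MonoidAlgebra O C) J1 := proj_sub J1 n hn hJ1n
    let π1 : J1 →ₗ[MonoidAlgebra O C] a := (J.mkQ).restrict (fun x hx => hx)
    have hπ1 : Function.Surjective π1 := by
      rintro ⟨y, hy⟩
      obtain ⟨x, rfl⟩ := Submodule.mkQ_surjective J y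
      exact ⟨⟨x, hy⟩, rfl⟩
    let π2 : (MonoidAlgebra O C) →ₗ[MonoidAlgebra O C] a := e.symm.toLinearMap ∘ₗ m.mkQ
    have hπ2 : Function.Surjective π2 := e.symm.surjective.comp (Submodule.mkQ_surjective m)
    obtain ⟨E⟩ := schanuel π1 π2 hπ1 hπ2
    have hk1 : LinearMap.ker π1 = J.submoduleOf J1 := by
      ext ⟨x, hx⟩
      rw [LinearMap.mem_ker, Submodule.submoduleOf, Submodule.mem_comap, Subtype.ext_iff]
      exact Submodule.Quotient.mk_eq_zero J
    have hk2 : LinearMap.ker π2 = m := by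
      rw [LinearEquiv.ker_comp, Submodule.ker_mkQ]
    have E1 : (J × (MonoidAlgebra O C)) ≃ₗ[MonoidAlgebra O C] (J1 × m) :=
      (((Submodule.submoduleOfEquivOfLe hJJ1).symm ≪≫ₗ
        LinearEquiv.ofEq _ _ hk1.symm).prodCongr (LinearEquiv.refl (MonoidAlgebra O C) (MonoidAlgebra O C))) ≪≫ₗ E ≪≫ₗ
      ((LinearEquiv.ofEq _ _ hk2).prodCongr (LinearEquiv.refl (MonoidAlgebra O C) J1)) ≪≫ₗ
      LinearEquiv.prodComm (MonoidAlgebra O C) m J1
    have hnm : (n : (MonoidAlgebra O C)) ∈ m := by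
      have h1 : ∀ y : a, (n : (MonoidAlgebra O C)) • y = 0 := by
        rintro ⟨y, hy⟩
        obtain ⟨x, rfl⟩ := Submodule.mkQ_surjective J y
        ext
        change (n : (MonoidAlgebra O C)) • J.mkQ x = 0
        rw [← map_smul, Submodule.mkQ_apply, Submodule.Quotient.mk_eq_zero]
        exact hJ x
      rw [← hk2, LinearMap.mem_ker]
      have := h1 (π2 1)
      rwa [← map_smul, smul_eq_mul, mul_one] at this
    obtain ⟨p, hp, hpn, hpm⟩ := exists_prime_mem m hm.isPrime n hn0 hnm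
    have hpC : ¬ p ∣ Fintype.card C := by
      intro h
      exact hp.one_lt.ne' (Nat.eq_one_of_dvd_one ((Nat.dvd_gcd hpn h).trans hn.dvd))
    obtain ⟨E2⟩ := max_dual m hm.isPrime p hp hpC hpm (by exact_mod_cast hp.ne_zero)
    exact hst.step E1 E2

end Dev

end Vale.Agent.P268.Z
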