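import Vale.Agent.P268.Z.ApiRep
import Vale.Agent.P268.Z.E5
import Vale.Agent.P268.Z.N.StF

/-!
# P268, block N: realisation of matrix representations by `Λ`-modules, `Λ = ℤ[ζ₅][C_D]`
-/

namespace Vale.Agent.P268.Z

open Matrix Module

/-- The ring `ℤ[ζ₅]`. -/
structure CycRing (O : Type) [CommRing O] where
  /-- the root of unity -/
  z : O
  /-- the basis -/
  b : Basis (Fin 4) ℤ O
  hb : ∀ i, b i = z ^ (i : ℕ)
  h5 : z ^ 5 = 1
  hs : 1 + z + z ^ 2 + z ^ 3 + z ^ 4 = 0

theorem exists_cycRing_aux (K : Type) [Field K] [NumberField K] [IsCyclotomicExtension {5} ℚ K] :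
    Nonempty (CycRing (NumberField.RingOfIntegers K)) := by
  have hz := IsCyclotomicExtension.zeta_spec 5 ℚ K
  have hd : hz.integralPowerBasis.dim = 4 := by
    rw [IsPrimitiveRoot.integralPowerBasis_dim]
    rfl
  have hz' : IsPrimitiveRoot hz.toInteger 5 := hz.toInteger_isPrimitiveRoot
  refine ⟨hz.toInteger, hz.integralPowerBasis.basis.reindex (finCongr hd), ?_, hz'.pow_eq_one, ?_⟩
  · intro i
    rw [Basis.reindex_apply, PowerBasis.basis_eq_pow, IsPrimitiveRoot.integralPowerBasis_gen]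
    rfl
  · have := hz'.geom_sum_eq_zero (by norm_num)
    simpa [Finset.sum_range_succ] using this

theorem exists_cycRing : ∃ (O : Type) (_ : CommRing O) (_ : IsDomain O)
    (_ : IsPrincipalIdealRing O) (_ : CharZero O) (_ : Module.Finite ℤ O), Nonempty (CycRing O) := by
  have hc : IsCyclotomicExtension {5} ℚ (CyclotomicField 5 ℚ) :=
    CyclotomicField.isCyclotomicExtension 5 ℚ
  have hpid : IsPrincipalIdealRing (NumberField.RingOfIntegers (CyclotomicField 5 ℚ)) :=
    IsCyclotomicExtension.Rat.five_pid (CyclotomicField 5 ℚ)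
  exact ⟨NumberField.RingOfIntegers (CyclotomicField 5 ℚ), inferInstance, inferInstance, hpid,
    inferInstance, inferInstance, exists_cycRing_aux (CyclotomicField 5 ℚ)⟩

section Real

variable {O : Type} [CommRing O] (S : CycRing O) {D : ℕ} [NeZero D]
  {ι κ ν : Type} [Fintype ι] [DecidableEq ι] [Fintype κ] [DecidableEq κ]
  [Fintype ν] [DecidableEq ν]

/-- The group elements in `Λ = O[C_D]`. -/
noncomputable def gam (D : ℕ) [NeZero D] : Cyc D × Cyc 5 →* MonoidAlgebra O (Cyc D) where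
  toFun a := MonoidAlgebra.single a.1 (S.z ^ (Multiplicative.toAdd a.2).val)
  map_one' := by
    simp [MonoidAlgebra.one_def]
  map_mul' a b := by
    rw [MonoidAlgebra.single_mul_single, ← pow_add]
    congr 1
    rw [Prod.snd_mul, toAdd_mul, ZMod.val_add]
    conv_rhs => rw [← Nat.mod_add_div ((Multiplicative.toAdd a.2).val +
      (Multiplicative.toAdd b.2).val) 5]
    rw [pow_add, pow_mul, S.h5, one_pow, mul_one]

/-- The `Λ`-module `M` realises the representation `ρ`. -/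
def Real (M : Type) [AddCommGroup M] [Module (MonoidAlgebra O (Cyc D)) M] (ρ : (Cyc D × Cyc 5) →* Matrix κ κ ℤ) : Prop :=
  ∃ e : (κ → ℤ) ≃+ M, ∀ a v, e (ρ a *ᵥ v) = gam S D a • e v

theorem repIso_of_addEquiv {G' : Type} [CommGroup G'] (ρ : G' →* Matrix κ κ ℤ)
    (σ : G' →* Matrix ι ι ℤ) (E : (κ → ℤ) ≃+ (ι → ℤ))
    (hE : ∀ a v, E (ρ a *ᵥ v) = σ a *ᵥ E v) : RepIso ρ σ := by
  let E' : (κ → ℤ) ≃ₗ[ℤ] (ι → ℤ) := E.toIntLinearEquiv
  refine ⟨LinearMap.toMatrix' E'.toLinearMap, LinearMap.toMatrix' E'.symm.toLinearMap, ?_, ?_, ?_⟩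
  · rw [← LinearMap.toMatrix'_comp]
    simp
  · rw [← LinearMap.toMatrix'_comp]
    simp
  · intro a
    apply Matrix.toLin'.injective
    rw [Matrix.toLin'_mul, Matrix.toLin'_mul, Matrix.toLin'_toMatrix']
    exact LinearMap.ext (hE a)

theorem Real.iso {M N : Type} [AddCommGroup M] [Module (MonoidAlgebra O (Cyc D)) M] [AddCommGroup N] [Module (MonoidAlgebra O (Cyc D)) N]
    {ρ : (Cyc D × Cyc 5) →* Matrix κ κ ℤ} {σ : (Cyc D × Cyc 5) →* Matrix ι ι ℤ} (h : Real S M ρ) (h' : Real S N σ)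
    (e : M ≃ₗ[MonoidAlgebra O (Cyc D)] N) : RepIso ρ σ := by
  obtain ⟨e1, h1⟩ := h
  obtain ⟨e2, h2⟩ := h'
  refine repIso_of_addEquiv ρ σ (e1.trans (e.toAddEquiv.trans e2.symm)) fun a v => ?_
  apply e2.injective
  simp only [AddEquiv.trans_apply, AddEquiv.apply_symm_apply, h2, h1]
  exact e.map_smul _ _

theorem Real.prod {M N : Type} [AddCommGroup M] [Module (MonoidAlgebra O (Cyc D)) M] [AddCommGroup N] [Module (MonoidAlgebra O (Cyc D)) N]
    {ρ : (Cyc D × Cyc 5) →* Matrix κ κ ℤ} {σ : (Cyc D × Cyc 5) →* Matrix ι ι ℤ} (h : Real S M ρ) (h' : Real S N σ) :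
    Real S (M × N) (repSum ρ σ) := by
  obtain ⟨e1, h1⟩ := h
  obtain ⟨e2, h2⟩ := h'
  let e0 : (κ ⊕ ι → ℤ) ≃+ (κ → ℤ) × (ι → ℤ) :=
    (LinearEquiv.sumArrowLequivProdArrow κ ι ℤ ℤ).toAddEquiv
  refine ⟨e0.trans (e1.prodCongr e2), fun a v => ?_⟩
  have h0 : e0 (repSum ρ σ a *ᵥ v) = (ρ a *ᵥ (e0 v).1, σ a *ᵥ (e0 v).2) := by
    apply Prod.ext
    · ext i
      change (repSum ρ σ a *ᵥ v) (Sum.inl i) = _
      rw [repSum_apply, Matrix.fromBlocks_mulVec]
      simp
      rfl
    · ext i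
      change (repSum ρ σ a *ᵥ v) (Sum.inr i) = _
      rw [repSum_apply, Matrix.fromBlocks_mulVec]
      simp
      rfl
  rw [AddEquiv.trans_apply, h0]
  apply Prod.ext
  · exact h1 a _
  · exact h2 a _

theorem Real.copies {M : Type} [AddCommGroup M] [Module (MonoidAlgebra O (Cyc D)) M] {ρ : (Cyc D × Cyc 5) →* Matrix κ κ ℤ}
    (h : Real S M ρ) : Real S (ν → M) (repCopies ν ρ) := by
  obtain ⟨e, he⟩ := h
  let e0 : (ν × κ → ℤ) ≃+ (ν → κ → ℤ) := (LinearEquiv.curry ℤ ℤ ν κ).toAddEquiv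
  refine ⟨e0.trans (AddEquiv.piCongrRight fun _ => e), fun a v => ?_⟩
  have h0 : ∀ k, e0 (repCopies ν ρ a *ᵥ v) k = ρ a *ᵥ (e0 v k) := by
    intro k
    ext i
    change (repCopies ν ρ a *ᵥ v) (k, i) = _
    rw [Matrix.mulVec, Matrix.mulVec, dotProduct, dotProduct, Fintype.sum_prod_type,
      Finset.sum_eq_single k]
    · refine Finset.sum_congr rfl fun j _ => ?_
      rw [repCopies_apply_apply]
      simp [e0]
    · intro l _ hl
      refine Finset.sum_eq_zero fun j _ => ?_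
      rw [repCopies_apply_apply]
      simp [hl.symm]
    · simp
  ext k
  change e (e0 (repCopies ν ρ a *ᵥ v) k) = gam S D a • e (e0 v k)
  rw [h0, he]

/-- Coordinates on `O`. -/
noncomputable def e4 : (Fin 4 → ℤ) ≃+ O := S.b.equivFun.symm.toAddEquiv

theorem e4_apply (w : Fin 4 → ℤ) :
    e4 S w = w 0 + w 1 * S.z + w 2 * S.z ^ 2 + w 3 * S.z ^ 3 := by
  change S.b.equivFun.symm w = _
  rw [Basis.equivFun_symm_apply, Fin.sum_univ_four]
  simp only [S.hb, zsmul_eq_mul]
  simp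

theorem e4_comp (w : Fin 4 → ℤ) : e4 S (compMat 4 *ᵥ w) = S.z * e4 S w := by
  have h : compMat 4 *ᵥ w = ![-w 3, w 0 - w 3, w 1 - w 3, w 2 - w 3] := by
    ext i
    fin_cases i <;> simp [compMat, Matrix.mulVec, dotProduct, Fin.sum_univ_four] <;> ring
  rw [h, e4_apply, e4_apply]
  simp
  linear_combination (-(w 3 : O)) * S.hs

theorem e4_comp_pow (k : ℕ) (w : Fin 4 → ℤ) :
    e4 S ((compMat 4) ^ k *ᵥ w) = S.z ^ k * e4 S w := by
  induction k with
  | zero => simp
  | succ k ih => rw [pow_succ', ← Matrix.mulVec_mulVec, e4_comp, ih, pow_succ', mul_assoc]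

/-- Coordinates on `O`. -/
noncomputable def e0 : (Fin (mu [5]) → ℤ) ≃+ O := e4 S

theorem e0_comp_pow (k : ℕ) (w : Fin (mu [5]) → ℤ) :
    e0 S ((compMat (mu [5])) ^ k *ᵥ w) = S.z ^ k * e0 S w := e4_comp_pow S k w

/-- Coordinates on `Λ`. -/
noncomputable def eLam (D : ℕ) [NeZero D] : (LIdx D → ℤ) ≃+ MonoidAlgebra O (Cyc D) :=
  (LinearEquiv.curry ℤ ℤ (Cyc D) (Fin (mu [5]))).toAddEquiv.trans
    ((AddEquiv.piCongrRight fun _ => e0 S).trans
      ((Finsupp.linearEquivFunOnFinite ℤ O (Cyc D)).symm.toAddEquiv.trans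
        MonoidAlgebra.coeffAddEquiv.symm))

theorem eLam_coeff (v : LIdx D → ℤ) (c : Cyc D) :
    (eLam S D v).coeff c = e0 S (fun i => v (c, i)) := rfl

theorem Real.lam : Real S (MonoidAlgebra O (Cyc D)) (Lam D) := by
  refine ⟨eLam S D, fun a v => ?_⟩
  ext c
  have h1 : (gam S D a • eLam S D v).coeff c =
      S.z ^ (Multiplicative.toAdd a.2).val * (eLam S D v).coeff (a.1⁻¹ * c) := by
    rw [smul_eq_mul]
    exact MonoidAlgebra.coeff_single_mul_eq_mul_coeff _
      (fun m' _ => eq_inv_mul_iff_mul_eq.symm)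
  have h2 : (fun i => (Lam D a *ᵥ v) (c, i)) =
      (compMat (mu [5])) ^ (Multiplicative.toAdd a.2).val *ᵥ (fun i => v (a.1⁻¹ * c, i)) := by
    ext i
    have h3 : (Lam D a *ᵥ v) (c, i) = ∑ x : Cyc D, ∑ j : Fin (mu [5]),
        Lam D a (c, i) (x, j) * v (x, j) := Fintype.sum_prod_type _
    rw [h3, Finset.sum_eq_single (a.1⁻¹ * c), Matrix.mulVec, dotProduct]
    · refine Finset.sum_congr rfl fun j _ => ?_
      have h4 : Lam D a (c, i) (a.1⁻¹ * c, j) = (if c = a.1 * (a.1⁻¹ * c) then 1 else 0) *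
        E5.ρ a.2 i j := rfl
      rw [h4, E5_rho, mul_inv_cancel_left, if_pos rfl, one_mul]
    · intro x _ hx
      refine Finset.sum_eq_zero fun j _ => ?_
      have h4 : Lam D a (c, i) (x, j) = (if c = a.1 * x then 1 else 0) * E5.ρ a.2 i j := rfl
      rw [h4, if_neg, zero_mul, zero_mul]
      rintro rfl
      exact hx (by simp)
    · simp
  rw [h1, eLam_coeff, eLam_coeff, ← e0_comp_pow, h2]

/-! ### The trace form -/

/-- The coefficient of `ζ ^ 3`. -/
noncomputable def tau : O →+ ℤ :=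
  (Pi.evalAddMonoidHom (fun _ : Fin 4 => ℤ) 3).comp (e4 S).symm.toAddMonoidHom

theorem tau_e4 (w : Fin 4 → ℤ) : tau S (e4 S w) = w 3 := by
  simp [tau]

theorem tau_z1 (w : Fin 4 → ℤ) : tau S (e4 S w * S.z) = w 2 - w 3 := by
  have h : e4 S w * S.z = e4 S ![-w 3, w 0 - w 3, w 1 - w 3, w 2 - w 3] := by
    rw [e4_apply, e4_apply]
    simp
    linear_combination (w 3 : O) * S.hs
  rw [h, tau_e4]
  rfl

theorem tau_z2 (w : Fin 4 → ℤ) : tau S (e4 S w * S.z ^ 2) = w 1 - w 2 := by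
  have h : e4 S w * S.z ^ 2 = e4 S ![-w 3, w 0 - w 3, w 1 - w 3, w 2 - w 3] * S.z := by
    rw [e4_apply, e4_apply]
    simp
    linear_combination (w 3 : O) * S.z * S.hs
  rw [h, tau_z1]
  change (w 1 - w 3) - (w 2 - w 3) = _
  ring

theorem tau_z3 (w : Fin 4 → ℤ) : tau S (e4 S w * S.z ^ 3) = w 0 - w 1 := by
  have h : e4 S w * S.z ^ 3 = e4 S ![-w 3, w 0 - w 3, w 1 - w 3, w 2 - w 3] * S.z ^ 2 := by
    rw [e4_apply, e4_apply]
    simp
    linear_combination (w 3 : O) * S.z ^ 2 * S.hs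
  rw [h, tau_z2]
  change (w 0 - w 3) - (w 1 - w 3) = _
  ring

theorem tau_perfect (φ : O →+ ℤ) : ∃ x : O, ∀ y, φ y = tau S (x * y) := by
  refine ⟨e4 S ![φ (S.z ^ 3) + (φ (S.z ^ 2) + (φ S.z + φ 1)), φ (S.z ^ 2) + (φ S.z + φ 1),
    φ S.z + φ 1, φ 1], fun y => ?_⟩
  obtain ⟨w, rfl⟩ := (e4 S).surjective y
  rw [e4_apply S w]
  have h : ∀ (n : ℤ) (y : O), φ (n * y) = n * φ y := by
    intro n y
    rw [← zsmul_eq_mul, map_zsmul, smul_eq_mul]
  have h' : ∀ (n : ℤ) (x y : O), tau S (x * (n * y)) = n * tau S (x * y) := by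
    intro n x y
    rw [mul_left_comm, ← zsmul_eq_mul, map_zsmul, smul_eq_mul]
  have g0 : φ (w 0 : O) = w 0 * φ 1 := by
    have := h (w 0) 1
    rwa [mul_one] at this
  have g0' : ∀ x : O, tau S (x * (w 0 : O)) = w 0 * tau S x := by
    intro x
    have := h' (w 0) x 1
    rwa [mul_one, mul_one] at this
  simp only [mul_add, map_add, h, h', g0, g0', tau_e4, tau_z1, tau_z2, tau_z3]
  simp [Matrix.cons_val]

theorem tau_unique (x : O) (h : ∀ y, tau S (x * y) = 0) : x = 0 := by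
  obtain ⟨w, rfl⟩ := (e4 S).surjective x
  have h0 := h 1
  have h1 := h S.z
  have h2 := h (S.z ^ 2)
  have h3 := h (S.z ^ 3)
  rw [mul_one, tau_e4] at h0
  rw [tau_z1] at h1
  rw [tau_z2] at h2
  rw [tau_z3] at h3
  have : w = 0 := by
    ext i
    fin_cases i <;> simp <;> omega
  rw [this, map_zero]

/-- The perfect form on `Λ`. -/
noncomputable def th (D : ℕ) [NeZero D] : MonoidAlgebra O (Cyc D) →+ ℤ :=
  (tau S).comp ((Finsupp.applyAddHom (1 : Cyc D)).comp
    (MonoidAlgebra.coeffAddEquiv (R := O) (M := Cyc D)).toAddMonoidHom)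

theorem th_apply (x : (MonoidAlgebra O (Cyc D))) : th S D x = tau S (x.coeff 1) := rfl

theorem th_mul_single (x : (MonoidAlgebra O (Cyc D))) (c : Cyc D) (o : O) :
    th S D (x * MonoidAlgebra.single c o) = tau S (x.coeff c⁻¹ * o) := by
  rw [th_apply]
  congr 1
  exact MonoidAlgebra.coeff_mul_single_eq_coeff_mul _
      (fun m' _ => mul_eq_one_iff_eq_inv)

theorem th_perfect (φ : (MonoidAlgebra O (Cyc D)) →+ ℤ) : ∃ x : (MonoidAlgebra O (Cyc D)), ∀ y, φ y = th S D (x * y) := by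
  have h1 : ∀ c : Cyc D, ∃ x : O, ∀ y, φ (MonoidAlgebra.single c y) = tau S (x * y) := fun c =>
    tau_perfect S (φ.comp (MonoidAlgebra.singleAddHom c))
  choose x hx using h1
  refine ⟨MonoidAlgebra.ofCoeff (Finsupp.equivFunOnFinite.symm fun c => x c⁻¹), fun y => ?_⟩
  have h2 : φ = (th S D).comp (AddMonoidHom.mulLeft
      (MonoidAlgebra.ofCoeff (Finsupp.equivFunOnFinite.symm fun c => x c⁻¹))) := by
    ext c o
    change φ (MonoidAlgebra.single c o) = th S D (_ * MonoidAlgebra.single c o)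
    rw [hx, th_mul_single]
    simp
  exact DFunLike.congr_fun h2 y

theorem th_unique (x : (MonoidAlgebra O (Cyc D))) (h : ∀ y, th S D (x * y) = 0) : x = 0 := by
  ext c
  apply tau_unique S
  intro y
  have := h (MonoidAlgebra.single c⁻¹ y)
  rwa [th_mul_single, inv_inv] at this

theorem Real.dual {M : Type} [AddCommGroup M] [Module (MonoidAlgebra O (Cyc D)) M] {ρ : (Cyc D × Cyc 5) →* Matrix κ κ ℤ}
    (h : Real S M ρ) : Real S (Dual (MonoidAlgebra O (Cyc D)) M) (repSharp ρ) := by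
  obtain ⟨e, he⟩ := h
  let Ψ : Dual (MonoidAlgebra O (Cyc D)) M →+ (κ → ℤ) :=
    { toFun := fun F k => th S D (F (e (Pi.single k 1)))
      map_zero' := by ext k; simp
      map_add' := fun F F' => by ext k; simp }
  have hexp : ∀ (f : M →+ ℤ) (w : κ → ℤ), f (e w) = ∑ k, w k * f (e (Pi.single k 1)) := by
    intro f w
    have h1 : w = ∑ k, w k • (Pi.single k (1 : ℤ) : κ → ℤ) := by
      ext i
      simp [Finset.sum_apply, Pi.single_apply]
    conv_lhs => rw [h1]
    rw [map_sum, map_sum]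
    refine Finset.sum_congr rfl fun k _ => ?_
    rw [map_zsmul, map_zsmul, smul_eq_mul]
  have hinj : Function.Injective Ψ := by
    rw [injective_iff_map_eq_zero]
    intro F hF
    refine LinearMap.ext fun m => ?_
    change F m = 0
    apply th_unique S
    intro l
    rw [mul_comm, ← smul_eq_mul, ← map_smul]
    obtain ⟨w, hw⟩ := e.surjective (l • m)
    have := hexp ((th S D).comp F.toAddMonoidHom) w
    rw [hw] at this
    refine this.trans (Finset.sum_eq_zero fun k _ => ?_)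
    have h2 := congrFun hF k
    change w k * (Ψ F k) = 0
    rw [h2]
    simp
  have hsurj : Function.Surjective Ψ := by
    intro v
    let f : M →+ ℤ :=
      ({ toFun := fun w => ∑ k, w k * v k
         map_zero' := by simp
         map_add' := fun a b => by simp [add_mul, Finset.sum_add_distrib] } : (κ → ℤ) →+ ℤ).comp
        e.symm.toAddMonoidHom
    have h1 : ∀ m : M, ∃ x : (MonoidAlgebra O (Cyc D)), ∀ l : (MonoidAlgebra O (Cyc D)), f (l • m) = th S D (x * l) := fun m =>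
      th_perfect S (f.comp ((AddMonoidHom.flip (smulAddHom (MonoidAlgebra O (Cyc D)) M)) m))
    choose F hF using h1
    let F' : Dual (MonoidAlgebra O (Cyc D)) M :=
      { toFun := F
        map_add' := by
          intro m m'
          rw [← sub_eq_zero]
          apply th_unique S
          intro l
          rw [sub_mul, add_mul, map_sub, map_add, ← hF, ← hF, ← hF, smul_add, map_add, sub_self]
        map_smul' := by
          intro c m
          rw [← sub_eq_zero]
          apply th_unique S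
          intro l
          rw [sub_mul, map_sub, RingHom.id_apply, smul_eq_mul, mul_assoc, mul_left_comm, ← hF,
            ← hF, ← mul_smul, mul_comm l c, sub_self] }
    refine ⟨F', ?_⟩
    ext k
    change th S D (F (e (Pi.single k 1))) = v k
    have := hF (e (Pi.single k 1)) 1
    rw [mul_one, one_smul] at this
    rw [← this]
    simp [f, Pi.single_apply]
  let E : Dual (MonoidAlgebra O (Cyc D)) M ≃+ (κ → ℤ) := AddEquiv.ofBijective Ψ ⟨hinj, hsurj⟩
  refine ⟨E.symm, fun a v => ?_⟩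
  apply E.injective
  rw [AddEquiv.apply_symm_apply]
  obtain ⟨F, rfl⟩ := E.surjective v
  rw [AddEquiv.symm_apply_apply]
  ext k
  change _ = th S D (gam S D a • F (e (Pi.single k 1)))
  rw [← map_smul, ← he]
  have := hexp ((th S D).comp F.toAddMonoidHom) (ρ a *ᵥ Pi.single k 1)
  refine Eq.trans ?_ this.symm
  rw [repSharp_apply, Matrix.mulVec, dotProduct]
  refine Finset.sum_congr rfl fun l _ => ?_
  rw [Matrix.mulVec_single_one]
  rfl

end Real

end Vale.Agent.P268.Z
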