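import Mathlib

/-!
# P268, block N: Schanuel's lemma, and `𝔪 ⊕ 𝔪* ≅ Λ²` for suitable ideals
-/

namespace Vale.Agent.P268.Z

section Schanuel

variable {R : Type} [CommRing R] {M₁ M₂ T : Type} [AddCommGroup M₁] [Module R M₁]
  [AddCommGroup M₂] [Module R M₂] [AddCommGroup T] [Module R T]

/-- Schanuel's lemma. -/
theorem schanuel [Module.Projective R M₁] [Module.Projective R M₂] (π₁ : M₁ →ₗ[R] T)
    (π₂ : M₂ →ₗ[R] T) (h₁ : Function.Surjective π₁) (h₂ : Function.Surjective π₂) :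
    Nonempty ((LinearMap.ker π₁ × M₂) ≃ₗ[R] (LinearMap.ker π₂ × M₁)) := by
  obtain ⟨f, hf⟩ := Module.projective_lifting_property π₂ π₁ h₂
  obtain ⟨g, hg⟩ := Module.projective_lifting_property π₁ π₂ h₁
  have hf' : ∀ x, π₂ (f x) = π₁ x := fun x => LinearMap.congr_fun hf x
  have hg' : ∀ x, π₁ (g x) = π₂ x := fun x => LinearMap.congr_fun hg x
  refine ⟨LinearEquiv.ofLinearMap
    (LinearMap.prod
      (LinearMap.codRestrict (LinearMap.ker π₂)
        (LinearMap.snd R _ M₂ + f ∘ₗ ((LinearMap.ker π₁).subtype ∘ₗ LinearMap.fst R _ M₂ -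
          g ∘ₗ LinearMap.snd R _ M₂)) ?_)
      ((LinearMap.ker π₁).subtype ∘ₗ LinearMap.fst R _ M₂ - g ∘ₗ LinearMap.snd R _ M₂))
    (LinearMap.prod
      (LinearMap.codRestrict (LinearMap.ker π₁)
        (LinearMap.snd R _ M₁ + g ∘ₗ ((LinearMap.ker π₂).subtype ∘ₗ LinearMap.fst R _ M₁ -
          f ∘ₗ LinearMap.snd R _ M₁)) ?_)
      ((LinearMap.ker π₂).subtype ∘ₗ LinearMap.fst R _ M₁ - f ∘ₗ LinearMap.snd R _ M₁)) ?_ ?_⟩
  · rintro ⟨⟨x, hx⟩, y⟩
    rw [LinearMap.mem_ker] at hx ⊢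
    simp [hf', hg', hx]
  · rintro ⟨⟨x, hx⟩, y⟩
    rw [LinearMap.mem_ker] at hx ⊢
    simp [hf', hg', hx]
  · ext x <;> simp
  · ext x <;> simp

end Schanuel

section Ideal

variable {R : Type} [CommRing R]

/-- `J ⊕ J* ≅ R²` for an ideal `J = (a₁, a₂)` with `a₁ + b(a₂) = 1`, `a₁ x + b(x) a₂ = x` on `J`,
where `b : J → R` is linear. -/
theorem ideal_dual (J : Ideal R) (a₁ a₂ : J) (b : J →ₗ[R] R) (h1 : (a₁ : R) + b a₂ = 1)
    (h2 : ∀ x : J, (a₁ : R) * x + b x * a₂ = x) :
    Nonempty ((J × Module.Dual R J) ≃ₗ[R] (R × R)) := by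
  have hb : ∀ x y : J, (x : R) * b y = (y : R) * b x := by
    intro x y
    rw [← smul_eq_mul, ← smul_eq_mul, ← map_smul, ← map_smul]
    congr 1
    ext
    simp [mul_comm]
  let ι : J →ₗ[R] R := J.subtype
  refine ⟨LinearEquiv.ofLinearMap
    (LinearMap.prod
      (ι ∘ₗ LinearMap.fst R J _ - (Module.Dual.eval R J a₂) ∘ₗ LinearMap.snd R J _)
      (b ∘ₗ LinearMap.fst R J _ + (Module.Dual.eval R J a₁) ∘ₗ LinearMap.snd R J _))
    (LinearMap.prod
      ((LinearMap.toSpanSingleton R J a₁) ∘ₗ LinearMap.fst R R R +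
        (LinearMap.toSpanSingleton R J a₂) ∘ₗ LinearMap.snd R R R)
      (-((LinearMap.toSpanSingleton R (Module.Dual R J) b) ∘ₗ LinearMap.fst R R R) +
        (LinearMap.toSpanSingleton R (Module.Dual R J) ι) ∘ₗ LinearMap.snd R R R)) ?_ ?_⟩
  · apply LinearMap.ext
    rintro ⟨u, v⟩
    apply Prod.ext
    · change (ι (u • a₁ + v • a₂)) - (-(u • b) + v • ι) a₂ = u
      simp only [map_add, map_smul, LinearMap.add_apply, LinearMap.neg_apply, LinearMap.smul_apply,
        smul_eq_mul]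
      change u * (a₁ : R) + v * (a₂ : R) - (-(u * b a₂) + v * (a₂ : R)) = u
      linear_combination u * h1
    · change b (u • a₁ + v • a₂) + (-(u • b) + v • ι) a₁ = v
      simp only [map_add, map_smul, LinearMap.add_apply, LinearMap.neg_apply, LinearMap.smul_apply,
        smul_eq_mul]
      change u * b a₁ + v * b a₂ + (-(u * b a₁) + v * (a₁ : R)) = v
      linear_combination v * h1
  · apply LinearMap.ext
    rintro ⟨j, f⟩
    have hf : ∀ x y : J, (x : R) * f y = (y : R) * f x := by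
      intro x y
      rw [← smul_eq_mul, ← smul_eq_mul, ← map_smul, ← map_smul]
      congr 1
      ext
      simp [mul_comm]
    have hs : ∀ x : J, (a₁ : R) • x + (b x) • a₂ = x := by
      intro x
      ext
      simpa using h2 x
    apply Prod.ext
    · change ((j : R) - f a₂) • a₁ + (b j + f a₁) • a₂ = j
      ext
      change ((j : R) - f a₂) * a₁ + (b j + f a₁) * a₂ = j
      linear_combination h2 j + hf a₂ a₁
    · change -(((j : R) - f a₂) • b) + (b j + f a₁) • ι = f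
      ext x
      simp only [LinearMap.add_apply, LinearMap.neg_apply, LinearMap.smul_apply, smul_eq_mul]
      change -(((j : R) - f a₂) * b x) + (b j + f a₁) * (x : R) = f x
      have h3 := congrArg f (hs x)
      rw [map_add, map_smul, map_smul, smul_eq_mul, smul_eq_mul] at h3
      linear_combination h3 - hb j x + hf x a₁

end Ideal

end Vale.Agent.P268.Z
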