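import Vale.Agent.P268.Z.N.Sect

/-!
# P268, block N: Schanuel for a lattice and the plain dual
-/

namespace Vale.Agent.P268.Z

open Matrix

section Schan

variable {D : ℕ} {μ μ' : Type} [Fintype μ] [DecidableEq μ] [Fintype μ'] [DecidableEq μ']

theorem exists_mat_of_mem {α β γ : Type} [Fintype β] (i : Matrix α β ℤ) (M : Matrix α γ ℤ)
    (h : ∀ k, ∃ v, M.col k = i *ᵥ v) : ∃ A : Matrix β γ ℤ, i * A = M := by
  choose v hv using h
  refine ⟨Matrix.of fun b k => v k b, ?_⟩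
  ext a k
  have := congrFun (hv k) a
  rw [Matrix.col_apply] at this
  rw [this, Matrix.mul_apply]
  rfl

theorem mul_left_cancel_of_smul {α β γ : Type} [Fintype α] [Fintype β] [DecidableEq β] {n : ℕ}
    (hn : 0 < n) {i : Matrix α β ℤ} {c : Matrix β α ℤ} (hci : c * i = (n : ℤ) • (1 : Matrix β β ℤ))
    {X Y : Matrix β γ ℤ} (h : i * X = i * Y) : X = Y := by
  have h1 : c * (i * X) = c * (i * Y) := by rw [h]
  rw [← Matrix.mul_assoc, ← Matrix.mul_assoc, hci, Matrix.smul_mul, Matrix.smul_mul,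
    Matrix.one_mul, Matrix.one_mul] at h1
  ext a b
  have h2 := congrFun (congrFun h1 a) b
  simp only [Matrix.smul_apply, smul_eq_mul] at h2
  have hn' : (n : ℤ) ≠ 0 := by exact_mod_cast hn.ne'
  exact mul_left_cancel₀ hn' h2

/-- The exact equivariant lift: multiplier `1` by Bezout. -/
theorem exists_lift_one [NeZero D] {T : Type} [AddCommGroup T]
    (X : Cyc D × Cyc 5 →* Matrix μ μ ℤ) (Y : Cyc D × Cyc 5 →* Matrix μ' μ' ℤ)
    (ρT : Cyc D × Cyc 5 →* Module.End ℤ T) (hX : Phi5 X) (hY : Phi5 Y)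
    (p : (μ → ℤ) →ₗ[ℤ] T) (q : (μ' → ℤ) →ₗ[ℤ] T) (hp : ∀ a x, p (X a *ᵥ x) = ρT a (p x))
    (hq : ∀ a x, q (Y a *ᵥ x) = ρT a (q x)) (hpsurj : Function.Surjective p)
    (n : ℕ) (hn : n.Coprime D) (hnT : ∀ t : T, (n : ℤ) • t = 0) :
    ∃ h : Matrix μ μ' ℤ, (∀ y, p (h *ᵥ y) = q y) ∧ ∀ a, h * Y a = X a * h := by
  have hT : ∑ i : ZMod 5, ρT (1, Multiplicative.ofAdd i) = 0 := by
    ext t
    obtain ⟨x, rfl⟩ := hpsurj t
    simp only [LinearMap.sum_apply, LinearMap.zero_apply, ← hp]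
    rw [← map_sum]
    have := repEnd_phi5 hX
    have h2 := LinearMap.congr_fun this x
    simp only [LinearMap.sum_apply, repEnd_apply, LinearMap.zero_apply] at h2
    rw [h2, map_zero]
  obtain ⟨H, h1, h2⟩ := lift_avg (repEnd X) ρT (repEnd Y) (repEnd_phi5 hX) hT (repEnd_phi5 hY)
    p (fun a m => by rw [repEnd_apply, hp]) hpsurj q (fun a m => by rw [repEnd_apply, hq])
  have hb := Nat.gcd_eq_gcd_ab n D
  rw [hn] at hb
  push_cast at hb
  refine ⟨(Nat.gcdB n D) • LinearMap.toMatrix' H, fun y => ?_, fun a => ?_⟩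
  · rw [Matrix.smul_mulVec, ← Matrix.toLin'_apply, Matrix.toLin'_toMatrix', map_smul, h1,
      smul_smul, show Nat.gcdB n D * (D : ℤ) = 1 - Nat.gcdA n D * (n : ℤ) by linarith, sub_smul,
      one_smul, mul_smul, hnT, smul_zero, sub_zero]
  · rw [Matrix.smul_mul, Matrix.mul_smul]
    congr 1
    apply Matrix.toLin'.injective
    rw [Matrix.toLin'_mul, Matrix.toLin'_mul, Matrix.toLin'_toMatrix']
    exact LinearMap.ext fun x => h2 a x

/-- Schanuel for `0 → J → J₁ → T → 0` and `0 → J₁^♯ → J^♯ → T → 0`. -/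
theorem schanuel_step [NeZero D] {T : Type} [AddCommGroup T]
    (σ : Cyc D × Cyc 5 →* Matrix μ μ ℤ) (σ' : Cyc D × Cyc 5 →* Matrix μ' μ' ℤ)
    (ρT : Cyc D × Cyc 5 →* Module.End ℤ T) (hσ : Phi5 σ) (hσ' : Phi5 σ')
    (n : ℕ) (hn0 : 0 < n) (hn : n.Coprime D) (i : Matrix μ' μ ℤ) (c : Matrix μ μ' ℤ)
    (hic : i * c = (n : ℤ) • (1 : Matrix μ' μ' ℤ)) (hci : c * i = (n : ℤ) • (1 : Matrix μ μ ℤ))
    (hi : ∀ a, i * σ a = σ' a * i)
    (p : (μ' → ℤ) →ₗ[ℤ] T) (q : (μ → ℤ) →ₗ[ℤ] T)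
    (hp : ∀ a x, p (σ' a *ᵥ x) = ρT a (p x)) (hq : ∀ a x, q ((σ a)ᵀ *ᵥ x) = ρT a (q x))
    (hps : Function.Surjective p) (hqs : Function.Surjective q)
    (hpk : ∀ x, p x = 0 ↔ ∃ v, x = i *ᵥ v) (hqk : ∀ x, q x = 0 ↔ ∃ v, x = iᵀ *ᵥ v) :
    RepIso (repSum σ (repSharp σ)) (repSum σ' (repSharp σ')) := by
  have hnT : ∀ t : T, (n : ℤ) • t = 0 := by
    intro t
    obtain ⟨x, rfl⟩ := hps t
    rw [← map_smul, hpk]
    exact ⟨c *ᵥ x, by rw [Matrix.mulVec_mulVec, hic, Matrix.smul_mulVec, Matrix.one_mulVec]⟩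
  obtain ⟨h1, hh1, he1⟩ := exists_lift_one (repSharp σ) σ' ρT hσ.sharp hσ' q p hq hp hqs n hn hnT
  obtain ⟨h2, hh2, he2⟩ := exists_lift_one σ' (repSharp σ) ρT hσ' hσ.sharp p q hp hq hps n hn hnT
  have he1' : ∀ a, h1 * σ' a = (σ a)ᵀ * h1 := he1
  have he2' : ∀ a, h2 * (σ a)ᵀ = σ' a * h2 := he2
  have hicT : iᵀ * cᵀ = (n : ℤ) • (1 : Matrix μ μ ℤ) := by
    rw [← transpose_mul, hci, transpose_smul, transpose_one]
  have hciT : cᵀ * iᵀ = (n : ℤ) • (1 : Matrix μ' μ' ℤ) := by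
    rw [← transpose_mul, hic, transpose_smul, transpose_one]
  have hiT : ∀ a, (σ a)ᵀ * iᵀ = iᵀ * (σ' a)ᵀ := fun a => by
    rw [← transpose_mul, ← transpose_mul, hi]
  obtain ⟨A, hA⟩ : ∃ A : Matrix μ' μ ℤ, iᵀ * A = h1 * i := exists_mat_of_mem _ _ fun k => by
    rw [← hqk]
    have : (h1 * i).col k = h1 *ᵥ (i.col k) := rfl
    rw [this, hh1, hpk]
    exact ⟨Pi.single k 1, by rw [Matrix.mulVec_single_one]⟩
  obtain ⟨B, hB⟩ : ∃ B : Matrix μ' μ ℤ, iᵀ * B = 1 - h1 * h2 := exists_mat_of_mem _ _ fun k => by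
    rw [← hqk]
    have : (1 - h1 * h2 : Matrix μ μ ℤ).col k = Pi.single k 1 - h1 *ᵥ (h2 *ᵥ Pi.single k 1) := by
      rw [Matrix.mulVec_mulVec, ← Matrix.mulVec_single_one, Matrix.sub_mulVec, Matrix.one_mulVec]
    rw [this, map_sub, hh1, hh2, sub_self]
  obtain ⟨A', hA'⟩ : ∃ A' : Matrix μ μ' ℤ, i * A' = 1 - h2 * h1 := exists_mat_of_mem _ _ fun k => by
    rw [← hpk]
    have : (1 - h2 * h1 : Matrix μ' μ' ℤ).col k =
        Pi.single k 1 - h2 *ᵥ (h1 *ᵥ Pi.single k 1) := by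
      rw [Matrix.mulVec_mulVec, ← Matrix.mulVec_single_one, Matrix.sub_mulVec, Matrix.one_mulVec]
    rw [this, map_sub, hh2, hh1, sub_self]
  obtain ⟨B', hB'⟩ : ∃ B' : Matrix μ μ' ℤ, i * B' = h2 * iᵀ := exists_mat_of_mem _ _ fun k => by
    rw [← hpk]
    have : (h2 * iᵀ).col k = h2 *ᵥ (iᵀ.col k) := rfl
    rw [this, hh2, hqk]
    exact ⟨Pi.single k 1, by rw [Matrix.mulVec_single_one]⟩
  refine ⟨fromBlocks i h2 (-A) B, fromBlocks A' (-B') h1 iᵀ, ?_, ?_, fun a => ?_⟩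
  · rw [fromBlocks_multiply, ← fromBlocks_one]
    congr 1
    · apply mul_left_cancel_of_smul hn0 hci
      simp only [Matrix.mul_add, Matrix.neg_mul, Matrix.mul_neg, neg_neg]
      rw [← Matrix.mul_assoc, ← Matrix.mul_assoc, hA', hB', Matrix.mul_assoc h2, hA, Matrix.sub_mul, Matrix.one_mul, Matrix.mul_assoc, Matrix.mul_one]
      abel
    · apply mul_left_cancel_of_smul hn0 hci
      rw [Matrix.mul_add, Matrix.neg_mul, Matrix.mul_neg, ← Matrix.mul_assoc, ← Matrix.mul_assoc,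
        hA', hB', Matrix.mul_assoc h2, hB, Matrix.sub_mul, Matrix.one_mul, Matrix.mul_sub,
        Matrix.mul_one, Matrix.mul_zero, Matrix.mul_assoc]
      abel
    · rw [Matrix.mul_neg, hA]; abel
    · rw [hB]; abel
  · rw [fromBlocks_multiply, ← fromBlocks_one]
    congr 1
    · rw [hA']; abel
    · rw [Matrix.mul_neg, hB']; abel
    · apply mul_left_cancel_of_smul hn0 hciT
      rw [Matrix.mul_add, Matrix.neg_mul, Matrix.mul_neg, ← Matrix.mul_assoc, ← Matrix.mul_assoc,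
        hA, hB, Matrix.mul_assoc h1, hA', Matrix.sub_mul, Matrix.one_mul, Matrix.mul_sub,
        Matrix.mul_one, Matrix.mul_zero, Matrix.mul_assoc]
      abel
    · apply mul_left_cancel_of_smul hn0 hciT
      simp only [Matrix.mul_add, Matrix.neg_mul, Matrix.mul_neg, neg_neg]
      rw [← Matrix.mul_assoc, ← Matrix.mul_assoc, hA, hB, Matrix.mul_assoc h1, hB', Matrix.sub_mul, Matrix.one_mul, Matrix.mul_assoc, Matrix.mul_one]
      abel
  · change fromBlocks i h2 (-A) B * fromBlocks (σ a) 0 0 (σ a)ᵀ =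
      fromBlocks (σ' a) 0 0 (σ' a)ᵀ * fromBlocks i h2 (-A) B
    rw [fromBlocks_multiply, fromBlocks_multiply]
    simp only [Matrix.mul_zero, Matrix.zero_mul, add_zero, zero_add]
    congr 1
    · exact hi a
    · exact he2' a
    · apply mul_left_cancel_of_smul hn0 hciT
      rw [Matrix.neg_mul, Matrix.mul_neg, Matrix.mul_neg, Matrix.mul_neg, ← Matrix.mul_assoc, hA,
        Matrix.mul_assoc, hi, ← Matrix.mul_assoc, he1', ← Matrix.mul_assoc, ← hiT,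
        Matrix.mul_assoc (σ a)ᵀ, Matrix.mul_assoc (σ a)ᵀ, hA]
    · apply mul_left_cancel_of_smul hn0 hciT
      rw [← Matrix.mul_assoc, hB, ← Matrix.mul_assoc, ← hiT, Matrix.mul_assoc (σ a)ᵀ, hB,
        Matrix.sub_mul, Matrix.one_mul, Matrix.mul_sub, Matrix.mul_one, Matrix.mul_assoc, he2',
        ← Matrix.mul_assoc, he1', Matrix.mul_assoc]

end Schan

end Vale.Agent.P268.Z
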