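import Vale.Agent.P268.Z.N.Schan

/-!
# P268, block N: `coker i ≅ coker iᵀ` when `coker i` is a simple module
-/

namespace Vale.Agent.P268.Z

open Matrix

section Card

variable {α β : Type} [Fintype α] [DecidableEq α] [Fintype β] [DecidableEq β]

omit [DecidableEq α] in
theorem card_coker (i : Matrix α β ℤ) (e : β ≃ α) (hinj : Function.Injective i.mulVec) :
    Nat.card ((α → ℤ) ⧸ LinearMap.range i.mulVecLin) = (i.submatrix e id).det.natAbs := by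
  let b : Module.Basis β ℤ (α → ℤ) := (Pi.basisFun ℤ α).reindex e.symm
  let eq : (β → ℤ) ≃ₗ[ℤ] LinearMap.range i.mulVecLin :=
    LinearEquiv.ofInjective i.mulVecLin hinj
  let bN : Module.Basis β ℤ (LinearMap.range i.mulVecLin) := (Pi.basisFun ℤ β).map eq
  rw [← Submodule.natAbs_det_basis_change b _ bN, Module.Basis.det_apply]
  congr 2
  ext k l
  rw [Module.Basis.toMatrix_apply]
  simp only [b, bN, eq, Function.comp_apply, Module.Basis.map_apply, Pi.basisFun_apply,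
    Module.Basis.repr_reindex_apply, Pi.basisFun_repr, Equiv.symm_symm, Matrix.submatrix_apply,
    id_eq]
  change (i *ᵥ Pi.single l 1) (e k) = _
  rw [Matrix.mulVec_single_one, Matrix.col_apply]

omit [DecidableEq α] in
theorem mulVec_injective_of_smul {n : ℕ} (hn : 0 < n) {i : Matrix α β ℤ} {c : Matrix β α ℤ}
    (hci : c * i = (n : ℤ) • (1 : Matrix β β ℤ)) : Function.Injective i.mulVec := by
  intro v w h
  have h1 : c *ᵥ (i *ᵥ v) = c *ᵥ (i *ᵥ w) := congrArg _ h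
  rw [Matrix.mulVec_mulVec, Matrix.mulVec_mulVec, hci, Matrix.smul_mulVec, Matrix.smul_mulVec,
    Matrix.one_mulVec, Matrix.one_mulVec] at h1
  have hn' : (n : ℤ) ≠ 0 := by exact_mod_cast hn.ne'
  exact smul_right_injective _ hn' h1

/-- The index types have the same cardinality. -/
theorem exists_equiv_of_smul {n : ℕ} (hn : 0 < n) {i : Matrix α β ℤ} {c : Matrix β α ℤ}
    (hic : i * c = (n : ℤ) • (1 : Matrix α α ℤ)) (hci : c * i = (n : ℤ) • (1 : Matrix β β ℤ)) :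
    Nonempty (β ≃ α) := by
  rw [← Fintype.card_eq]
  apply le_antisymm
  · have h := LinearMap.finrank_le_finrank_of_injective (f := i.mulVecLin)
      (mulVec_injective_of_smul hn hci)
    simpa using h
  · have h := LinearMap.finrank_le_finrank_of_injective (f := c.mulVecLin)
      (mulVec_injective_of_smul hn hic)
    simpa using h

theorem card_coker_transpose {n : ℕ} (hn : 0 < n) {i : Matrix α β ℤ} {c : Matrix β α ℤ}
    (hic : i * c = (n : ℤ) • (1 : Matrix α α ℤ)) (hci : c * i = (n : ℤ) • (1 : Matrix β β ℤ)) :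
    Nat.card ((α → ℤ) ⧸ LinearMap.range i.mulVecLin) =
      Nat.card ((β → ℤ) ⧸ LinearMap.range iᵀ.mulVecLin) := by
  obtain ⟨e⟩ := exists_equiv_of_smul hn hic hci
  have hciT : cᵀ * iᵀ = (n : ℤ) • (1 : Matrix α α ℤ) := by
    rw [← transpose_mul, hic, transpose_smul, transpose_one]
  rw [card_coker i e (mulVec_injective_of_smul hn hci),
    card_coker iᵀ e.symm (mulVec_injective_of_smul hn hciT)]
  rw [← Matrix.det_transpose (iᵀ.submatrix e.symm id),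
    ← Matrix.det_submatrix_equiv_self e ((iᵀ.submatrix e.symm id)ᵀ)]
  congr 2
  ext k l
  simp

theorem finite_coker {n : ℕ} (hn : 0 < n) {i : Matrix α β ℤ} {c : Matrix β α ℤ}
    (hic : i * c = (n : ℤ) • (1 : Matrix α α ℤ)) (hci : c * i = (n : ℤ) • (1 : Matrix β β ℤ)) :
    Finite ((α → ℤ) ⧸ LinearMap.range i.mulVecLin) := by
  obtain ⟨e⟩ := exists_equiv_of_smul hn hic hci
  apply Nat.finite_of_card_ne_zero
  rw [card_coker i e (mulVec_injective_of_smul hn hci), ne_eq, Int.natAbs_eq_zero]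
  intro h0
  have h1 : (i.submatrix e id) * (c.submatrix id e) = (n : ℤ) • (1 : Matrix β β ℤ) := by
    rw [← Matrix.submatrix_mul _ _ _ _ _ Function.bijective_id, hic]
    ext k l
    rw [Matrix.submatrix_apply, Matrix.smul_apply, Matrix.smul_apply, Matrix.one_apply,
      Matrix.one_apply]
    simp only [EmbeddingLike.apply_eq_iff_eq]
  have h2 := congrArg Matrix.det h1
  rw [Matrix.det_mul, h0, zero_mul, Matrix.det_smul, Matrix.det_one, mul_one] at h2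
  have hn' : (n : ℤ) ≠ 0 := by exact_mod_cast hn.ne'
  exact pow_ne_zero _ hn' h2.symm

end Card

section Act

variable {G : Type} [CommGroup G] {α : Type} [Fintype α] [DecidableEq α]

/-- The action on a quotient. -/
def quotAct (ρ : G →* Matrix α α ℤ) (N : Submodule ℤ (α → ℤ))
    (hN : ∀ a, ∀ x ∈ N, ρ a *ᵥ x ∈ N) : G →* Module.End ℤ ((α → ℤ) ⧸ N) where
  toFun a := N.mapQ N (ρ a).mulVecLin (fun x hx => hN a x hx)
  map_one' := by ext; simp
  map_mul' a b := by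
    refine LinearMap.ext fun x => ?_
    induction x using Submodule.Quotient.induction_on with
    | _ x =>
      change N.mkQ ((ρ (a * b)) *ᵥ x) = N.mkQ (ρ a *ᵥ (ρ b *ᵥ x))
      rw [map_mul, Matrix.mulVec_mulVec]

theorem quotAct_mk (ρ : G →* Matrix α α ℤ) (N : Submodule ℤ (α → ℤ))
    (hN : ∀ a, ∀ x ∈ N, ρ a *ᵥ x ∈ N) (a : G) (x : α → ℤ) :
    quotAct ρ N hN a (N.mkQ x) = N.mkQ (ρ a *ᵥ x) := rfl

/-- The group ring acts. -/
noncomputable def repAlg (ρ : G →* Matrix α α ℤ) : MonoidAlgebra ℤ G →ₐ[ℤ] Matrix α α ℤ :=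
  MonoidAlgebra.lift ℤ _ G ρ

theorem repAlg_of (ρ : G →* Matrix α α ℤ) (a : G) : repAlg ρ (MonoidAlgebra.of ℤ G a) = ρ a := by
  simp [repAlg]

theorem repAlg_sharp (ρ : G →* Matrix α α ℤ) (l : MonoidAlgebra ℤ G) :
    repAlg (repSharp ρ) l = (repAlg ρ l)ᵀ := by
  induction l using MonoidAlgebra.induction_on with
  | of a => rw [repAlg_of, repAlg_of]; rfl
  | add x y hx hy => rw [map_add, map_add, hx, hy, transpose_add]
  | smul r x hx => rw [map_smul, map_smul, hx, transpose_smul]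

theorem repAlg_intertwine {β : Type} [Fintype β] [DecidableEq β] (ρ : G →* Matrix α α ℤ)
    (σ : G →* Matrix β β ℤ) (i : Matrix α β ℤ) (hi : ∀ a, i * σ a = ρ a * i)
    (l : MonoidAlgebra ℤ G) : i * repAlg σ l = repAlg ρ l * i := by
  induction l using MonoidAlgebra.induction_on with
  | of a => rw [repAlg_of, repAlg_of, hi]
  | add x y hx hy => rw [map_add, map_add, Matrix.mul_add, Matrix.add_mul, hx, hy]
  | smul r x hx => rw [map_smul, map_smul, Matrix.mul_smul, Matrix.smul_mul, hx]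

/-- The stable submodule generated by `x₀` and a stable submodule. -/
def genSub (ρ : G →* Matrix α α ℤ) (K : Submodule ℤ (α → ℤ)) (x₀ : α → ℤ) :
    Submodule ℤ (α → ℤ) where
  carrier := {x | ∃ l : MonoidAlgebra ℤ G, ∃ k ∈ K, x = repAlg ρ l *ᵥ x₀ + k}
  zero_mem' := ⟨0, 0, K.zero_mem, by simp⟩
  add_mem' := by
    rintro x y ⟨l, k, hk, rfl⟩ ⟨l', k', hk', rfl⟩
    refine ⟨l + l', k + k', K.add_mem hk hk', ?_⟩
    rw [map_add, Matrix.add_mulVec]
    abel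
  smul_mem' := by
    rintro z x ⟨l, k, hk, rfl⟩
    refine ⟨z • l, z • k, K.smul_mem z hk, ?_⟩
    rw [map_smul, Matrix.smul_mulVec, smul_add]

theorem genSub_stable (ρ : G →* Matrix α α ℤ) (K : Submodule ℤ (α → ℤ))
    (hK : ∀ a, ∀ x ∈ K, ρ a *ᵥ x ∈ K) (x₀ : α → ℤ) (a : G) (x : α → ℤ)
    (hx : x ∈ genSub ρ K x₀) : ρ a *ᵥ x ∈ genSub ρ K x₀ := by
  obtain ⟨l, k, hk, rfl⟩ := hx
  refine ⟨MonoidAlgebra.of ℤ G a * l, ρ a *ᵥ k, hK a k hk, ?_⟩
  rw [Matrix.mulVec_add, Matrix.mulVec_mulVec, map_mul, repAlg_of]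

theorem le_genSub (ρ : G →* Matrix α α ℤ) (K : Submodule ℤ (α → ℤ)) (x₀ : α → ℤ) :
    K ≤ genSub ρ K x₀ := fun x hx => ⟨0, x, hx, by simp⟩

theorem self_mem_genSub (ρ : G →* Matrix α α ℤ) (K : Submodule ℤ (α → ℤ)) (x₀ : α → ℤ) :
    x₀ ∈ genSub ρ K x₀ := ⟨1, 0, K.zero_mem, by simp⟩

end Act

section Main

variable {G : Type} [CommGroup G] {μ μ' : Type} [Fintype μ] [DecidableEq μ] [Fintype μ']
  [DecidableEq μ']

/-- `coker i ≅ coker iᵀ` when `coker i` is simple. -/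
theorem exists_common_coker (σ : G →* Matrix μ μ ℤ) (σ' : G →* Matrix μ' μ' ℤ)
    (n : ℕ) (hn0 : 0 < n) (i : Matrix μ' μ ℤ) (c : Matrix μ μ' ℤ)
    (hic : i * c = (n : ℤ) • (1 : Matrix μ' μ' ℤ)) (hci : c * i = (n : ℤ) • (1 : Matrix μ μ ℤ))
    (hi : ∀ a, i * σ a = σ' a * i)
    (hne : LinearMap.range i.mulVecLin ≠ ⊤)
    (hsimple : ∀ N : Submodule ℤ (μ' → ℤ), (∀ a, ∀ x ∈ N, σ' a *ᵥ x ∈ N) →
      LinearMap.range i.mulVecLin < N → N = ⊤) :
    ∃ (T : Type) (_ : AddCommGroup T) (ρT : G →* Module.End ℤ T)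
      (p : (μ' → ℤ) →ₗ[ℤ] T) (q : (μ → ℤ) →ₗ[ℤ] T),
      (∀ a x, p (σ' a *ᵥ x) = ρT a (p x)) ∧ (∀ a x, q ((σ a)ᵀ *ᵥ x) = ρT a (q x)) ∧
      Function.Surjective p ∧ Function.Surjective q ∧
      (∀ x, p x = 0 ↔ ∃ v, x = i *ᵥ v) ∧ (∀ x, q x = 0 ↔ ∃ v, x = iᵀ *ᵥ v) := by
  -- stability of the two ranges
  have hst : ∀ a, ∀ x ∈ LinearMap.range i.mulVecLin, σ' a *ᵥ x ∈ LinearMap.range i.mulVecLin := by
    rintro a x ⟨v, rfl⟩
    exact ⟨σ a *ᵥ v, by
      rw [Matrix.mulVecLin_apply, Matrix.mulVecLin_apply, Matrix.mulVec_mulVec,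
        Matrix.mulVec_mulVec, hi]⟩
  have hiT : ∀ a, (σ a)ᵀ * iᵀ = iᵀ * (σ' a)ᵀ := fun a => by
    rw [← transpose_mul, ← transpose_mul, hi]
  have hst' : ∀ a, ∀ x ∈ LinearMap.range iᵀ.mulVecLin,
      repSharp σ a *ᵥ x ∈ LinearMap.range iᵀ.mulVecLin := by
    rintro a x ⟨v, rfl⟩
    exact ⟨(σ' a)ᵀ *ᵥ v, by
      rw [Matrix.mulVecLin_apply, Matrix.mulVecLin_apply, Matrix.mulVec_mulVec,
        Matrix.mulVec_mulVec]
      exact congrArg (· *ᵥ v) (hiT a).symm⟩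
  have hicT : iᵀ * cᵀ = (n : ℤ) • (1 : Matrix μ μ ℤ) := by
    rw [← transpose_mul, hci, transpose_smul, transpose_one]
  have hciT : cᵀ * iᵀ = (n : ℤ) • (1 : Matrix μ' μ' ℤ) := by
    rw [← transpose_mul, hic, transpose_smul, transpose_one]
  set K := LinearMap.range i.mulVecLin with hK
  set K' := LinearMap.range iᵀ.mulVecLin with hK'
  have hcard : Nat.card ((μ' → ℤ) ⧸ K) = Nat.card ((μ → ℤ) ⧸ K') :=
    card_coker_transpose hn0 hic hci
  have hfin : Finite ((μ' → ℤ) ⧸ K) := finite_coker hn0 hic hci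
  have hfin' : Finite ((μ → ℤ) ⧸ K') := finite_coker hn0 hicT hciT
  obtain ⟨x₀, hx₀⟩ : ∃ x₀, x₀ ∉ K := by
    by_contra hcon
    push Not at hcon
    exact hne (eq_top_iff.mpr fun x _ => hcon x)
  obtain ⟨y₀, hy₀⟩ : ∃ y₀, y₀ ∉ K' := by
    by_contra hcon
    push Not at hcon
    have h1 : Subsingleton ((μ → ℤ) ⧸ K') :=
      Submodule.Quotient.subsingleton_iff.mpr (eq_top_iff.mpr fun x _ => hcon x)
    have h2 : Nat.card ((μ' → ℤ) ⧸ K) = 1 := by rw [hcard]; exact Nat.card_unique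
    have h3 : Subsingleton ((μ' → ℤ) ⧸ K) := (Nat.card_eq_one_iff_unique.mp h2).1
    exact hne (Submodule.Quotient.subsingleton_iff.mp h3)
  -- the two maps from the group ring
  let a1 := repAlg σ'
  let a2 := repAlg σ
  let a3 := repAlg (repSharp σ)
  have h3T : ∀ l, a3 l = (a2 l)ᵀ := repAlg_sharp σ
  have hi2 : ∀ l, i * a2 l = a1 l * i := repAlg_intertwine σ' σ i hi
  have hi3 : ∀ l, a3 l * iᵀ = iᵀ * (a1 l)ᵀ := fun l => by
    rw [h3T, ← transpose_mul, ← transpose_mul, hi2]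
  let ev (α : Type) [Fintype α] [DecidableEq α] (ρ : G →* Matrix α α ℤ) (x : α → ℤ)
      (L : Submodule ℤ (α → ℤ)) : MonoidAlgebra ℤ G →ₗ[ℤ] ((α → ℤ) ⧸ L) :=
    { toFun := fun l => L.mkQ (repAlg ρ l *ᵥ x)
      map_add' := fun l l' => by rw [map_add, Matrix.add_mulVec, map_add]
      map_smul' := fun z l => by
        rw [map_smul, Matrix.smul_mulVec, map_smul]; rfl }
  let Φ1 := ev μ' σ' x₀ K
  let Φ2 := ev μ (repSharp σ) y₀ K'
  have hΦ1 : ∀ l, Φ1 l = K.mkQ (a1 l *ᵥ x₀) := fun _ => rfl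
  have hΦ2 : ∀ l, Φ2 l = K'.mkQ (a3 l *ᵥ y₀) := fun _ => rfl
  have hmk : ∀ x, K.mkQ x = 0 ↔ x ∈ K := fun x => by simp
  have hmk' : ∀ x, K'.mkQ x = 0 ↔ x ∈ K' := fun x => by simp
  have hgen : ∀ z, z ∉ K → ∀ x, ∃ l : MonoidAlgebra ℤ G, ∃ k ∈ K, x = a1 l *ᵥ z + k := by
    intro z hz x
    have h := hsimple (genSub σ' K z) (fun a x hx => genSub_stable σ' K hst z a x hx)
      (lt_of_le_of_ne (le_genSub σ' K z) (fun h => hz (h ▸ self_mem_genSub σ' K z)))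
    have hx : x ∈ genSub σ' K z := by rw [h]; trivial
    exact hx
  have hsurj1 : Function.Surjective Φ1 := by
    intro t
    obtain ⟨x, rfl⟩ := Submodule.mkQ_surjective K t
    obtain ⟨l, k, hk, rfl⟩ := hgen x₀ hx₀ x
    refine ⟨l, ?_⟩
    rw [hΦ1, map_add, (hmk k).mpr hk, add_zero]
  -- `ker Φ1 ≤ ker Φ2`
  have h12 : LinearMap.ker Φ1 ≤ LinearMap.ker Φ2 := by
    intro l hl
    rw [LinearMap.mem_ker, hΦ1, hmk] at hl
    obtain ⟨w, hw⟩ := hl
    rw [Matrix.mulVecLin_apply] at hw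
    obtain ⟨X, hX⟩ : ∃ X : Matrix μ μ' ℤ, i * X = a1 l := exists_mat_of_mem _ _ fun k => by
      obtain ⟨l', k', ⟨v, rfl⟩, hk⟩ := hgen x₀ hx₀ (Pi.single k 1)
      refine ⟨a2 l' *ᵥ w + a2 l *ᵥ v, ?_⟩
      rw [← Matrix.mulVec_single_one, hk, Matrix.mulVecLin_apply, Matrix.mulVec_add,
        Matrix.mulVec_add, Matrix.mulVec_mulVec, Matrix.mulVec_mulVec, Matrix.mulVec_mulVec,
        Matrix.mulVec_mulVec, hi2, hi2, ← map_mul, mul_comm l l', map_mul, ← Matrix.mulVec_mulVec,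
        ← hw, Matrix.mulVec_mulVec]
    have hXi : X * i = a2 l := by
      apply mul_left_cancel_of_smul hn0 hci
      rw [← Matrix.mul_assoc, hX, hi2]
    rw [LinearMap.mem_ker, hΦ2, hmk']
    refine ⟨Xᵀ *ᵥ y₀, ?_⟩
    rw [Matrix.mulVecLin_apply, Matrix.mulVec_mulVec, h3T, ← hXi, transpose_mul]
  -- `ker Φ2 ≤ ker Φ1`
  have h21 : LinearMap.ker Φ2 ≤ LinearMap.ker Φ1 := by
    intro l hl
    rw [LinearMap.mem_ker, hΦ2, hmk'] at hl
    obtain ⟨w, hw⟩ := hl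
    rw [Matrix.mulVecLin_apply] at hw
    rw [LinearMap.mem_ker, hΦ1, hmk]
    by_contra hcon
    obtain ⟨l', k, hk, hx⟩ := hgen _ hcon x₀
    have h1 : (1 - l' * l) ∈ LinearMap.ker Φ1 := by
      rw [LinearMap.mem_ker, hΦ1, map_sub, map_mul, map_one, Matrix.sub_mulVec,
        Matrix.one_mulVec, ← Matrix.mulVec_mulVec, hmk]
      have : x₀ - a1 l' *ᵥ (a1 l *ᵥ x₀) = k := by
        nth_rewrite 1 [hx]
        abel
      rw [this]
      exact hk
    have h2 := h12 h1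
    rw [LinearMap.mem_ker, hΦ2, map_sub, map_mul, map_one, Matrix.sub_mulVec,
        Matrix.one_mulVec, ← Matrix.mulVec_mulVec, hmk'] at h2
    apply hy₀
    have h3 : a3 l' *ᵥ (a3 l *ᵥ y₀) ∈ K' := by
      rw [← hw, Matrix.mulVec_mulVec, hi3]
      exact ⟨(a1 l')ᵀ *ᵥ w, by rw [Matrix.mulVecLin_apply, Matrix.mulVec_mulVec]⟩
    have h4 := K'.add_mem h2 h3
    rwa [sub_add_cancel] at h4
  -- the isomorphism
  let e1 := LinearMap.quotKerEquivOfSurjective Φ1 hsurj1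
  let f2 : (MonoidAlgebra ℤ G ⧸ LinearMap.ker Φ1) →ₗ[ℤ] ((μ → ℤ) ⧸ K') :=
    (LinearMap.ker Φ1).liftQ Φ2 h12
  have hf2 : Function.Injective f2 :=
    LinearMap.ker_eq_bot.mp (Submodule.ker_liftQ_eq_bot _ Φ2 h12 h21)
  let θ : ((μ' → ℤ) ⧸ K) →ₗ[ℤ] ((μ → ℤ) ⧸ K') := f2 ∘ₗ e1.symm.toLinearMap
  have hθinj : Function.Injective θ := hf2.comp e1.symm.injective
  have hθ : Function.Bijective θ := hθinj.bijective_of_nat_card_le (le_of_eq hcard.symm)
  have hθΦ : ∀ l, θ (Φ1 l) = Φ2 l := by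
    intro l
    have h1 : e1.symm (Φ1 l) = (LinearMap.ker Φ1).mkQ l := by
      rw [LinearEquiv.symm_apply_eq]
      rfl
    change f2 (e1.symm (Φ1 l)) = _
    rw [h1]
    rfl
  let Θ : ((μ' → ℤ) ⧸ K) ≃ₗ[ℤ] ((μ → ℤ) ⧸ K') := LinearEquiv.ofBijective θ hθ
  have hΘ : ∀ t, Θ t = θ t := fun _ => rfl
  refine ⟨(μ' → ℤ) ⧸ K, inferInstance, quotAct σ' K hst, K.mkQ,
    Θ.symm.toLinearMap ∘ₗ K'.mkQ, fun a x => (quotAct_mk σ' K hst a x).symm, ?_,
    Submodule.mkQ_surjective K, ?_, ?_, ?_⟩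
  · intro a x
    change Θ.symm (K'.mkQ (repSharp σ a *ᵥ x)) = quotAct σ' K hst a (Θ.symm (K'.mkQ x))
    rw [LinearEquiv.symm_apply_eq]
    obtain ⟨l, hl⟩ := hsurj1 (Θ.symm (K'.mkQ x))
    have h1 : K'.mkQ x = Φ2 l := by
      rw [← hθΦ, hl]
      change _ = Θ (Θ.symm _)
      rw [LinearEquiv.apply_symm_apply]
    have h2 : quotAct σ' K hst a (Φ1 l) = Φ1 (MonoidAlgebra.of ℤ G a * l) := by
      rw [hΦ1, quotAct_mk, hΦ1, map_mul]
      change _ = K.mkQ ((repAlg σ' _ * a1 l) *ᵥ x₀)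
      rw [repAlg_of, Matrix.mulVec_mulVec]
    rw [← hl, h2, hΘ, hθΦ, ← quotAct_mk (repSharp σ) K' hst', h1, hΦ2, quotAct_mk, hΦ2, map_mul]
    change _ = K'.mkQ ((repAlg (repSharp σ) _ * a3 l) *ᵥ y₀)
    rw [repAlg_of, Matrix.mulVec_mulVec]
  · exact Θ.symm.surjective.comp (Submodule.mkQ_surjective K')
  · intro x
    rw [hmk]
    constructor
    · rintro ⟨v, rfl⟩; exact ⟨v, rfl⟩
    · rintro ⟨v, rfl⟩; exact ⟨v, rfl⟩
  · intro x
    change Θ.symm (K'.mkQ x) = 0 ↔ _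
    rw [LinearEquiv.symm_apply_eq, map_zero, hmk']
    constructor
    · rintro ⟨v, rfl⟩; exact ⟨v, rfl⟩
    · rintro ⟨v, rfl⟩; exact ⟨v, rfl⟩

end Main

end Vale.Agent.P268.Z
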